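import Vale.Agent.P354FC.Parts
import Vale.Agent.P354FW.Far
import Vale.Agent.P354FQ.Sm

/-!
The bulk at bounded frequencies: the integration of the pointwise bounds.
-/

open MeasureTheory Set Filter

noncomputable section

namespace Vale.Agent.P354YV

open Vale.Agent.P354XG Vale.Agent.P354XD Vale.Agent.P354XR Vale.Agent.P354XI Vale.Agent.P354Z
open Vale.Agent.P354XT Vale.Agent.P354SI Vale.Agent.P354FC
open Vale.Agent.P354YH (wt sm sm_mono sm_nn sm_mul sm_add wt_sum wt_add wt_le_wt wt_pos)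
open Vale.Agent.P354FW (Wf Cf sl_intF sl_leF cf_q r0_lt)

variable {P : Pr} {σ : St P}

theorem fa_la (b : Bool) (u) : σ.Cn (σ.la b u) := by
  have c : ∀ α : ℝ, ContinuousOn (fun x : E6 => x.2.1 ^ α) σ.E.O1 := fun α =>
    continuous_snd.fst.continuousOn.rpow_const fun x hx => .inl (σ.cone.pos x hx).1.ne'
  cases b
  · exact (c _).mul (σ.cn_sq _)
  · exact ((c _).mul (σ.cn_sq _)).add ((c _).mul (σ.cn_sq _))

theorem fa_nn (n : ℕ) {x : E6} (r : 0 < x.2.1) : 0 ≤ FD σ.c σ.E n x :=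
  Finset.sum_nonneg fun _ _ => mul_nonneg (Real.rpow_nonneg r.le _) (P354BO.q2_nonneg ..)

theorem fa_rI (hP : P.Ok) (σ : St P) : P.c.r0 < P.c.R1 - 1 ∧ P.rI ≤ P.c.R1 - 1 ∧ 0 < P.c.R1 := by
  have b : 10 * P.c.M + 10 ≤ P.c.R1 := σ.ok.R1
  have c : P.rI < P.c.M + √(P.c.M ^ 2 - P.c.a ^ 2) := hP.rI.2
  have := Real.sqrt_le_iff.2 ⟨σ.M0.le, sub_le_self (P.c.M ^ 2) (sq_nonneg P.c.a)⟩
  refine ⟨?_, ?_, ?_⟩ <;> linarith [σ.M0, σ.d_pos, hP.rI.1]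

/-- The fourth power of the distance to Kerr is summable. -/
theorem fa_sum (hP : P.Ok) : ∃ A, 0 ≤ A ∧ ∀ σ : St P, σ.eps ≤ 1 → ∀ k,
    sm P.Q k (fun j => fh P σ j ^ 4) ≤ A * σ.D := by
  obtain ⟨A, A0, h⟩ := wt_sum (s := 2) one_lt_two
  refine ⟨A, A0, fun σ e k => ?_⟩
  have s : P.c.s0 = 7 / 5 := σ.ok.s0
  have d : σ.eps ^ 4 ≤ σ.D := (pow_le_pow_of_le_one σ.e0.le e (by norm_num)).trans σ.d3
  refine (Finset.sum_le_sum (g := fun j => wt (-2) j * σ.D) fun j _ => ?_).trans ?_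
  · have a : wt P.Q j * wt (-P.c.s0) j ^ 4 ≤ wt (-2) j := by
      rw [pow_succ, pow_three, ← wt_add, ← wt_add, ← wt_add, ← wt_add]
      exact wt_le_wt (by linarith [hP.Q3]) j
    simp only [fh]
    rw [mul_pow, mul_left_comm, mul_comm]
    exact mul_le_mul a d (pow_nonneg σ.e0.le _) (wt_pos ..).le
  · rw [← Finset.sum_mul]
    exact mul_le_mul_of_nonneg_right (h _) ((pow_nonneg σ.e0.le _).trans d)

/-- One density on one slab. -/
theorem fa_one (hP : P.Ok) {J j n m : ℕ} {R0 Rc C B K : ℝ} {F : E6 → ℝ} (h0 : P.c.R1 + 3 ≤ R0)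
    (h1 : R0 + 3 ≤ σ.R2) (h2 : 2 * Rc + 2 ≤ σ.R2) (C0 : 0 ≤ C) (B0 : 0 ≤ B) (K0 : 0 ≤ K)
    (c : σ.Cn F) (F0 : ∀ x, 0 ≤ F x)
    (a : ∀ x ∈ σ.E.O1, An x → P.c.t1 + j ≤ x.1 → x.1 ≤ P.c.t1 + j + 2 → P.c.R1 - 1 ≤ x.2.1 →
      x.2.1 ≤ R0 + 1 → F x ≤ C * σ.E.eta n x)
    (b : ∀ x ∈ σ.E.O1, An x → P.c.t1 + j ≤ x.1 → x.1 ≤ P.c.t1 + j + 2 → P.c.R1 + 3 ≤ x.2.1 →
      x.2.1 ≤ 2 * Rc + 1 → F x ≤ B * FD σ.c σ.E m x + K) :
    σ.sj j (fun r => up (P.c.R1 + J - 1) (P.c.R1 + J) r * dn (2 * Rc) (2 * Rc + 1) r) F ≤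
      C * fy P n (R0 + 1) σ j +
        B * σ.sj j (fun r => up R0 (R0 + 1) r * dn (2 * Rc) (2 * Rc + 1) r) (FD σ.c σ.E m) +
        K * sl 0 (fun r => up (P.c.R1 + J - 1) (P.c.R1 + J) r * dn (2 * Rc) (2 * Rc + 1) r)
          fun _ => 1 := by
  obtain ⟨r1, r2, r3⟩ := fa_rI hP σ
  have J0 := J.cast_nonneg (α := ℝ)
  have wn := fun x y r => mul_nonneg (up_nonneg x y r) (dn_nonneg (2 * Rc) (2 * Rc + 1) r)
  by_cases hj : j ≤ σ.K
  swap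
  · simp only [fy, St.sj, if_neg hj, mul_zero, zero_add]
    exact mul_nonneg K0 (sl_nn fun x => (wn ..).trans_eq (mul_one _).symm)
  have sa := σ.sa (hj.trans (Nat.le_add_right _ 2))
  have w := St.wc_of (σ := σ) (x := P.c.R1 + J - 1) (x' := P.c.R1 + J) (by linarith)
    (sub_one_lt _) (lt_add_one (2 * Rc)) (by linarith)
  have w' : Wf σ fun r => up R0 (R0 + 1) r * dn (2 * Rc) (2 * Rc + 1) r :=
    ⟨(up_sm _ _).continuous.mul (dn_sm _ _).continuous, R0, 2 * Rc + 1, h0, by linarith,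
      fun r hr => by
        rcases not_and_or.1 hr with h | h
        · exact mul_eq_zero_of_left (up_zero (lt_add_one _) (not_le.1 h).le) _
        · exact mul_eq_zero_of_right _ (dn_zero (lt_add_one _) (not_le.1 h).le)⟩
  have n1 : ∀ x : E6, 0 ≤ C * (P.ch x.2.1 * σ.out (R0 + 1) x.2.1 * σ.E.eta n x) := fun x =>
    mul_nonneg C0 (mul_nonneg (mul_nonneg (up_nonneg ..) (St.out_nn ..)) (σ.eta_nn ..))
  have n2 : ∀ x : E6, 0 ≤ B * (up R0 (R0 + 1) x.2.1 * dn (2 * Rc) (2 * Rc + 1) x.2.1 *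
      FD σ.c σ.E m x) := fun x => by
    rcases le_total x.2.1 R0 with e | e
    · rw [up_zero (lt_add_one _) e, zero_mul, zero_mul, mul_zero]
    · exact mul_nonneg B0 (mul_nonneg (wn ..) (fa_nn m (by linarith)))
  have n3 := fun x y r => mul_nonneg K0 ((wn x y r).trans_eq (mul_one _).symm)
  rw [← P354FQ.sl_one (P.c.t1 + j)]
  simp only [fy, St.sj_eq hj]
  refine sl_leF sa w (St.sl_int sa w c) (St.sl_int sa (St.wc_y hP σ _) (σ.cn_eta _))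
    (sl_intF sa w' (continuousOn_finsetSum _ fun _ _ => cf_q _ _ _))
    (St.sl_int sa w continuousOn_const) (fun x => add_nonneg (add_nonneg (n1 x) (n2 x)) (n3 ..))
    fun x x1 x2 x3 x4 x5 => ?_
  have y1 : P.c.R1 + J - 1 ≤ x.2.1 := not_lt.1 fun e =>
    x5 (mul_eq_zero_of_left (up_zero (sub_one_lt _) e.le) _)
  have y2 : x.2.1 ≤ 2 * Rc + 1 := not_lt.1 fun e =>
    x5 (mul_eq_zero_of_right _ (dn_zero (lt_add_one _) e.le))
  have u := up_le (P.c.R1 + J - 1) (P.c.R1 + J) x.2.1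
  rcases le_total x.2.1 (R0 + 1) with e | e
  · have := mul_le_of_le_one_left (F0 x) (mul_le_one₀ u (dn_nonneg (2 * Rc) (2 * Rc + 1) x.2.1)
      (dn_le ..))
    have z := n2 x
    have z' := n3 (P.c.R1 + J - 1) (P.c.R1 + J) x.2.1
    rw [hP.ch_one (by linarith), St.out_one e (by linarith)]
    linarith [a x x1 x2 x3 x4 (by linarith) e]
  · have z := mul_le_mul_of_nonneg_left (b x x1 x2 x3 x4 (by linarith) y2)
      (wn (P.c.R1 + J - 1) (P.c.R1 + J) x.2.1)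
    have z' := mul_le_of_le_one_left (mul_nonneg (dn_nonneg (2 * Rc) (2 * Rc + 1) x.2.1)
      (mul_nonneg B0 (fa_nn (σ := σ) m (x := x) (by linarith)))) u
    rw [up_one (lt_add_one R0) e]
    linarith [n1 x]

theorem asm : ASM := by
  intro P G Γ hP hG ⟨nN, hN⟩ ⟨nF, BF, BF0, hF⟩ ⟨m, R0, R1, B, r0, B0, hQ⟩ J
  have f := form hP hG (Γ := fun _ _ _ _ => 0) fun _ _ _ _ => le_rfl
  obtain ⟨CN, CN0, hN⟩ := hN (R0 + 1)
  obtain ⟨A, A0, hA⟩ := fa_sum hP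
  obtain ⟨L, L0, hL⟩ : ∃ L : ℝ, 0 ≤ L ∧ L = 2 * ((P.n0 + 1 : ℕ) : ℝ) := ⟨_, by positivity, rfl⟩
  refine ⟨nN + 1 + nF + m, max (R0 + 1) R1, L * (CN + BF * B), by positivity, fun Rc => ?_⟩
  obtain ⟨K, K0, hF⟩ := hF (2 * Rc + 1)
  obtain ⟨R'', C, C0, hQ⟩ := hQ Rc
  obtain ⟨V, V0, hV⟩ : ∃ V : ℝ, 0 ≤ V ∧ V = sl 0 (fun r => up (P.c.R1 + J - 1) (P.c.R1 + J) r *
      dn (2 * Rc) (2 * Rc + 1) r) fun _ => 1 :=
    exists_eq_right.2 (sl_nn fun x => mul_nonneg (mul_nonneg (up_nonneg ..) (dn_nonneg ..))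
      zero_le_one)
  refine ⟨R'', L * (BF * C + K * V * A), by positivity, ?_⟩
  filter_upwards [f.ev (n' := nN + 1 + nF + m) (by omega) hQ,
    ev_sys (hN.filter_mono (F0_anti (by omega))), ev_sys (hF.filter_mono (F0_anti (by omega))),
    ev_sys (ev_R _ (R0 + 3)), ev_sys (ev_R _ (2 * Rc + 2)), ev_sys (ev_e _ one_pos)]
    with σ hQ hN hF e1 e2 e3 k hk
  have a : ∀ j, fB P J Rc σ j ≤ L * (CN * fy P nN (R0 + 1) σ j + BF * σ.sj j
      (fun r => up R0 (R0 + 1) r * dn (2 * Rc) (2 * Rc + 1) r) (FD σ.c σ.E (P.n0 + 6)) +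
      K * V * fh P σ j ^ 4) := fun j => by
    refine (Finset.sum_le_card_nsmul _ _ _ fun b _ => Finset.sum_le_card_nsmul _ _ _ fun i hi =>
      fa_one hP r0 e1 e2 CN0 BF0 (K := K * fh P σ j ^ 4) (by positivity) (fa_la b _) (σ.la_nn b _)
        (fun x x1 x2 x3 x4 x5 x6 => hN j x x1 x2 x3 x4 x5 x6 b i (Finset.mem_range_succ_iff.1 hi))
        (fun x x1 x2 x3 x4 x5 x6 =>
          hF j x x1 x2 x3 x4 x5 x6 b i (Finset.mem_range_succ_iff.1 hi))).trans_eq ?_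
    rw [← hV, hL, Finset.card_range, Finset.card_univ, Fintype.card_bool, nsmul_eq_mul,
      nsmul_eq_mul]
    push_cast
    ring
  have a := sm_mono P.Q k a
  rw [sm_mul, sm_add, sm_add, sm_mul, sm_mul, sm_mul] at a
  have b1 := mul_le_mul_of_nonneg_left (sm_mono P.Q k (f.yB (n := nN) (n' := nN + 1 + nF + m)
    (by omega) (le_max_left (R0 + 1) R1) σ)) CN0
  have b2 := mul_le_mul_of_nonneg_left (sm_mono P.Q k (f.Bm (n := m) (n' := nN + 1 + nF + m)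
    (by omega) (le_max_right (R0 + 1) R1) σ)) (mul_nonneg BF0 B0)
  have b3 := mul_le_mul_of_nonneg_left (sm_mono P.Q k (f.hm (n := m) (n' := nN + 1 + nF + m)
    (by omega) (le_refl R'') σ)) (mul_nonneg BF0 C0)
  have b4 := mul_le_mul_of_nonneg_left (hQ k hk) BF0
  have b5 := mul_le_mul_of_nonneg_left (hA σ e3.1 k) (mul_nonneg K0 V0)
  have b6 := mul_nonneg (mul_nonneg (mul_nonneg K0 V0) A0)
    (sm_nn P.Q k (f.hn (nN + 1 + nF + m) R'' σ))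
  refine a.trans ?_
  rw [mul_assoc L, mul_assoc L, ← mul_add]
  refine mul_le_mul_of_nonneg_left ?_ L0
  change _ * sm P.Q k (fy P nN (R0 + 1) σ) ≤ _ * sm P.Q k ((sys P G Γ).B _ _ σ) at b1
  change _ * sm P.Q k ((sys P G Γ).B _ _ σ) ≤ _ * sm P.Q k ((sys P G Γ).B _ _ σ) at b2
  change _ * sm P.Q k ((sys P G Γ).hy _ _ σ) ≤ _ * sm P.Q k ((sys P G Γ).hy _ _ σ) at b3
  change _ ≤ _ * sm P.Q k ((sys P G Γ).hy _ _ σ) at b6
  change _ ≤ _ * sm P.Q k _ + _ * (σ.D + sm P.Q k _)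
  linarith

end Vale.Agent.P354YV
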