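import Vale.Agent.P354YV.Main
import Vale.Agent.P354XP.Defs
import Vale.Agent.P354YX.Defs
import Vale.Agent.P354EN.Amp

/-!
The transfer of the kick from the initial slice to the top of the slab.
-/

open scoped ContDiff
open Set

noncomputable section

namespace Vale.Agent.P354YV

open Vale.Agent.P354n (R4)
open Vale.Agent.P354H (X3 e)
open Vale.Agent.P354C Vale.Agent.P354C.Ix
open Vale.Agent.P354A (cmp)
open Vale.Agent.P354I (X)
open Vale.Agent.P354J (Ind)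
open Vale.Agent.P354K (n0)
open Vale.Agent.P354GT (Fu)
open Vale.Agent.P354PU (pg)
open Vale.Agent.P354XS (DA qm)
open Vale.Agent.P354XB (Pa wv Gro Box Slab amp Win SLAB Kick top)
open Vale.Agent.P354XP (Cht Hull KSG LOC)
open Vale.Agent.P354YJ (RT Ab)
open Vale.Agent.P354YX (TOPK Tw pT)
open Vale.Agent.P354EN (B v4 dv B_Pa)

/-- The support of the kick in the chart of the slab. -/
def Sp (R w : ℝ) : Set X3 := {z | z.1 ∈ Icc (R - w / 4) (R + 5 / 4 * w) ∧ ‖z.2‖ ≤ 3 / 2}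

/-- TRK: data d' near d whose development in the slab is a kick on the top slice. The order k of
the smallness in the slab is arbitrary. -/
def TRK : Prop :=
  ∃ Λ : ℝ, ∀ (β : ℝ) (k : ℕ), ∃ w0 > 0, ∀ w ∈ Ioc 0 w0, ∃ n : ℕ, ∀ (b cP : ℝ), 0 < cP →
    ∀ c > 0, ∃ c0 > 0, ∀ M a : ℝ, |a| < M → ∀ (d : DA M a) (m : ℕ), ∃ (N : ℕ) (ρ0 : ℝ),
      ∀ (σ : Bool) (T δ R G ν ρ A l : ℝ) (γ π : ℝ → ℝ) (U : R4 → Ix → ℝ) (j : X3 → X), 0 < T →
        0 < δ → Gro (T + δ) G ν γ → Slab n T δ R w G β γ π U → ρ0 ≤ ρ → ρ ≤ G →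
        Cht n R w G ρ c σ j →
        (∀ z ∈ Win R w 6, Ind (U (0, z)) (pg j d.1.h z) (pg j d.1.K z) ∧
          (z.1 ≤ R - w ∨ 2 ≤ ‖z.2‖ → j z ∉ Hull (c0 * ρ) (j '' Sp R w))) →
        (∀ z ∈ Tw R w, cP ≤ detP (U (pT T z)) ∧ RT (top U T) z = top U T z ∧
          ∀ i, Ab 5 (cmp (top U T) i) z b) →
        G ^ N ≤ l → 0 < A → A * (l * G) ^ N ≤ 1 →
        ∃ d' : DA M a, qm m d'.1 d.1 ≤ ENNReal.ofReal (A * (l * G) ^ N) ∧
          (∀ y ≠ 0, y ∉ Hull (c0 * ρ) (j '' Sp R w) →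
            d'.1.h y = d.1.h y ∧ d'.1.K y = d.1.K y) ∧
          ∃ δ' ∈ Ioc 0 δ, ∃ U',
            Fu U' (Box (-δ') (T + δ') (R - 2 * w) (R + 5 / 2 * w) (9 / 2)) ∧
            (∀ p ∈ Box (-δ') (T + δ') (R - 2 * w) (R + 5 / 2 * w) (9 / 2), 0 < detP (U' p) ∧
              (p.1 + p.2.1 ≤ R - 3 / 2 * w ∨ 3 ≤ ‖p.2.2‖ → U' p = U p) ∧
              (p.1 = 0 → Ind (U' p) (pg j d'.1.h p.2) (pg j d'.1.K p.2)) ∧
              (0 ≤ p.1 → ∀ i, Pa l k (cmp (U' - U) i) p (A * G ^ N))) ∧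
            Kick Λ R w A (top U T) (RT (top U' T))

theorem B_sin {l : ℝ} (hl : 0 ≤ l) (n : ℕ) (c φ : ℝ) (p : R4) :
    B v4 l n (fun q => c * Real.sin (l * (q.1 + q.2.1) + φ)) p |c| := by
  have sm : ContDiff ℝ ∞ fun q : R4 => c * Real.sin (l * (q.1 + q.2.1) + φ) := by fun_prop
  have z : |c * Real.sin (l * (p.1 + p.2.1) + φ)| ≤ |c| := by
    rw [abs_mul]
    exact mul_le_of_le_one_right (abs_nonneg _) (Real.abs_sin_le_one _)
  induction n generalizing c φ with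
  | zero => exact P354EN.B_zero sm.contDiffAt z
  | succ n ih =>
    refine P354EN.B_succ sm.contDiffAt z fun j => ?_
    have k : dv (v4 j) (fun q : R4 => c * Real.sin (l * (q.1 + q.2.1) + φ)) = fun q =>
        c * (l * (e j).1) * Real.sin (l * (q.1 + q.2.1) + (φ + Real.pi / 2)) := funext fun q => by
      have := (((((hasFDerivAt_fst (𝕜 := ℝ) (p := q)).add (hasFDerivAt_snd (p := q)).fst).const_mul
        l).add_const φ).sin.const_mul c).fderiv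
      simp only [Pi.add_apply] at this
      rw [dv, this, ← add_assoc, Real.sin_add_pi_div_two]
      simp [v4]
      ring
    rw [k]
    refine (ih _ _ (by fun_prop) (by
      rw [abs_mul]
      exact mul_le_of_le_one_right (abs_nonneg _) (Real.abs_sin_le_one _))).mono hl le_rfl ?_
    rw [abs_mul]
    refine mul_le_mul_of_nonneg_left ?_ (abs_nonneg _)
    fin_cases j <;> simp [e, n0, abs_of_nonneg hl]

theorem cht_mono {n m : ℕ} {R w G G' ρ c : ℝ} {σ : Bool} {j : X3 → X} (h : Cht n R w G ρ c σ j)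
    (hm : m ≤ n) (h0 : 0 < G) (k : G ≤ G') : Cht m R w G' ρ c σ j :=
  ⟨h.sm, h.inj, fun z hz => ⟨(inv_anti₀ h0 k).trans (h.bd z hz).1, fun i =>
    sa_mono ((h.bd z hz).2 i) zero_le_one le_rfl hm k⟩, h.loc⟩

theorem pa_mono {l c d : ℝ} {n m : ℕ} {f : R4 → ℝ} {p : R4} (h : Pa l n f p c) (hl : 0 ≤ l)
    (hm : m ≤ n) (k : c ≤ d) : Pa l m f p d := fun α hα =>
  (h α (hα.trans hm)).trans (mul_le_mul_of_nonneg_right k (pow_nonneg hl _))

theorem trk (hS : SLAB) (hK : KSG) (hL : LOC) (hT : TOPK) : TRK := by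
  obtain ⟨Λ, hT⟩ := hT
  refine ⟨Λ, fun β k => ?_⟩
  obtain ⟨w0, hw0, S⟩ := slabd hS β (k + 5)
  refine ⟨w0, hw0, fun w hw => ?_⟩
  obtain ⟨n1, S⟩ := S w hw
  obtain ⟨n2, hK⟩ := hK n1
  obtain ⟨N0, S⟩ := S (n1 + n2 + k) (by omega)
  obtain ⟨Na, ha⟩ := P354EN.amp_bd k
  refine ⟨n1 + n2 + k + 1, fun b cP hP c hc => ?_⟩
  obtain ⟨c0, hc0, hK⟩ := hK c hc
  obtain ⟨C, C1, hT⟩ := hT w hw.1 b cP hP (n1 + n2 + k)
  obtain ⟨s, hs⟩ := pow_unbounded_of_one_lt C (one_lt_two (α := ℝ))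
  refine ⟨c0, hc0, fun M a hM d m => ?_⟩
  obtain ⟨N2, ρ0, hK⟩ := hK M a hM d m
  obtain ⟨N3, S⟩ := S ((N0 + 1) * N2)
  refine ⟨(s + 1) * ((N0 + 1) * N2 + 2 * (N3 + 1) + (k + Na + 1)), max ρ0 1,
    fun σ T δ R G ν ρ A l γ π U j T0 hδ hG hU r0 rG hj hb ht hl hA hAl => ?_⟩
  obtain ⟨α, hα, zα, hT⟩ := hT R
  have G1 : 1 ≤ G := one_le_two.trans hG.hG
  have G0 : 0 < G := one_pos.trans_le G1
  have l1 : 1 ≤ l := (one_le_pow₀ G1).trans hl
  have l0 : 0 ≤ l := zero_le_one.trans l1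
  have lG : 1 ≤ l * G := one_le_mul_of_one_le_of_one_le l1 G1
  generalize hN : (s + 1) * ((N0 + 1) * N2 + 2 * (N3 + 1) + (k + Na + 1)) = N at *
  generalize hH : G ^ (s + 1) = H at *
  have GH : G ≤ H := hH ▸ le_self_pow₀ G1 s.succ_ne_zero
  have H2 : 2 ≤ H := hG.hG.trans GH
  have H1 : 1 ≤ H := G1.trans GH
  have CH : C ≤ H := hs.le.trans ((pow_le_pow_left₀ zero_le_two hG.hG s).trans
    (hH ▸ pow_le_pow_right₀ G1 s.le_succ))
  have pw : ∀ t, t ≤ (N0 + 1) * N2 + 2 * (N3 + 1) + (k + Na + 1) → H ^ t ≤ G ^ N := fun t ht => by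
    rw [← hH, ← pow_mul, ← hN]
    exact pow_le_pow_right₀ G1 (Nat.mul_le_mul_left _ ht)
  have pl : ∀ t u, u ≤ (N0 + 1) * N2 + 2 * (N3 + 1) + (k + Na + 1) → t ≤
      (N0 + 1) * N2 + 2 * (N3 + 1) + (k + Na + 1) →
      A * (l ^ u * H ^ t) ≤ A * (l * G) ^ N := fun t u hu ht => by
    rw [mul_pow]
    exact mul_le_mul_of_nonneg_left (mul_le_mul (pow_le_pow_right₀ l1 (by nlinarith))
      (pw t ht) (by positivity) (by positivity)) hA.le
  have hα' := prf_mono hα le_rfl CH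
  obtain ⟨α0, h0, z0, S⟩ := S T δ R H ν γ π U α T0 hδ (gro_mono hG GH)
    (slab_mono hU le_rfl G0 GH) hα'
  have HH : H ≤ H ^ (N0 + 1) := le_self_pow₀ H1 N0.succ_ne_zero
  have e2 : A * (l * H ^ (N0 + 1)) ^ N2 ≤ A * (l * G) ^ N := by
    rw [mul_pow, ← pow_mul]
    exact pl _ _ (by nlinarith) (by omega)
  obtain ⟨d', q1, q2, q3⟩ := hK σ R w _ ρ A l j α0 hw.1 ((le_max_left _ _).trans r0)
    (rG.trans (GH.trans HH)) (cht_mono hj (by omega) G0 (GH.trans HH))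
    (prf_mono h0 (by omega) (pow_le_pow_right₀ H1 N0.le_succ)) l1 hA (e2.trans hAl)
  have sub : Hull (c0 * ρ) (j '' tsupport α0) ⊆ Hull (c0 * ρ) (j '' Sp R w) := by
    have : tsupport α0 ⊆ Sp R w := closure_minimal (fun z hz => by
      by_contra k
      refine hz (z0 z (zα z ?_))
      by_contra k'
      push Not at k'
      exact k ⟨⟨k'.1.le, k'.2.1.le⟩, k'.2.2.le⟩)
      ((isClosed_Icc.preimage continuous_fst).inter
        (isClosed_le continuous_snd.norm continuous_const))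
    rintro y ⟨x, hx, k⟩
    exact ⟨x, image_mono this hx, k⟩
  have ne : ∀ z ∈ Win R w 6, j z ≠ 0 ∧ (P354PU.JG j z).det ≠ 0 := fun z hz =>
    ⟨norm_pos_iff.1 (one_pos.trans_le (((le_max_right _ _).trans r0).trans (hj.loc z hz).1)),
      abs_pos.1 ((inv_pos.2 G0).trans_le (hj.bd z hz).1)⟩
  obtain ⟨δ', hδ', U', f, S⟩ := S A l _ _ _ _ _ _ ((pw N3 (by omega)).trans hl) hA
    (le_trans (by simpa [mul_assoc] using pl N3 1 (by omega) (by omega)) hAl)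
    (hL d.1 j _ d.2.1 d.2.2.1 (win_open R w 6) hj.sm ne)
    (hL d'.1 j _ d'.2.1 d'.2.2.1 (win_open R w 6) hj.sm ne) fun z hz =>
      ⟨(hb z hz).1, fun k => (q3 z hz).1 fun k' => (hb z hz).2 k (sub k'), fun i => by
        rw [pow_mul]
        exact (q3 z hz).2 i⟩
  have mem : ∀ p ∈ Box (-δ') (T + δ') (R - 2 * w) (R + 5 / 2 * w) (9 / 2),
      p ∈ P354EN.Dm T δ R w := fun p hp =>
    ⟨⟨by linarith [hp.1.1, hδ'.2], by linarith [hp.1.2, hδ'.2]⟩,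
      ⟨by linarith [hp.2.1.1, hw.1], by linarith [hp.2.1.2, hw.1]⟩, by linarith [hp.2.2]⟩
  have sm : ∀ p ∈ Box (-δ') (T + δ') (R - 2 * w) (R + 5 / 2 * w) (9 / 2), ∀ i,
      ContDiffAt ℝ ∞ (cmp U' i) p := fun p hp i =>
    (f.1 i).contDiffAt ((box_open _ _ _ _ _).mem_nhds hp)
  have sq : H ^ (N3 + 1) ≤ √l := Real.le_sqrt_of_sq_le (by
    rw [← pow_mul']
    exact (pw _ (by omega)).trans hl)
  have s1 : 1 ≤ √l := (one_le_pow₀ H1).trans sq
  refine ⟨d', q1.trans (ENNReal.ofReal_le_ofReal e2), fun y hy k => q2 y hy fun k' => k (sub k'),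
    δ', hδ', U', f, fun p hp => ⟨(S p hp).1, (S p hp).2.1, (S p hp).2.2.1, fun h i => ?_⟩,
    hT T A l (A * H ^ N3 / √l) U U' (CH.trans ((by simpa using pw 1 (by omega) :
      H ≤ G ^ N).trans hl)) hA ((le_mul_of_one_le_right hA.le (one_le_pow₀ lG)).trans hAl) ?_
      fun z hz => ?_⟩
  · have b1 := (B_sin l0 k A 0 p).mul l0 ((ha T δ R w H β γ π U α p i H2 T0 hδ
      (slab_mono hU (by omega) G0 GH) (prf_mono hα' (by omega) le_rfl) (mem p hp)).up l1)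
    simp only [add_zero] at b1
    have b2 : B v4 l k (cmp (U' - U - wv A l (amp U T α)) i) p _ :=
      B_Pa.2 ⟨((sm p hp i).sub (P354EN.slab_sm hU (mem p hp) i)).sub b1.1,
        pa_mono ((S p hp).2.2.2 h i) l0 (Nat.le_add_right k 5) le_rfl⟩
    have b3 := (B_Pa.1 ((b2.add b1).congr (g := cmp (U' - U) i) (.of_forall fun q => by
      simp [P354A.cmp, wv]))).2
    refine pa_mono b3 l0 le_rfl (le_trans ?_
      (mul_le_mul_of_nonneg_left (pw (N3 + k + Na + 1) (by omega)) hA.le))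
    have a1 : A * H ^ N3 / √l ≤ A * H ^ (N3 + k + Na) :=
      (div_le_self (by positivity) s1).trans
        (mul_le_mul_of_nonneg_left (pow_le_pow_right₀ H1 (by omega)) hA.le)
    have a2 : 2 ^ k * (|A| * H ^ Na) ≤ A * H ^ (N3 + k + Na) := by
      rw [abs_of_pos hA, mul_left_comm, pow_add]
      gcongr
      exact (pow_le_pow_left₀ zero_le_two H2 k).trans (pow_le_pow_right₀ H1 (by omega))
    have a3 : 0 ≤ A * H ^ (N3 + k + Na) := by positivity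
    rw [pow_succ, ← mul_assoc]
    nlinarith
  · rw [← mul_div_assoc, div_le_iff₀ (one_pos.trans_le s1), mul_left_comm]
    refine mul_le_mul_of_nonneg_left (le_trans ?_ sq) hA.le
    rw [pow_succ']
    gcongr
  · have hp : pT T z ∈ Box (-δ') (T + δ') (R - 2 * w) (R + 5 / 2 * w) (9 / 2) :=
      ⟨⟨by simp only [pT]; linarith [hδ'.1], by simp only [pT]; linarith [hδ'.1]⟩,
        by simpa [pT] using hz.1, hz.2⟩
    exact ⟨(hU.fu.2 _ (mem _ hp)).1, (ht z hz).1, (ht z hz).2.1, fun i =>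
      ⟨P354EN.slab_sm hU (mem _ hp) i, sm _ hp i, (ht z hz).2.2 i,
        pa_mono ((S _ hp).2.2.2 T0.le i) l0 (Nat.le_add_left 5 k) le_rfl⟩⟩

end Vale.Agent.P354YV
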