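import Vale.Agent.P354KX.Kr

/-!
The kick: the function v on the initial slice, exact statement.
-/

open scoped ContDiff
open Set Filter Topology

noncomputable section

namespace Vale.Agent.P354YV

open Vale.Agent.P354n (R4)
open Vale.Agent.P354H (X3)
open Vale.Agent.P354C (Ix)
open Vale.Agent.P354I (X)
open Vale.Agent.P354XE (pt)
open Vale.Agent.P354XB (Win)
open Vale.Agent.P354XP (Cht Hull)
open Vale.Agent.P354YM
open Vale.Agent.P354KX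

/-- HS: HUL on the true initial slice. -/
def HS : Prop :=
  ∀ (P : Pm) d (T : Tg) J b (n : ℕ) (R w c c0 : ℝ) (T' δ G ρ : Bool → ℝ)
    (U : Bool → R4 → Ix → ℝ) (Ψ : Bool → R4 → R4) (jj : Bool → X3 → X),
    |P.a| < P.M → P.r1 < P354I.rp P.M P.a → 0 < P.θ → T.Is P d → 0 < c0 →
    (∀ s, Sb T.g T.D T.Xf J b s (T' s) (δ s) R w (U s) (Ψ s) (mx P.M P.a b ∘ jj s) ∧ 0 < G s ∧
      0 < ρ s ∧ Cht n R w (G s) (ρ s) c s (jj s) ∧ Mn R w (c0 / 4 * ρ s) (jj s)) →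
    ∃ f : X → ℝ, ContinuousOn f {0}ᶜ ∧
      (∀ s, ∀ z ∈ Win R w 6, f ((mx P.M P.a b ∘ jj s) z) = cl R w z.1) ∧
      (∀ y ≠ 0, (∀ s, y ∉ (mx P.M P.a b ∘ jj s) '' Nz R w) →
        f y = R - 11 / 4 * w ∨ f y = R + 15 / 4 * w) ∧
      (∀ s, ∀ z ∈ Win R w 6, z.1 ≤ R - w ∨ 2 ≤ ‖z.2‖ →
        jj s z ∉ Hull (c0 * ρ s) (jj s '' Sp R w)) ∧
      ∀ s, ∀ y ≠ 0, f y ≤ R + 5 / 2 * w → mx P.M P.a b y ∈ Hull (c0 * ρ s) (jj s '' Sp R w) →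
        pt 0 y ∈ Ψ s '' Sk (T' s) 0 R w

end Vale.Agent.P354YV
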