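import Vale.Agent.P354XB.Defs
import Vale.Agent.P354YJ.Defs

/-!
The bottom of the slab: from the data in the symmetric frame to the frame of the slab.
Definitions and exact statements.
-/

open scoped ContDiff
open Set

noncomputable section

namespace Vale.Agent.P354YV

open Vale.Agent.P354n (R4)
open Vale.Agent.P354H (X3 pd pdl)
open Vale.Agent.P354C Vale.Agent.P354C.Ix
open Vale.Agent.P354A (cmp)
open Vale.Agent.P354J (M3 Ind)
open Vale.Agent.P354GT (Fu)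
open Vale.Agent.P354XB (Pa Sa wv Gro Box Cn Slab amp Prf Win SLAB)
open Vale.Agent.P354YJ (rot)

/-- The derivative of the angle (c, s) in the direction j, and along l - n, e2, e3. -/
def ang (c s : X3 → ℝ) (j : Fin 3) (z : X3) : ℝ := c z * pd j s z - s z * pd j c z
def fA (c s : X3 → ℝ) (z : X3) (u : Ix → ℝ) : Fin 3 → ℝ :=
  ![2 * ang c s 0 z + u b1 * ang c s 1 z + u b2 * ang c s 2 z,
    u P11 * ang c s 1 z + u P12 * ang c s 2 z, u P21 * ang c s 1 z + u P22 * ang c s 2 z]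

/-- The values in the frame rotated by the angle (c, s). -/
def RA (c s : X3 → ℝ) (u : X3 → Ix → ℝ) (z : X3) : Ix → ℝ :=
  rot (c z) (s z) (fA c s z (u z)) (u z)

/-- EXP: the constraints and the induced data do not see the rotation. -/
def EXP : Prop :=
  ∀ (c s : X3 → ℝ) (u : X3 → Ix → ℝ) (D : Set X3), IsOpen D → ContDiffOn ℝ ∞ c D →
    ContDiffOn ℝ ∞ s D → (∀ z ∈ D, c z ^ 2 + s z ^ 2 = 1) →
    (∀ i, ContDiffOn ℝ ∞ (cmp u i) D) → ∀ z ∈ D, detP (u z) ≠ 0 →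
      (Cn u z → Cn (RA c s u) z) ∧ ∀ h K, Ind (u z) h K → Ind (RA c s u z) h K

/-- Values on D in the symmetric frame which solve the constraints and induce (h, K). -/
structure Syf (D : Set X3) (v : X3 → Ix → ℝ) (h K : X3 → M3) : Prop where
  sm : ∀ i, ContDiffOn ℝ ∞ (cmp v i) D
  pt : ∀ z ∈ D, 0 < v z O ∧ 0 < v z P11 ∧ 0 < detP (v z) ∧ v z P12 = v z P21 ∧
    Ind (v z) (h z) (K z) ∧ Cn v z

/-- BOT: the amplitude a to be put on the data, and the initial values u in the frame of the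
slab. -/
def BOT : Prop :=
  ∀ n m : ℕ, n ≤ m → ∃ N : ℕ, ∀ (T δ R w G β : ℝ) (c π : ℝ → ℝ) (U : R4 → Ix → ℝ)
    (α : X3 → Ix → ℝ), 0 < T → 0 < δ → 0 < w → 2 ≤ G → Slab (m + 1) T δ R w G β c π U →
    Prf m R w G α → ∃ a, Prf m R w (G ^ N) a ∧ (∀ z, α z = 0 → a z = 0) ∧
      ∀ (A l E : ℝ) (h K h' K' : X3 → M3) (v v' : X3 → Ix → ℝ), 1 ≤ l →
        Syf (Win R w 6) v h K → Syf (Win R w 6) v' h' K' →
        (∀ z ∈ Win R w 6, Ind (U (0, z)) (h z) (K z) ∧ ∀ i,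
          Sa l n (fun x => v' x i - v x i - A * Real.sin (l * x.1) * a x i) z E) →
        ∃ u : X3 → Ix → ℝ, (∀ i, ContDiffOn ℝ ∞ (cmp u i) (Win R w 6)) ∧
          ∀ z ∈ Win R w 6, Cn u z ∧ Ind (u z) (h' z) (K' z) ∧ (v' z = v z → u z = U (0, z)) ∧
            ∀ i, Sa l n (fun x => u x i - U (0, x) i - wv A l (amp U T α) (0, x) i) z
              (E * G ^ N)

/-- SLABD: the slab from the data. The order m of the amplitude and the loss G ^ q of the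
preparation are arbitrary. -/
def SLABD : Prop :=
  ∀ (β : ℝ) (n : ℕ), ∃ w0 > 0, ∀ w ∈ Ioc 0 w0, ∃ n' : ℕ, ∀ m ≥ n', ∃ N0 : ℕ, ∀ q : ℕ, ∃ N : ℕ,
    ∀ (T δ R G ν : ℝ) (c π : ℝ → ℝ) (U : R4 → Ix → ℝ) (α : X3 → Ix → ℝ), 0 < T → 0 < δ →
      Gro (T + δ) G ν c → Slab (m + 1) T δ R w G β c π U → Prf m R w G α →
      ∃ a, Prf m R w (G ^ N0) a ∧ (∀ z, α z = 0 → a z = 0) ∧
        ∀ (A l : ℝ) (h K h' K' : X3 → M3) (v v' : X3 → Ix → ℝ), G ^ N ≤ l → 0 < A →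
          A * l * G ^ N ≤ 1 → Syf (Win R w 6) v h K → Syf (Win R w 6) v' h' K' →
          (∀ z ∈ Win R w 6, Ind (U (0, z)) (h z) (K z) ∧
            (z.1 ≤ R - w ∨ 2 ≤ ‖z.2‖ → v' z = v z) ∧ ∀ i,
            Sa l n' (fun x => v' x i - v x i - A * Real.sin (l * x.1) * a x i) z
              (A * G ^ q / l)) →
          ∃ δ' ∈ Ioc 0 δ, ∃ U',
            Fu U' (Box (-δ') (T + δ') (R - 2 * w) (R + 5 / 2 * w) (9 / 2)) ∧
            ∀ p ∈ Box (-δ') (T + δ') (R - 2 * w) (R + 5 / 2 * w) (9 / 2), 0 < detP (U' p) ∧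
              (p.1 + p.2.1 ≤ R - 3 / 2 * w ∨ 3 ≤ ‖p.2.2‖ → U' p = U p) ∧
              (p.1 = 0 → Ind (U' p) (h' p.2) (K' p.2)) ∧
              (0 ≤ p.1 → ∀ i,
                Pa l n (cmp (U' - U - wv A l (amp U T α)) i) p (A * G ^ N / √l))

end Vale.Agent.P354YV
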