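import Vale.Agent.P354YV.Cal
import Vale.Agent.P354J.Sl2

/-!
The bottom of the slab.
-/

open scoped ContDiff
open Set

noncomputable section

namespace Vale.Agent.P354YV

open Vale.Agent.P354n (R4)
open Vale.Agent.P354H (X3 pd pdl sl)
open Vale.Agent.P354C Vale.Agent.P354C.Ix
open Vale.Agent.P354A (cmp Pb)
open Vale.Agent.P354J (M3 Ind)
open Vale.Agent.P354GT (Fu)
open Vale.Agent.P354XB (Pa Sa wv Gro Box Cn Slab amp Prf Win SLAB Pol mu)
open Vale.Agent.P354YJ (rot cs sn al be nn)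

/-! ### Algebra of the rotation -/

/-- The linear part of fA. -/
def fL (t1 t2 : ℝ) (u : Ix → ℝ) : Fin 3 → ℝ :=
  ![u b1 * t1 + u b2 * t2, u P11 * t1 + u P12 * t2, u P21 * t1 + u P22 * t2]

theorem rot_sub (c s : ℝ) (f g : Fin 3 → ℝ) (u v : Ix → ℝ) (i : Ix) :
    rot c s f u i - rot c s g v i = rot c s (f - g) (u - v) i := by
  cases i <;> simp only [rot, Pi.sub_apply] <;> ring

theorem rot_inv {c s : ℝ} (h : c ^ 2 + s ^ 2 = 1) (f : Fin 3 → ℝ) (u : Ix → ℝ) :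
    rot c (-s) ![-f 0, -(c * f 1 + s * f 2), -(c * f 2 - s * f 1)] (rot c s f u) = u := by
  have k1 : ∀ x y : ℝ, y = (c ^ 2 + s ^ 2) * x → y = x := fun x y e => by rw [e, h, one_mul]
  have k2 : ∀ x y : ℝ, y = (c ^ 2 + s ^ 2) ^ 2 * x → y = x := fun x y e => by
    rw [e, h, one_pow, one_mul]
  funext i
  cases i <;> simp only [rot, Matrix.cons_val_zero, Matrix.cons_val_one, Matrix.cons_val] <;>
    first
      | ring1
      | (apply k1; ring1)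
      | (apply k2; ring1)

theorem rot_inv0 {c s : ℝ} (h : c ^ 2 + s ^ 2 = 1) (u : Ix → ℝ) :
    rot c (-s) 0 (rot c s 0 u) = u := by
  refine Eq.trans ?_ (rot_inv h 0 u)
  congr 1
  funext r
  fin_cases r <;> simp

theorem rot_pol {c s : ℝ} {u : Ix → ℝ} (h : ∀ i, i ≠ a1 → i ≠ a2 → u i = 0) (i : Ix) (h1 : i ≠ a1)
    (h2 : i ≠ a2) : rot c s 0 u i = 0 := by
  cases i <;> simp [rot, h] at h1 h2 ⊢

theorem rot_smul (c s t : ℝ) (u : Ix → ℝ) (i : Ix) :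
    rot c s 0 (fun j => t * u j) i = t * rot c s 0 u i := by
  cases i <;> simp only [rot, Pi.zero_apply] <;> ring

theorem ang_neg (c s : X3 → ℝ) (j : Fin 3) (z : X3) :
    ang c (fun x => -s x) j z = -ang c s j z := by
  simp only [ang, pd, fderiv_fun_neg, neg_apply]
  ring

theorem RA_inv {c s : X3 → ℝ} {u v : X3 → Ix → ℝ} {z : X3} (h : c z ^ 2 + s z ^ 2 = 1)
    (e : v z = RA c s u z) : RA c (fun x => -s x) v z = u z := by
  rw [← rot_inv h (fA c s z (u z)) (u z), RA, e, RA]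
  congr 1
  funext r
  fin_cases r <;> simp [fA, rot, ang_neg] <;> ring

theorem RA_sub (c s : X3 → ℝ) (u v : X3 → Ix → ℝ) (z : X3) (i : Ix) :
    RA c s u z i - RA c s v z i =
      rot (c z) (s z) (fL (ang c s 1 z) (ang c s 2 z) (u z - v z)) (u z - v z) i := by
  rw [RA, RA, rot_sub]
  congr 1
  funext r
  fin_cases r <;> simp [fA, fL] <;> ring

theorem nn_ge (u : Ix → ℝ) : 4 * detP u ≤ nn u := by
  simp only [nn, al, be, detP]
  nlinarith [sq_nonneg (u P11 - u P22), sq_nonneg (u P12 + u P21)]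

theorem cs_sn {u : Ix → ℝ} (h : 0 < detP u) : cs u ^ 2 + sn u ^ 2 = 1 := by
  have p : 0 < nn u := by linarith [nn_ge u]
  rw [cs, sn, div_pow, div_pow, Real.sq_sqrt p.le, ← add_div]
  exact div_self p.ne'

theorem rot_sym {u : Ix → ℝ} (h : 0 < detP u) (f : Fin 3 → ℝ) :
    0 < rot (cs u) (sn u) f u P11 ∧ 0 < detP (rot (cs u) (sn u) f u) ∧
      rot (cs u) (sn u) f u P12 = rot (cs u) (sn u) f u P21 := by
  have p : 0 < √(nn u) := Real.sqrt_pos.2 (by linarith [nn_ge u])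
  have e := cs_sn h
  refine ⟨?_, h.trans_eq ?_, ?_⟩
  · have : rot (cs u) (sn u) f u P11 = (u P11 ^ 2 + u P21 ^ 2 + detP u) / √(nn u) := by
      simp only [rot, cs, sn, al, be, detP]
      ring
    rw [this]
    positivity
  · simp only [rot, detP]
    linear_combination (u P12 * u P21 - u P11 * u P22) * e
  · simp only [rot, cs, sn, al, be]
    ring

/-! ### Smoothness and bounds -/

theorem sm_RA {D : Set X3} {c s : X3 → ℝ} {u : X3 → Ix → ℝ} (hD : IsOpen D)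
    (hc : ContDiffOn ℝ ∞ c D) (hs : ContDiffOn ℝ ∞ s D) (hu : ∀ i, ContDiffOn ℝ ∞ (cmp u i) D)
    (i : Ix) : ContDiffOn ℝ ∞ (cmp (RA c s u) i) D := by
  have ha : ∀ j, ContDiffOn ℝ ∞ (fun z => ang c s j z) D := fun j =>
    (hc.mul (sm_pd hD hs j)).sub (hs.mul (sm_pd hD hc j))
  have hu' : ∀ i, ContDiffOn ℝ ∞ (fun z => u z i) D := hu
  have hf : ∀ r, ContDiffOn ℝ ∞ (fun z => fA c s z (u z) r) D := fun r => by
    fin_cases r
    · exact ((contDiffOn_const.mul (ha 0)).add ((hu' _).mul (ha 1))).add ((hu' _).mul (ha 2))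
    · exact ((hu' _).mul (ha 1)).add ((hu' _).mul (ha 2))
    · exact ((hu' _).mul (ha 1)).add ((hu' _).mul (ha 2))
  change ContDiffOn ℝ ∞ (fun z => rot (c z) (s z) (fA c s z (u z)) (u z) i) D
  cases i <;> simp only [rot, sub_eq_add_neg] <;>
    repeat' first
      | exact hu' _
      | exact hf _
      | exact hc
      | exact hs
      | exact contDiffOn_const
      | refine ContDiffOn.add ?_ ?_
      | refine ContDiffOn.neg ?_
      | refine ContDiffOn.mul ?_ ?_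

section fam
variable {ι : Type} {S : Sit ι} {n : ℕ} {e : ι → ℝ} {c s : ι → X3 → ℝ} {u : ι → X3 → Ix → ℝ}

theorem Fm.rot {f : ι → X3 → Fin 3 → ℝ} (hc : Fm S n 1 c) (hs : Fm S n 1 s)
    (hf : ∀ r, Fm S n e fun a x => f a x r) (hu : ∀ i, Fm S n e fun a x => u a x i) (i : Ix) :
    Fm S n e fun a x => rot (c a x) (s a x) (f a x) (u a x) i := by
  have h1 := (hc.mul1 hc).add (hs.mul1 hs).neg
  have h2 := (Fm.const 2).mul1 (hc.mul1 hs)
  cases i <;> simp only [P354YJ.rot, sub_eq_add_neg] <;>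
    repeat' first
      | exact hu _
      | exact hf _
      | refine Fm.add ?_ ?_
      | refine Fm.neg ?_
      | refine hc.mul1 ?_
      | refine hs.mul1 ?_
      | refine h1.mul1 ?_
      | refine h2.mul1 ?_

theorem Fm.detP (hu : ∀ i, Fm S n 1 fun a x => u a x i) : Fm S n 1 fun a x => detP (u a x) :=
  ((hu _).mul1 (hu _)).sub ((hu _).mul1 (hu _))

theorem Fm.csn (h1 : ∀ a, S.l a = 1) (hu : ∀ i, Fm S n 1 fun a x => u a x i)
    (lb : ∀ a, ∀ z ∈ S.D a, (S.G a)⁻¹ ≤ P354C.detP (u a z)) :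
    (Fm S n 1 fun a x => cs (u a x)) ∧ Fm S n 1 fun a x => sn (u a x) := by
  have ha : Fm S n 1 fun a x => al (u a x) := (hu _).add (hu _)
  have hb : Fm S n 1 fun a x => be (u a x) := (hu _).sub (hu _)
  have hn : Fm S n 1 fun a x => nn (u a x) :=
    ((ha.mul1 ha).add (hb.mul1 hb)).congr fun a z _ => by simp only [nn, sq]
  have := hn.isq h1 fun a z hz => by
    linarith [lb a z hz, nn_ge (u a z), inv_pos.2 (one_pos.trans_le (S.G1 a))]
  exact ⟨ha.mul1 this, hb.mul1 this⟩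

theorem Fm.ang (h1 : ∀ a, S.l a = 1) (hc : Fm S (n + 1) 1 c) (hs : Fm S (n + 1) 1 s) (j : Fin 3) :
    Fm S n 1 fun a x => ang (c a) (s a) j x :=
  ((hc.low n.le_succ).mul1 (hs.pd h1 j)).sub ((hs.low n.le_succ).mul1 (hc.pd h1 j))

theorem Fm.quot {v : ι → X3 → Ix → ℝ} (h1 : ∀ a, S.l a = 1)
    (hu : ∀ i, Fm S n 1 fun a x => u a x i) (hv : ∀ i, Fm S n 1 fun a x => v a x i)
    (lb : ∀ a, ∀ z ∈ S.D a, (S.G a)⁻¹ ≤ P354C.detP (u a z) ∧ (S.G a)⁻¹ ≤ u a z O ∧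
      (S.G a)⁻¹ ≤ P354C.detP (v a z)) : Fm S n 1 fun a x => mu (u a x) / mu (v a x) := by
  have r1 := (Fm.detP hu).isq h1 fun a z hz => (lb a z hz).1
  have r2 := (hu O).isq h1 fun a z hz => (lb a z hz).2.1
  have r3 := (Fm.detP hv).isq h1 fun a z hz => (lb a z hz).2.2
  refine ((((Fm.detP hu).mul1 r1).mul1 (r2.mul1 r2)).mul1 ((hv O).mul1 r3)).congr
    fun a z hz => ?_
  have g := inv_pos.2 (one_pos.trans_le (S.G1 a))
  obtain ⟨p1, p2, -⟩ := lb a z hz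
  have e1 := Real.mul_self_sqrt (g.trans_le p1).le
  have e2 := Real.mul_self_sqrt (g.trans_le p2).le
  have s1 := (Real.sqrt_pos.2 (g.trans_le p1)).ne'
  simp only [mu]
  rw [← mul_inv, e2, div_eq_mul_inv, inv_div, ← div_eq_mul_inv, ← div_eq_mul_inv,
    ← div_eq_mul_inv (v a z O), ← eq_div_of_mul_eq s1 e1]

end fam

/-- The data of the linear estimate. -/
structure Ln (n : ℕ) where
  D : Set X3
  l : ℝ
  G : ℝ
  E : ℝ
  q : Fin 4 → X3 → ℝ
  W : X3 → Ix → ℝ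
  op : IsOpen D
  hl : 1 ≤ l
  hG : 2 ≤ G
  hq : ∀ k, ContDiffOn ℝ ∞ (q k) D ∧ ∀ z ∈ D, Sa l n (q k) z G
  hW : ∀ i, ContDiffOn ℝ ∞ (cmp W i) D ∧ ∀ z ∈ D, Sa l n (cmp W i) z E

theorem lin_est (n : ℕ) : ∃ N : ℕ, ∀ (a : Ln n) (i : Ix), ∀ z ∈ a.D, Sa a.l n (fun x =>
    rot (a.q 0 x) (a.q 1 x) (fL (a.q 2 x) (a.q 3 x) (a.W x)) (a.W x) i) z (a.E * a.G ^ N) := by
  let S : Sit (Ln n) := ⟨Ln.D, Ln.l, Ln.G, Ln.op, Ln.hl, Ln.hG⟩
  have hq : ∀ k, Fm S n 1 fun a => a.q k := fun k =>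
    ⟨1, fun a => ⟨(a.hq k).1, fun z hz => by simpa using (a.hq k).2 z hz⟩⟩
  have hW : ∀ i, Fm S n Ln.E fun a x => a.W x i := fun i =>
    ⟨0, fun a => ⟨(a.hW i).1, fun z hz => by
      rw [pow_zero, mul_one]; exact (a.hW i).2 z hz⟩⟩
  have hf : ∀ r, Fm S n Ln.E fun a x => fL (a.q 2 x) (a.q 3 x) (a.W x) r := fun r => by
    fin_cases r <;> exact ((hW _).mul2 (hq 2)).add ((hW _).mul2 (hq 3))
  obtain ⟨N, hN⟩ := Fm.all (Fm.rot (hq 0) (hq 1) hf hW)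
  exact ⟨N, fun a i => (hN a i).2⟩

/-- The data of the background: the values u, v on the two slices and the profile. -/
structure Bk (n : ℕ) where
  D : Set X3
  G : ℝ
  u : X3 → Ix → ℝ
  v : X3 → Ix → ℝ
  α : X3 → Ix → ℝ
  op : IsOpen D
  hG : 2 ≤ G
  hu : ∀ i, ContDiffOn ℝ ∞ (cmp u i) D ∧ ∀ z ∈ D, Sa 1 (n + 1) (cmp u i) z G
  hv : ∀ i, ContDiffOn ℝ ∞ (cmp v i) D ∧ ∀ z ∈ D, Sa 1 n (cmp v i) z G
  hα : ∀ i, ContDiffOn ℝ ∞ (cmp α i) D ∧ ∀ z ∈ D, Sa 1 n (cmp α i) z G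
  lb : ∀ z ∈ D, G⁻¹ ≤ detP (u z) ∧ G⁻¹ ≤ u z O ∧ G⁻¹ ≤ detP (v z)

/-- The coefficients of the inverse rotation, and the amplitude in the symmetric frame. -/
def qq (u : X3 → Ix → ℝ) : Fin 4 → X3 → ℝ :=
  ![fun x => cs (u x), fun x => -sn (u x), ang (fun x => cs (u x)) (fun x => -sn (u x)) 1,
    ang (fun x => cs (u x)) (fun x => -sn (u x)) 2]
def am (u v α : X3 → Ix → ℝ) (x : X3) : Ix → ℝ :=
  rot (cs (u x)) (sn (u x)) 0 fun i => α x i * (mu (u x) / mu (v x))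

theorem bk_est (n : ℕ) : ∃ N : ℕ, ∀ a : Bk n,
    (∀ k, ContDiffOn ℝ ∞ (qq a.u k) a.D ∧ ∀ z ∈ a.D, Sa 1 n (qq a.u k) z (a.G ^ (N + 1))) ∧
    ∀ i, ContDiffOn ℝ ∞ (cmp (am a.u a.v a.α) i) a.D ∧
      ∀ z ∈ a.D, Sa 1 n (cmp (am a.u a.v a.α) i) z (a.G ^ N) := by
  let S : Sit (Bk n) := ⟨Bk.D, fun _ => 1, Bk.G, Bk.op, fun _ => le_rfl, Bk.hG⟩
  have h1 : ∀ a, S.l a = 1 := fun _ => rfl
  have hu : ∀ i, Fm S (n + 1) 1 fun a x => a.u x i := fun i =>
    ⟨1, fun a => ⟨(a.hu i).1, fun z hz => by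
      rw [pow_one, Pi.one_apply, one_mul]; exact (a.hu i).2 z hz⟩⟩
  have hv : ∀ i, Fm S n 1 fun a x => a.v x i := fun i =>
    ⟨1, fun a => ⟨(a.hv i).1, fun z hz => by
      rw [pow_one, Pi.one_apply, one_mul]; exact (a.hv i).2 z hz⟩⟩
  have hα : ∀ i, Fm S n 1 fun a x => a.α x i := fun i =>
    ⟨1, fun a => ⟨(a.hα i).1, fun z hz => by
      rw [pow_one, Pi.one_apply, one_mul]; exact (a.hα i).2 z hz⟩⟩
  obtain ⟨hc, hs⟩ := Fm.csn h1 hu fun a z hz => (a.lb z hz).1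
  have hq : ∀ k, Fm S n 1 fun a => qq a.u k := fun k => by
    fin_cases k
    exacts [hc.low n.le_succ, hs.neg.low n.le_succ, hc.ang h1 hs.neg 1, hc.ang h1 hs.neg 2]
  have hm := Fm.quot h1 (fun i => (hu i).low n.le_succ) hv Bk.lb
  obtain ⟨N, hN⟩ := Fm.all hq
  obtain ⟨M, hM⟩ := Fm.all (Fm.rot (f := fun _ _ => 0) (hc.low n.le_succ) (hs.low n.le_succ)
    (fun _ => Fm.const 0) fun i => (hα i).mul1 hm)
  refine ⟨N + M, fun a => ⟨fun k => ⟨(hN a k).1, fun z hz => ?_⟩,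
    fun i => ⟨(hM a i).1, fun z hz => ?_⟩⟩⟩
  · simpa using S.up ((hN a k).2 z hz) (by omega : N ≤ N + M + 1)
  · have := S.up ((hM a i).2 z hz) (Nat.le_add_left M N)
    rwa [Pi.one_apply, one_mul] at this

/-! ### The theorem -/

theorem box_open (a b v0 v1 r : ℝ) : IsOpen (Box a b v0 v1 r) :=
  (isOpen_Ioo.preimage continuous_fst).inter
    ((isOpen_Ioo.preimage (continuous_fst.add continuous_snd.fst)).inter
      (isOpen_lt continuous_snd.snd.norm continuous_const))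

theorem win_open (R w r : ℝ) : IsOpen (Win R w r) :=
  (isOpen_Ioo.preimage continuous_fst).inter (isOpen_lt continuous_snd.norm continuous_const)

theorem full_constr {u : Ix → ℝ} {d : Fin 4 → Ix → ℝ} (h : Full u d) : Constr u d :=
  ⟨fun _ _ _ => by simp [h.tor], fun _ => by simp [h.dO], fun _ _ _ _ => by simp [h.cur]⟩

theorem slice {O : Set R4} {D : Set X3} {F : R4 → ℝ} {n : ℕ} {G : ℝ} (hO : IsOpen O) (t : ℝ)
    (y : X3) (hF : ContDiffOn ℝ ∞ F O) (hD : ∀ z ∈ D, (t, z + y) ∈ O)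
    (hb : ∀ p ∈ O, Pb n F p G) : ContDiffOn ℝ ∞ (fun x => F (t, x + y)) D ∧
      ∀ z ∈ D, Sa 1 n (fun x => F (t, x + y)) z G :=
  ⟨hF.comp (by fun_prop) hD, fun z hz α hα => by
    rw [pdl_slice hO t y α hF (hD z hz), one_pow, mul_one]
    exact hb _ (hD z hz) α hα⟩

theorem sym_eq (hE : EXP) {D : Set X3} {u v : X3 → Ix → ℝ} {h K : X3 → M3} (hD : IsOpen D)
    (hu : ∀ i, ContDiffOn ℝ ∞ (cmp u i) D) (hc : ContDiffOn ℝ ∞ (fun x => cs (u x)) D)
    (hs : ContDiffOn ℝ ∞ (fun x => sn (u x)) D) (hv : Syf D v h K)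
    (k : ∀ z ∈ D, 0 < u z O ∧ 0 < detP (u z) ∧ Cn u z ∧ Ind (u z) (h z) (K z)) :
    ∀ z ∈ D, v z = RA (fun x => cs (u x)) (fun x => sn (u x)) u z := by
  refine P354J.uq _ _ D hD fun z hz => ?_
  obtain ⟨v1, v2, v3, v4, v5, v6⟩ := hv.pt z hz
  obtain ⟨u1, u2, u3, u4⟩ := k z hz
  obtain ⟨e1, e2⟩ := hE _ _ u D hD hc hs (fun z hz => cs_sn (k z hz).2.1) hu z hz u2.ne'
  obtain ⟨r1, r2, r3⟩ := rot_sym u2 (fA (fun x => cs (u x)) (fun x => sn (u x)) z (u z))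
  exact ⟨v3.ne', v1.ne', v6, e1 u3, P354J.fu _ _ v1 v2 v3 v4 u1 r1 r2 r3 fun a b =>
    (v5 a b).1.trans (e2 _ _ u4 a b).1.symm, fun a b => (v5 a b).2.trans (e2 _ _ u4 a b).2.symm⟩

theorem bot (hE : EXP) : BOT := by
  intro m n hm
  obtain ⟨N, hN⟩ := bk_est n
  obtain ⟨M, hM⟩ := lin_est m
  refine ⟨(N + 1) * (M + 1), fun T δ R w G β c π U α hT hδ hw hG hS hα => ?_⟩
  have G1 : 1 ≤ G := one_le_two.trans hG
  have g0 : 0 < G⁻¹ := inv_pos.2 (one_pos.trans_le G1)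
  have oB := box_open (-δ) (T + δ) (R - 3 * w) (R + 4 * w) 6
  have oW := win_open R w 6
  have m0 : ∀ z ∈ Win R w 6, ((0, z) : R4) ∈ Box (-δ) (T + δ) (R - 3 * w) (R + 4 * w) 6 :=
    fun z hz => ⟨⟨by simpa using hδ, by positivity⟩, by simpa using hz.1, hz.2⟩
  have mT : ∀ z ∈ Win R w 6,
      ((T, z + (-T, 0)) : R4) ∈ Box (-δ) (T + δ) (R - 3 * w) (R + 4 * w) 6 :=
    fun z hz => ⟨⟨by linarith, by linarith⟩, by simpa using hz.1, by simpa using hz.2⟩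
  let a : Bk n := ⟨Win R w 6, G, fun z => U (0, z), fun z => U (T, z + (-T, 0)), α, oW, hG,
    fun i => by
      have := slice oB 0 0 (hS.fu.1 i) (fun z hz => by rw [add_zero]; exact m0 z hz)
        fun p hp => ((hS.bd p hp).2.2.2.2.2 i).1
      simp only [add_zero] at this
      exact this,
    fun i => slice oB T _ (hS.fu.1 i) mT fun p hp β hβ =>
      ((hS.bd p hp).2.2.2.2.2 i).1 β (hβ.trans n.le_succ),
    fun i => ⟨(hα.sm i).contDiffOn, fun z _ => hα.bd i z⟩,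
    fun z hz => ⟨(hS.bd _ (m0 z hz)).2.1, (hS.bd _ (m0 z hz)).1, (hS.bd _ (mT z hz)).2.1⟩⟩
  obtain ⟨hq, ha⟩ := hN a
  have z0 : ∀ z, α z = 0 → am a.u a.v α z = 0 := fun z hz => funext fun i => by
    simpa [am, hz] using rot_smul (cs (a.u z)) (sn (a.u z)) 0 0 i
  have oZ : IsOpen {z : X3 | z.1 < R - w ∨ R + 2 * w < z.1 ∨ 2 < ‖z.2‖} :=
    IsOpen.union (isOpen_lt continuous_fst continuous_const) (IsOpen.union (isOpen_lt
      continuous_const continuous_fst) (isOpen_lt continuous_const continuous_snd.norm))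
  have eZ : ∀ i, EqOn (cmp (am a.u a.v α) i) (fun _ => 0)
      {z : X3 | z.1 < R - w ∨ R + 2 * w < z.1 ∨ 2 < ‖z.2‖} := fun i z hz =>
    congrFun (z0 z (hα.supp z (hz.imp le_of_lt (Or.imp le_of_lt le_of_lt)))) i
  have cov : ∀ z ∉ Win R w 6, z.1 < R - w ∨ R + 2 * w < z.1 ∨ 2 < ‖z.2‖ := fun z hz => by
    by_contra k
    push Not at k
    exact hz ⟨⟨by linarith [k.1], by linarith [k.2.1]⟩, by linarith [k.2.2]⟩
  have pol : Pol (am a.u a.v α) := fun z => rot_pol fun i h1 h2 => by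
    rw [hα.pol z i h1 h2, zero_mul]
  refine ⟨am a.u a.v α, ⟨fun i => contDiff_iff_contDiffAt.2 fun z => ?_, pol,
    fun z hz => z0 z (hα.supp z hz), fun i z => ?_⟩, z0,
    fun A l E h K h' K' v v' hl hv hv' k => ?_⟩
  · by_cases hz : z ∈ Win R w 6
    · exact (ha i).1.contDiffAt (oW.mem_nhds hz)
    · exact contDiffAt_const.congr_of_eventuallyEq
        ((eZ i).eventuallyEq_of_mem (oZ.mem_nhds (cov z hz)))
  · by_cases hz : z ∈ Win R w 6
    · exact sa_mono ((ha i).2 z hz) zero_le_one le_rfl le_rfl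
        (pow_le_pow_right₀ G1 (by nlinarith))
    · exact sa_congr oZ (eZ i) (cov z hz) (sa_mono (sa_const zero_le_one 0) zero_le_one le_rfl
        le_rfl (by rw [abs_zero]; positivity))
  have dp : ∀ z ∈ Win R w 6, 0 < detP (a.u z) := fun z hz => g0.trans_le (a.lb z hz).1
  have hc : ContDiffOn ℝ ∞ (fun x => cs (a.u x)) (Win R w 6) := (hq 0).1
  have hs : ContDiffOn ℝ ∞ (fun x => -sn (a.u x)) (Win R w 6) := (hq 1).1
  have ev := sym_eq hE oW (fun i => (a.hu i).1) hc (by simpa using hs.neg) hv fun z hz =>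
    ⟨g0.trans_le (a.lb z hz).2.1, dp z hz, (P354J.dslThm U 0 z (hS.fu.dif oB (m0 z hz))).1
      (full_constr (hS.fu.2 _ (m0 z hz)).2.2), (k z hz).1⟩
  have iv := fun z hz => RA_inv (cs_sn (dp z hz)) (ev z hz)
  let b : Ln m := ⟨Win R w 6, l, G ^ (N + 1), E, qq a.u,
    fun x i => v' x i - v x i - A * Real.sin (l * x.1) * am a.u a.v α x i, oW, hl,
    hG.trans (le_self_pow₀ G1 N.succ_ne_zero),
    fun j => ⟨(hq j).1, fun z hz => sa_mono ((hq j).2 z hz) zero_le_one hl hm le_rfl⟩,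
    fun i => ⟨((hv'.sm i).sub (hv.sm i)).sub (ContDiffOn.mul (by fun_prop) (ha i).1),
      fun z hz => (k z hz).2 i⟩⟩
  refine ⟨RA _ _ v', sm_RA oW hc hs hv'.sm, fun z hz => ?_⟩
  obtain ⟨e1, e2⟩ := hE _ _ v' _ oW hc hs (fun z hz => by rw [neg_sq]; exact cs_sn (dp z hz))
    hv'.sm z hz (hv'.pt z hz).2.2.1.ne'
  refine ⟨e1 (hv'.pt z hz).2.2.2.2.2, e2 _ _ (hv'.pt z hz).2.2.2.2.1, fun e => ?_, fun i => ?_⟩
  · rw [RA, e]
    exact iv z hz
  refine sa_mono (sa_congr oW (fun x hx => ?_) hz (hM b i z hz)) (zero_le_one.trans hl) le_rfl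
    le_rfl (mul_le_mul_of_nonneg_left ?_ ((abs_nonneg _).trans (sa_zero ((k z hz).2 i))))
  · have e4 : wv A l (amp U T α) (0, x) i = rot (cs (a.u x)) (-sn (a.u x)) 0
        (fun j => A * Real.sin (l * x.1) * am a.u a.v α x j) i := by
      rw [rot_smul, am, rot_inv0 (cs_sn (dp x hx))]
      simp [wv, amp, a, sub_eq_add_neg, Prod.add_def]
    have e5 := congrFun (iv x hx) i
    change _ - a.u x i - _ = _
    rw [← e5, RA_sub, e4, rot_sub]
    congr 1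
    funext r
    fin_cases r <;> simp [fL, b, qq, pol x]
  · rw [← pow_mul]
    exact pow_le_pow_right₀ G1 (by nlinarith)

end Vale.Agent.P354YV
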