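import Vale.Agent.P354YV.Defs

/-!
Calculus of the bounds Sa on an open set, uniformly in a family.
-/

open scoped ContDiff
open Set

noncomputable section

namespace Vale.Agent.P354YV

open Vale.Agent.P354n (R4)
open Vale.Agent.P354H (X3 pd pdl dx e)
open Vale.Agent.P354A (dxl Pb)
open Vale.Agent.P354K (n0)
open Vale.Agent.P354XB (Sa)

section loc
variable {D : Set X3} {f g : X3 → ℝ} {z : X3} {l c d : ℝ} {n : ℕ}

theorem sm_pd (hD : IsOpen D) (hf : ContDiffOn ℝ ∞ f D) (j : Fin 3) : ContDiffOn ℝ ∞ (pd j f) D :=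
  (hf.fderiv_of_isOpen hD (by simp)).clm_apply contDiffOn_const

theorem dif (hD : IsOpen D) (hf : ContDiffOn ℝ ∞ f D) (hz : z ∈ D) : DifferentiableAt ℝ f z :=
  (hf.contDiffAt (hD.mem_nhds hz)).differentiableAt (by simp)

theorem pd_congr (hD : IsOpen D) (h : EqOn f g D) (j : Fin 3) : EqOn (pd j f) (pd j g) D :=
  fun _ hz => by simp only [pd, (h.eventuallyEq_of_mem (hD.mem_nhds hz)).fderiv_eq]

theorem pdl_congr (hD : IsOpen D) (α : List (Fin 3)) (h : EqOn f g D) :
    EqOn (pdl α f) (pdl α g) D := by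
  induction α generalizing f g with
  | nil => exact h
  | cons j α ih => exact ih (pd_congr hD h j)

theorem sa_congr (hD : IsOpen D) (h : EqOn f g D) (hz : z ∈ D) (k : Sa l n g z c) :
    Sa l n f z c := fun α hα => by
  rw [pdl_congr hD α h hz]
  exact k α hα

theorem n0_cons (j : Fin 3) (α : List (Fin 3)) : n0 (j :: α) = n0 [j] + n0 α := by
  simp only [n0, List.count_cons, List.count_nil]
  omega

theorem sa_zero (k : Sa l n f z c) : |f z| ≤ c := by
  simpa [n0, pdl] using k [] (Nat.zero_le _)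

theorem sa_pd (k : Sa l (n + 1) f z c) (j : Fin 3) : Sa l n (pd j f) z (c * l ^ n0 [j]) :=
  fun α hα => by
    have := k (j :: α) (by simpa using hα)
    rwa [n0_cons, pow_add, ← mul_assoc] at this

theorem sa_succ (k0 : |f z| ≤ c) (k : ∀ j, Sa l n (pd j f) z (c * l ^ n0 [j])) :
    Sa l (n + 1) f z c := by
  rintro (_ | ⟨j, α⟩) hα
  · simpa [n0, pdl] using k0
  · rw [n0_cons, pow_add, ← mul_assoc]
    exact k j α (by simpa using hα)

theorem sa_of_zero (k0 : |f z| ≤ c) : Sa l 0 f z c := by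
  rintro (_ | ⟨j, α⟩) hα
  · simpa [n0, pdl] using k0
  · simp at hα

theorem sa_mono {l' : ℝ} {m : ℕ} (k : Sa l n f z c) (hl : 0 ≤ l) (hl' : l ≤ l') (hm : m ≤ n)
    (hc : c ≤ d) : Sa l' m f z d := fun α hα =>
  (k α (hα.trans hm)).trans (mul_le_mul hc (pow_le_pow_left₀ hl hl' _) (pow_nonneg hl _)
    (((abs_nonneg _).trans (sa_zero k)).trans hc))

theorem sa_const (hl : 0 ≤ l) (a : ℝ) : Sa l n (fun _ => a) z |a| := by
  induction n generalizing a with
  | zero => exact sa_of_zero le_rfl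
  | succ n ih =>
    refine sa_succ le_rfl fun j => ?_
    have e : pd j (fun _ : X3 => a) = fun _ => 0 := by
      funext x
      simp [pd]
    rw [e]
    exact sa_mono (ih 0) hl le_rfl le_rfl (by rw [abs_zero]; positivity)

theorem pd_add (hD : IsOpen D) (hf : ContDiffOn ℝ ∞ f D) (hg : ContDiffOn ℝ ∞ g D) (j : Fin 3) :
    EqOn (pd j fun x => f x + g x) (fun x => pd j f x + pd j g x) D := fun _ hz => by
  simp only [pd, fderiv_fun_add (dif hD hf hz) (dif hD hg hz), add_apply]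

theorem pd_mul (hD : IsOpen D) (hf : ContDiffOn ℝ ∞ f D) (hg : ContDiffOn ℝ ∞ g D) (j : Fin 3) :
    EqOn (pd j fun x => f x * g x) (fun x => pd j f x * g x + f x * pd j g x) D := fun _ hz => by
  simp only [pd, fderiv_fun_mul (dif hD hf hz) (dif hD hg hz), add_apply,
    smul_apply, smul_eq_mul]
  ring

theorem sa_add (hD : IsOpen D) (hf : ContDiffOn ℝ ∞ f D) (hg : ContDiffOn ℝ ∞ g D) (hz : z ∈ D)
    (k : Sa l n f z c) (k' : Sa l n g z d) : Sa l n (fun x => f x + g x) z (c + d) := by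
  induction n generalizing f g c d with
  | zero => exact sa_of_zero ((abs_add_le _ _).trans (add_le_add (sa_zero k) (sa_zero k')))
  | succ n ih =>
    refine sa_succ ((abs_add_le _ _).trans (add_le_add (sa_zero k) (sa_zero k'))) fun j => ?_
    rw [add_mul]
    exact sa_congr hD (pd_add hD hf hg j) hz
      (ih (sm_pd hD hf j) (sm_pd hD hg j) (sa_pd k j) (sa_pd k' j))

theorem sa_mul (hD : IsOpen D) (hl : 0 ≤ l) (hf : ContDiffOn ℝ ∞ f D) (hg : ContDiffOn ℝ ∞ g D)
    (hz : z ∈ D) (k : Sa l n f z c) (k' : Sa l n g z d) :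
    Sa l n (fun x => f x * g x) z (2 ^ n * (c * d)) := by
  have z0 : ∀ {n f g c d}, Sa l n f z c → Sa l n g z d → |f z * g z| ≤ 2 ^ n * (c * d) := by
    intro n f g c d k k'
    have := mul_le_mul (sa_zero k) (sa_zero k') (abs_nonneg _) ((abs_nonneg _).trans (sa_zero k))
    rw [← abs_mul] at this
    exact this.trans (le_mul_of_one_le_left ((abs_nonneg _).trans this)
      (one_le_pow₀ one_le_two))
  induction n generalizing f g c d with
  | zero => exact sa_of_zero (z0 k k')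
  | succ n ih =>
    refine sa_succ (z0 k k') fun j => sa_congr hD (pd_mul hD hf hg j) hz ?_
    have a := ih (sm_pd hD hf j) hg (sa_pd k j) (sa_mono k' hl le_rfl n.le_succ le_rfl)
    have b := ih hf (sm_pd hD hg j) (sa_mono k hl le_rfl n.le_succ le_rfl) (sa_pd k' j)
    exact sa_mono (sa_add hD ((sm_pd hD hf j).mul hg) (hf.mul (sm_pd hD hg j)) hz a b) hl le_rfl
      le_rfl (le_of_eq (by ring))

/-- The slices of a function on space-time. -/
theorem pdl_slice {O : Set R4} (hO : IsOpen O) (t : ℝ) (y : X3) (α : List (Fin 3)) {F : R4 → ℝ}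
    (hF : ContDiffOn ℝ ∞ F O) (hz : (t, z + y) ∈ O) :
    pdl α (fun x => F (t, x + y)) z = dxl α F (t, z + y) := by
  have c : ∀ x : X3, HasFDerivAt (fun x : X3 => ((t, x + y) : R4))
      (ContinuousLinearMap.inr ℝ ℝ X3) x := fun x =>
    (hasFDerivAt_const t x).prodMk ((hasFDerivAt_id x).add_const y)
  have o : IsOpen {x : X3 | (t, x + y) ∈ O} := hO.preimage (by fun_prop)
  induction α generalizing F with
  | nil => rfl
  | cons j α ih =>
    have e1 : EqOn (pd j fun x => F (t, x + y)) (fun x => dx j F (t, x + y))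
        {x : X3 | (t, x + y) ∈ O} := fun x hx => by
      have := (((hF.contDiffAt (hO.mem_nhds hx)).differentiableAt
        (by simp)).hasFDerivAt.comp x (c x)).fderiv
      simp only [pd, dx]
      rw [show (fun x => F (t, x + y)) = F ∘ fun x : X3 => ((t, x + y) : R4) from rfl, this]
      simp
    simp only [pdl, dxl]
    rw [pdl_congr o α e1 hz]
    exact ih ((hF.fderiv_of_isOpen hO (by simp)).clm_apply contDiffOn_const)

end loc

/-- A family of open sets with frequencies and sizes. -/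
structure Sit (ι : Type) where
  D : ι → Set X3
  l : ι → ℝ
  G : ι → ℝ
  op : ∀ a, IsOpen (D a)
  hl : ∀ a, 1 ≤ l a
  hG : ∀ a, 2 ≤ G a

/-- The family f is of size e up to a power of G. -/
def Fm {ι : Type} (S : Sit ι) (n : ℕ) (e : ι → ℝ) (f : ι → X3 → ℝ) : Prop :=
  ∃ N : ℕ, ∀ a, ContDiffOn ℝ ∞ (f a) (S.D a) ∧ ∀ z ∈ S.D a, Sa (S.l a) n (f a) z (e a * S.G a ^ N)

section fam
variable {ι : Type} {S : Sit ι} {n : ℕ} {e e' : ι → ℝ} {f g : ι → X3 → ℝ}

theorem Sit.l0 (S : Sit ι) (a : ι) : 0 ≤ S.l a := zero_le_one.trans (S.hl a)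
theorem Sit.G1 (S : Sit ι) (a : ι) : 1 ≤ S.G a := one_le_two.trans (S.hG a)

theorem Sit.up (S : Sit ι) {a : ι} {f : X3 → ℝ} {z : X3} {c : ℝ} {N M : ℕ}
    (k : Sa (S.l a) n f z (c * S.G a ^ N)) (h : N ≤ M) : Sa (S.l a) n f z (c * S.G a ^ M) :=
  sa_mono k (S.l0 a) le_rfl le_rfl (mul_le_mul_of_nonneg_left (pow_le_pow_right₀ (S.G1 a) h)
    (nonneg_of_mul_nonneg_left ((abs_nonneg _).trans (sa_zero k))
      (pow_pos (one_pos.trans_le (S.G1 a)) N)))

theorem Fm.congr (h : Fm S n e g) (k : ∀ a, EqOn (f a) (g a) (S.D a)) : Fm S n e f :=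
  h.imp fun _ h a => ⟨(h a).1.congr (k a), fun z hz => sa_congr (S.op a) (k a) hz ((h a).2 z hz)⟩

theorem Fm.low {m : ℕ} (h : Fm S n e f) (k : m ≤ n) : Fm S m e f :=
  h.imp fun _ h a => ⟨(h a).1, fun z hz => sa_mono ((h a).2 z hz) (S.l0 a) le_rfl k le_rfl⟩

theorem Fm.add (h : Fm S n e f) (k : Fm S n e g) : Fm S n e fun a x => f a x + g a x := by
  obtain ⟨N, h⟩ := h
  obtain ⟨M, k⟩ := k
  refine ⟨N + M + 1, fun a => ⟨(h a).1.add (k a).1, fun z hz => ?_⟩⟩
  have h1 := S.up ((h a).2 z hz) (Nat.le_add_right N M)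
  refine sa_mono (sa_add (S.op a) (h a).1 (k a).1 hz h1 (S.up ((k a).2 z hz)
    (Nat.le_add_left M N))) (S.l0 a) le_rfl le_rfl ?_
  have := (abs_nonneg _).trans (sa_zero h1)
  rw [pow_succ, ← mul_assoc]
  nlinarith [S.hG a]

theorem Fm.mul (h : Fm S n e f) (k : Fm S n e' g) :
    Fm S n (fun a => e a * e' a) fun a x => f a x * g a x := by
  obtain ⟨N, h⟩ := h
  obtain ⟨M, k⟩ := k
  refine ⟨n + (N + M), fun a => ⟨(h a).1.mul (k a).1, fun z hz => ?_⟩⟩
  refine sa_mono (sa_mul (S.op a) (S.l0 a) (h a).1 (k a).1 hz ((h a).2 z hz) ((k a).2 z hz))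
    (S.l0 a) le_rfl le_rfl ?_
  have := mul_nonneg ((abs_nonneg _).trans (sa_zero ((h a).2 z hz)))
    ((abs_nonneg _).trans (sa_zero ((k a).2 z hz)))
  exact (mul_le_mul_of_nonneg_right (pow_le_pow_left₀ zero_le_two (S.hG a) n) this).trans
    (le_of_eq (by ring))

theorem Fm.mul1 (h : Fm S n 1 f) (k : Fm S n e g) : Fm S n e fun a x => f a x * g a x := by
  simpa using h.mul k

theorem Fm.mul2 (h : Fm S n e f) (k : Fm S n 1 g) : Fm S n e fun a x => f a x * g a x := by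
  simpa using h.mul k

theorem Fm.const (c : ℝ) : Fm S n 1 fun _ _ => c := by
  obtain ⟨N, hN⟩ := pow_unbounded_of_one_lt |c| (one_lt_two (α := ℝ))
  refine ⟨N, fun a => ⟨contDiffOn_const, fun z _ => sa_mono (sa_const (S.l0 a) c) (S.l0 a) le_rfl
    le_rfl ?_⟩⟩
  simpa using hN.le.trans (pow_le_pow_left₀ zero_le_two (S.hG a) N)

theorem Fm.neg (h : Fm S n e f) : Fm S n e fun a x => -f a x := by
  simpa using (Fm.const (-1)).mul1 h

theorem Fm.sub (h : Fm S n e f) (k : Fm S n e g) : Fm S n e fun a x => f a x - g a x := by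
  simpa [sub_eq_add_neg] using h.add k.neg

theorem Fm.pd (h1 : ∀ a, S.l a = 1) (h : Fm S (n + 1) e f) (j : Fin 3) :
    Fm S n e fun a => pd j (f a) :=
  h.imp fun _ h a => ⟨sm_pd (S.op a) (h a).1 j, fun z hz => by
    simpa [h1 a] using sa_pd ((h a).2 z hz) j⟩

theorem Fm.all {κ : Type} [Fintype κ] {F : κ → ι → X3 → ℝ} (h : ∀ i, Fm S n e (F i)) :
    ∃ N : ℕ, ∀ a i, ContDiffOn ℝ ∞ (F i a) (S.D a) ∧
      ∀ z ∈ S.D a, Sa (S.l a) n (F i a) z (e a * S.G a ^ N) := by
  choose N hN using h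
  exact ⟨∑ i, N i, fun a i => ⟨(hN i a).1, fun z hz => S.up ((hN i a).2 z hz)
    (Finset.single_le_sum (fun _ _ => Nat.zero_le _) (Finset.mem_univ i))⟩⟩

/-- The inverse of the square root. -/
theorem Fm.isq (h1 : ∀ a, S.l a = 1) (h : Fm S n 1 f)
    (lb : ∀ a, ∀ z ∈ S.D a, (S.G a)⁻¹ ≤ f a z) : Fm S n 1 fun a x => (√(f a x))⁻¹ := by
  have p : ∀ a, ∀ z ∈ S.D a, 0 < f a z := fun a z hz =>
    (inv_pos.2 (one_pos.trans_le (S.G1 a))).trans_le (lb a z hz)
  have sm : ∀ a, ContDiffOn ℝ ∞ (fun x => (√(f a x))⁻¹) (S.D a) := fun a =>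
    (h.choose_spec a).1.sqrt (fun z hz => (p a z hz).ne') |>.inv fun z hz =>
      (Real.sqrt_pos.2 (p a z hz)).ne'
  have z0 : ∀ a, ∀ z ∈ S.D a, |(√(f a z))⁻¹| ≤ S.G a := fun a z hz => by
    have g0 := one_pos.trans_le (S.G1 a)
    rw [abs_of_nonneg (by positivity), inv_le_comm₀ (Real.sqrt_pos.2 (p a z hz)) g0]
    refine Real.le_sqrt_of_sq_le (le_trans ?_ (lb a z hz))
    rw [sq]
    exact mul_le_of_le_one_left (inv_pos.2 g0).le (inv_le_one_of_one_le₀ (S.G1 a))
  induction n with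
  | zero => exact ⟨1, fun a => ⟨sm a, fun z hz => sa_of_zero (by simpa using z0 a z hz)⟩⟩
  | succ n ih =>
    have r := ih (h.low n.le_succ)
    have : ∀ j, Fm S n 1 fun a => P354H.pd j fun x => (√(f a x))⁻¹ := fun j =>
      (((Fm.const (-1 / 2)).mul1 (h.pd h1 j)).mul1 (r.mul1 (r.mul1 r))).congr fun a z hz => by
        have s := (Real.sqrt_pos.2 (p a z hz)).ne'
        have := ((hasDerivAt_inv s).comp_hasFDerivAt z
          ((dif (S.op a) (h.choose_spec a).1 hz).hasFDerivAt.sqrt (p a z hz).ne')).fderiv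
        simp only [P354H.pd]
        rw [show (fun x => (√(f a x))⁻¹) = (fun y => y⁻¹) ∘ fun x => √(f a x) from rfl, this]
        simp only [smul_apply, smul_eq_mul]
        field_simp
    obtain ⟨N, hN⟩ := Fm.all this
    refine ⟨N + 1, fun a => ⟨sm a, fun z hz => sa_succ ((z0 a z hz).trans ?_) fun j => ?_⟩⟩
    · simpa using le_self_pow₀ (S.G1 a) N.succ_ne_zero
    · simpa [h1 a] using S.up ((hN a j).2 z hz) N.le_succ

end fam

end Vale.Agent.P354YV
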