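import Vale.Agent.P354YV.Fa
import Vale.Agent.P354FC.Pw
import Vale.Agent.P354XL.Npw

/-!
The bulk at bounded frequencies from the far estimate.
-/

namespace Vale.Agent.P354YV

theorem fbx : P354FC.FBX := P354FC.fbx_of' asm P354XL.npw

end Vale.Agent.P354YV
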