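import Vale.Agent.P354YV.IgDefs
import Vale.Agent.P354DG.Gen2
import Vale.Agent.P354QF.Full2
import Vale.Agent.P354YX.Main

/-!
Boxes, cut-off functions and local uniqueness for the interior half of the game.
-/

open scoped ContDiff ENNReal
open MeasureTheory Set Filter Topology

noncomputable section

namespace Vale.Agent.P354YV

open Vale.Agent.P354n (R4 cu cv)
open Vale.Agent.P354H (X3 e pdl)
open Vale.Agent.P354C (Ix SmU Solves)
open Vale.Agent.P354A (cmp)
open Vale.Agent.P354I (IsBS Fam2 DatB Th r2 cy wd glue)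
open Vale.Agent.P354D (sgn)
open Vale.Agent.P354L (BU)
open Vale.Agent.P354P (Trav lens rr rr_smooth)
open Vale.Agent.P354DG (Sup Adm Bx B0 vol_Bx B0_ne_zero B0_ne_top)
open Vale.Agent.P354IG (lf lf_ap causal_x res_congr)
open Vale.Agent.P354EN (B dv B_succ B_of_zero good_bd sm_dv)
open Vale.Agent.P354YX (ea B_fst)

/-- F is small on most of the boxes with t ≥ N. -/
def Sw (w c : ℝ) (F : R4 → ℝ) (p : ℝ) (θ : ℝ × ℝ) (r N : ℝ) : Prop :=
  ∀ t, N ≤ t → volume (Sup c 0 F p θ r t) ≤ B0 p θ r * ENNReal.ofReal (w / 10)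

section
variable {w c p r t : ℝ} {θ : ℝ × ℝ} {F F' : R4 → ℝ}

/-- Two functions which differ on a part of the box are not both small. -/
theorem two_w {L S : Set ℝ} {A : ℝ} (hw : 0 < w) (hr : 0 < r) (hc : 0 ≤ c)
    (hL : ENNReal.ofReal (w / 3) ≤ volume L) (hL' : L ⊆ Ioo t (t + 1))
    (hS : volume S ≤ ENNReal.ofReal (w / 12)) (hA : 2 * Real.exp (-(c * t)) ≤ A)
    (h : ∀ x ∈ Bx p θ r (L \ S), A < |F' x - F x|)
    (h1 : volume (Sup c 0 F p θ r t) ≤ B0 p θ r * ENNReal.ofReal (w / 10))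
    (h2 : volume (Sup c 0 F' p θ r t) ≤ B0 p θ r * ENNReal.ofReal (w / 10)) : False := by
  have h3 : Bx p θ r L ⊆ (Sup c 0 F p θ r t ∪ Sup c 0 F' p θ r t) ∪ Bx p θ r S := fun x hx => by
    by_cases h4 : cv x ∈ S
    · exact Or.inr ⟨hx.1, h4, hx.2.2⟩
    · have h5 := h x ⟨hx.1, ⟨hx.2.1, h4⟩, hx.2.2⟩
      have h6 : x ∈ Bx p θ r (Ioo t (t + 1)) := ⟨hx.1, hL' hx.2.1, hx.2.2⟩
      have h7 : Real.exp (-(c * cv x)) ≤ Real.exp (-(c * t)) :=
        Real.exp_le_exp.2 (neg_le_neg (mul_le_mul_of_nonneg_left (hL' hx.2.1).1.le hc))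
      have h8 := abs_sub (F' x) (F x)
      by_cases h9 : Real.exp (-(c * cv x)) + 0 < |F x|
      · exact Or.inl (Or.inl ⟨h6, h9⟩)
      · exact Or.inl (Or.inr ⟨h6, by linarith [not_lt.1 h9]⟩)
  have h4 : B0 p θ r * ENNReal.ofReal (w / 3) ≤ B0 p θ r *
      (ENNReal.ofReal (w / 10) + ENNReal.ofReal (w / 10) + ENNReal.ofReal (w / 12)) := by
    rw [mul_add, mul_add]
    refine le_trans ?_ ((measure_mono h3).trans ((measure_union_le _ _).trans
      (add_le_add ((measure_union_le _ _).trans (add_le_add h1 h2)) ?_)))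
    · rw [vol_Bx]
      gcongr
    · rw [vol_Bx]
      gcongr
  rw [ENNReal.mul_le_mul_iff_right (B0_ne_zero p θ hr) (B0_ne_top p θ r),
    ← ENNReal.ofReal_add (by positivity) (by positivity),
    ← ENNReal.ofReal_add (by positivity) (by positivity),
    ENNReal.ofReal_le_ofReal_iff (by positivity)] at h4
  linarith

/-- If BU fails, F is small in the boxes about a rational point. -/
theorem of_not_bu_w {G : R4 → ℝ} (hw : 0 < w) (hG : ∀ x, |F x| ≤ G x) (h : ¬ BU c Th G) :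
    ∃ q : (ℚ × ℚ × ℚ × ℚ) × ℕ, Adm q.1.1 (q.1.2.1, q.1.2.2.1) q.1.2.2.2 q.2 ∧
      Sw w c F q.1.1 (q.1.2.1, q.1.2.2.1) q.1.2.2.2 q.2 := by
  simp only [BU, not_forall, not_exists, not_and, not_le] at h
  obtain ⟨p, θ, hθ, r, hr, h⟩ := h
  have hO : IsOpen Th := isOpen_lt (by fun_prop) continuous_const
  obtain ⟨r1, h1, h2⟩ := Metric.isOpen_iff.1 hO θ hθ
  obtain ⟨s, s0, s1⟩ := exists_rat_btwn (half_pos (lt_min hr h1))
  obtain ⟨q, hq⟩ := exists_rat_near p s0
  obtain ⟨q1, hq1⟩ := exists_rat_near θ.1 s0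
  obtain ⟨q2, hq2⟩ := exists_rat_near θ.2 s0
  have l1 := min_le_left r r1
  have l2 := min_le_right r r1
  have h3 : ∀ y : ℝ × ℝ, ‖y - ((q1 : ℝ), (q2 : ℝ))‖ < s → ‖y - θ‖ < min r r1 := fun y hy => by
    have h4 : ‖θ - ((q1 : ℝ), (q2 : ℝ))‖ < s := by
      rw [Prod.norm_def]
      exact max_lt hq1 hq2
    have h5 := norm_sub_le (y - ((q1 : ℝ), (q2 : ℝ))) (θ - ((q1 : ℝ), (q2 : ℝ)))
    rw [sub_sub_sub_cancel_right] at h5
    linarith
  obtain ⟨t0, h4⟩ := h (B0 q (q1, q2) s * ENNReal.ofReal (w / 10))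
    (ENNReal.mul_pos (B0_ne_zero _ _ s0) (ENNReal.ofReal_pos.2 (by positivity)).ne')
  obtain ⟨N, hN⟩ := exists_nat_ge (max t0 (s - q))
  refine ⟨((q, q1, q2, s), N), ⟨s0, (le_max_right _ _).trans hN, fun y hy =>
    le_of_lt (h2 (mem_ball_iff_norm.2 ((h3 y hy).trans_le l2)))⟩, fun t ht => ?_⟩
  refine (measure_mono fun x hx => ?_).trans (h4 t (((le_max_left _ _).trans hN).trans ht)).le
  refine ⟨?_, hx.1.2.1, (h3 _ hx.1.2.2).trans_le l1, by linarith [hx.2, hG x]⟩
  have h5 := abs_sub (cu x - q) (p - q)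
  rw [sub_sub_sub_cancel_right] at h5
  linarith [hx.1.1]

end

/-! ### Cut-off functions -/

theorem st_B (c : ℝ) : ∃ M ≥ 0, ∀ (x0 : ℝ) (z : X3),
    B e 1 9 (fun y => Real.smoothTransition (c * y.1 + x0)) z M := by
  have sm : ContDiff ℝ ∞ Real.smoothTransition := Real.smoothTransition.contDiff
  have cs : ∀ a : ℝ, HasCompactSupport (dv a Real.smoothTransition) := fun a =>
    HasCompactSupport.intro (isCompact_Icc (a := (0 : ℝ)) (b := 1)) fun t ht => by
      have k : ∃ r : ℝ, Real.smoothTransition =ᶠ[𝓝 t] fun _ => r := by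
        rcases not_and_or.1 ht with h | h
        · exact ⟨0, (eventually_lt_nhds (not_le.1 h)).mono fun y hy =>
            Real.smoothTransition.zero_of_nonpos (le_of_lt hy)⟩
        · exact ⟨1, (eventually_gt_nhds (not_le.1 h)).mono fun y hy =>
            Real.smoothTransition.one_of_one_le (le_of_lt hy)⟩
      obtain ⟨r, k⟩ := k
      simp [dv, k.fderiv_eq]
  choose m hm using fun j : Fin 3 => good_bd (f := dv (c * (e j).1) Real.smoothTransition)
    (contDiff_iff_contDiffAt.2 fun _ => sm_dv sm.contDiffAt _) (cs _)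
    (fun j => c * (e j).1) 8
  refine ⟨2 ^ ∑ j, m j, by positivity, fun x0 z => ?_⟩
  refine P354EN.B.aff (v := e) (u := fun j => c * (e j).1) (g := Real.smoothTransition)
    (c • ContinuousLinearMap.fst ℝ ℝ (ℝ × ℝ)) x0 (fun _ => rfl) (B_succ sm.contDiffAt ?_ fun j => ?_)
  · rw [abs_of_nonneg (Real.smoothTransition.nonneg _)]
    exact (Real.smoothTransition.le_one _).trans (one_le_pow₀ one_le_two)
  · rw [one_pow, mul_one]
    exact (hm j _).pw le_rfl zero_le_one le_rfl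
      (Finset.single_le_sum (fun _ _ => Nat.zero_le _) (Finset.mem_univ j))

/-- The cut-off which is 1 for a + w / 4 ≤ x ≤ a' - w / 4 and 0 outside a < x < a'. -/
def ct (w a a' x : ℝ) : ℝ :=
  Real.smoothTransition (4 / w * (x - a)) * Real.smoothTransition (4 / w * (a' - x))

section
variable {w a a' x : ℝ}

theorem ct_sm : ContDiff ℝ ∞ (ct w a a') :=
  (Real.smoothTransition.contDiff.comp (by fun_prop)).mul
    (Real.smoothTransition.contDiff.comp (by fun_prop))

theorem ct_mem : 0 ≤ ct w a a' x ∧ ct w a a' x ≤ 1 :=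
  ⟨mul_nonneg (Real.smoothTransition.nonneg _) (Real.smoothTransition.nonneg _),
    mul_le_one₀ (Real.smoothTransition.le_one _) (Real.smoothTransition.nonneg _)
      (Real.smoothTransition.le_one _)⟩

theorem ct_zero (hw : 0 < w) (h : x ≤ a ∨ a' ≤ x) : ct w a a' x = 0 := by
  have k : 0 ≤ 4 / w := by positivity
  rcases h with h | h
  · rw [ct, Real.smoothTransition.zero_of_nonpos (mul_nonpos_of_nonneg_of_nonpos k (by linarith)),
      zero_mul]
  · rw [ct, Real.smoothTransition.zero_of_nonpos (x := 4 / w * (a' - x))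
      (mul_nonpos_of_nonneg_of_nonpos k (by linarith)), mul_zero]

theorem st_one (hw : 0 < w) (h : w / 4 ≤ x) : Real.smoothTransition (4 / w * x) = 1 :=
  Real.smoothTransition.one_of_one_le (by
    rw [div_mul_eq_mul_div, le_div_iff₀ hw]
    linarith)

theorem ct_one (hw : 0 < w) (h : a + w / 4 ≤ x) (h' : x ≤ a' - w / 4) : ct w a a' x = 1 := by
  rw [ct, st_one hw (by linarith), st_one hw (by linarith), one_mul]

theorem ct_eq {a2 : ℝ} (hw : 0 < w) (h : a + w / 4 ≤ x) (h' : a2 + w / 4 ≤ x) :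
    ct w a a' x = ct w a2 a' x := by
  rw [ct, ct, st_one hw (by linarith), st_one (x := x - a2) hw (by linarith)]

theorem ct_B (w : ℝ) : ∃ M ≥ 0, ∀ (b : Bool) (a a' : ℝ) (z : X3),
    B e 1 9 (fun y => ct w a a' (sgn b * y.1)) z M := by
  obtain ⟨M, M0, h⟩ := st_B (4 / w)
  obtain ⟨M', M0', h'⟩ := st_B (-(4 / w))
  refine ⟨2 ^ 9 * M * M', by positivity, fun b a a' z => ?_⟩
  cases b
  · refine (((h' (-(4 / w * a)) z).mul zero_le_one (h (4 / w * a') z)).mono zero_le_one le_rfl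
      (le_of_eq (by ring))).congr (Eventually.of_forall fun y => ?_)
    simp only [ct, sgn, cond_false]
    congr 2 <;> ring
  · refine (((h (-(4 / w * a)) z).mul zero_le_one (h' (4 / w * a') z)).mono zero_le_one le_rfl
      (le_of_eq (by ring))).congr (Eventually.of_forall fun y => ?_)
    simp only [ct, sgn, cond_true]
    congr 2 <;> ring

end

/-! ### Local uniqueness -/

section
variable {k ρ δ1 ε1 ε δ cb : ℝ} {n1 : ℕ} {C : ℕ → ℝ} {a : ℝ → ℝ} {K f : R4 → Ix → ℝ}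
  {u : X3 → Ix → ℝ} {W : ℕ → R4 → Ix → ℝ}

/-- The glued solution solves the reduced system. -/
theorem fam_sol (hK : IsBS k ρ δ1 ε1 n1 C K f) (hF : Fam2 k a ε δ cb K f (wd K u) W)
    (h0 : 0 < δ) (h1 : δ ≤ δ1) : SmU (K + glue W) {p | -δ < p.1} ∧
      (∀ q : R4, -δ < q.1 → r2 q.2 < 16 → Solves (K + glue W) q) ∧
      ∀ z, r2 z ≤ 9 → (K + glue W) (0, z) = u z := by
  have ev : ∀ p : R4, -δ < p.1 → ∃ n : ℕ, |p.2.1| ≤ n ∧ K + glue W =ᶠ[𝓝 p] K + W n := fun p hp => by
    obtain ⟨n, hn⟩ := exists_nat_gt (|p.1| + |p.2.1|)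
    have hO : IsOpen {q : R4 | -δ < q.1 ∧ |q.1| + |q.2.1| < n} :=
      (isOpen_lt continuous_const continuous_fst).inter
        (isOpen_lt (f := fun q : R4 => |q.1| + |q.2.1|) (by fun_prop) continuous_const)
    refine ⟨n, by linarith [abs_nonneg p.1], ?_⟩
    filter_upwards [hO.mem_nhds ⟨hp, hn⟩] with q hq
    simp only [Pi.add_apply, P354E2.glue2 k a ε δ cb K f _ W hK.smooth.1 hF n q hq.1 hq.2]
  refine ⟨fun i p hp => ?_, fun q hq hr i => ?_, fun z hz => ?_⟩
  · obtain ⟨n, -, g⟩ := ev p hp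
    exact (((contDiffOn_univ.1 (hK.smooth.1 i)).add (hF.smooth n i)).contDiffAt.congr_of_eventuallyEq
      (g.mono fun q hq => congrFun hq i)).contDiffWithinAt
  · obtain ⟨n, hn, g⟩ := ev q hq
    exact (res_congr g i).trans
      (P354QF.sol_eq (hF.eqn n q hq.le) hn (hK.sol q (by linarith) hr) i)
  · obtain ⟨n, hn, g⟩ := ev (0, z) (by simpa using h0)
    exact g.eq_of_nhds.trans (P354QF.init_eq (hF.init n z) hn hz)

end

theorem loc_uni {U U' : R4 → Ix → ℝ} {δ N1 N2 : ℝ} (b : Bool) (hU : SmU U {p | -δ < p.1})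
    (hU' : SmU U' {p | -δ < p.1})
    (sol : ∀ q : R4, -δ < q.1 → r2 q.2 < 16 → Solves U q ∧ Solves U' q)
    (ini : ∀ z : X3, r2 z ≤ 9 → -N2 < sgn b * z.1 → sgn b * z.1 < N1 → U (0, z) = U' (0, z))
    {q : R4} (h0 : 0 < δ) (hq : 0 ≤ q.1) (tr : Trav U 1 q.1 (1 / 20)) (hr : r2 q.2 ≤ 2)
    (h1 : q.1 + sgn b * q.2.1 < N1) (h2 : q.1 - sgn b * q.2.1 < N2) : U q = U' q := by
  have r0 : 0 ≤ rr q := add_nonneg (sq_nonneg _) (sq_nonneg _)
  have r1 : rr q ≤ 2 := hr
  have e2 : 1 * q.1 ∈ Icc 0 q.1 := ⟨by linarith, by linarith⟩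
  obtain ⟨φ, D, d1, d2, d3, d4, d5⟩ := lens (a := -2) (b := 8) tr (Or.inl rfl) (by norm_num) e2
    (by linarith) (by linarith)
  have sub : D ⊆ {p : R4 | -δ < p.1} := fun p hp => by
    have := (d2 p hp).1.1
    show -δ < p.1
    linarith
  have s1 : sgn b = 1 ∨ sgn b = -1 := by cases b <;> simp [sgn]
  have s2 : -sgn b = 1 ∨ -sgn b = -1 := by cases b <;> simp [sgn]
  refine P354CU.uni U U' (Fin 4 ⊕ Bool) (Sum.elim φ fun c p =>
      lf 1 (bif c then sgn b else -sgn b) 0 0 p - bif c then N1 else N2) _ D 1 0 q.1 (Or.inl rfl)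
    (isOpen_lt continuous_const continuous_fst) d1 sub hU hU' (fun i => ?_) (fun p hp k => ?_)
    (fun p hp k => ?_) q (by rwa [sub_zero]) fun i => ?_
  · rcases i with i | c
    · exact d3 i
    · exact (ContinuousLinearMap.contDiff _).sub contDiff_const
  · obtain ⟨m, c⟩ := d4 p (by rwa [sub_zero] at hp) fun i => k (.inl i)
    have := sol p (sub m) (show rr p < 16 by linarith [(d2 p m).2.2])
    refine ⟨m, this.1, this.2, fun i => ?_⟩
    rcases i with i | _ | _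
    exacts [c i, causal_x (Or.inl rfl) s2 U _ p, causal_x (Or.inl rfl) s1 U _ p]
  · obtain ⟨t, z⟩ := p
    obtain rfl : t = 0 := hp
    have m := (d4 (0, z) ⟨by simp, by simpa using hq⟩ fun i => k (.inl i)).1
    have k1 := k (.inr true)
    have k2 := k (.inr false)
    simp only [Sum.elim_inr, cond_true, cond_false, lf_ap] at k1 k2
    exact ini z (show rr (0, z) ≤ 9 by linarith [(d2 _ m).2.2]) (by linarith) (by linarith)
  · rcases i with i | _ | _
    · exact d5 i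
    · simp only [Sum.elim_inr, cond_false, lf_ap]
      linarith
    · simp only [Sum.elim_inr, cond_true, lf_ap]
      linarith

end Vale.Agent.P354YV
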