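import Vale.Agent.P354YV.IgBox

/-!
The artificial data which interpolate between the values of two data.
-/

open scoped ContDiff
open Set Filter Topology

noncomputable section

namespace Vale.Agent.P354YV

open Vale.Agent.P354n (R4)
open Vale.Agent.P354H (X3 e pdl)
open Vale.Agent.P354C (Ix)
open Vale.Agent.P354I (IsBS IsInit DatB r2 cy wd)
open Vale.Agent.P354J (Bd)
open Vale.Agent.P354D (sgn)
open Vale.Agent.P354DG (Ba abs_sgn)
open Vale.Agent.P354IN (cy_sm cy_zero norm_le r2_cont)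
open Vale.Agent.P354EN (B B_Sa B_of_zero)
open Vale.Agent.P354YX (ea B_fst B_ab ab_B)

/-- A background which is stationary at the end b, and small data. -/
structure Si (k s ρ δ1 ε1 ε : ℝ) (C : ℕ → ℝ) (b : Bool) (K f : R4 → Ix → ℝ) (u : X3 → Ix → ℝ) :
    Prop where
  bg : IsBS k ρ δ1 ε1 12 C K f
  sta : ∀ x x' y, 1 ≤ sgn b * x → 1 ≤ sgn b * x' → K (0, x, y) = K (0, x', y)
  ini : IsInit u
  dat : DatB s 9 ε (wd K u)

/-- The weight. -/
def Wz (s x : ℝ) : ℝ := (1 + x ^ 2) ^ (-s / 2)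

theorem Wz_pos (s x : ℝ) : 0 < Wz s x := by unfold Wz; positivity

theorem Wz_anti {s x y : ℝ} (hs : 0 ≤ s) (h : |x| ≤ y) : Wz s y ≤ Wz s x :=
  Real.rpow_le_rpow_of_nonpos (by positivity)
    (by nlinarith [sq_abs x, abs_nonneg x]) (by linarith)

theorem Wz_le {s x y : ℝ} (hs : 0 ≤ s) (h : |x| ≤ 2 * |y|) : Wz s y ≤ 4 ^ (s / 2) * Wz s x := by
  have k : (4 * (1 + y ^ 2)) ^ (-s / 2) ≤ Wz s x := Real.rpow_le_rpow_of_nonpos (by positivity)
    (by nlinarith [sq_abs x, sq_abs y, abs_nonneg x]) (by linarith)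
  refine le_trans (le_of_eq ?_) (mul_le_mul_of_nonneg_left k (by positivity))
  rw [Real.mul_rpow (by norm_num) (by positivity), ← mul_assoc, ← Real.rpow_add (by norm_num),
    show s / 2 + -s / 2 = 0 by ring, Real.rpow_zero, one_mul, Wz]

theorem B_bd {n : ℕ} {f : X3 → ℝ} {z : X3} {c : ℝ} :
    B e 1 n f z c ↔ ContDiffAt ℝ ∞ f z ∧ Bd n f z c := by
  simp only [B_Sa, P354XB.Sa, Bd, one_pow, mul_one, Real.norm_eq_abs]

theorem B_ba {n m : ℕ} {f : X3 → ℝ} {z : X3} {c : ℝ} (h : B e 1 n f z c) (hm : m ≤ n) :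
    Ba m f z c := fun α h1 _ => (B_bd.1 h).2 α (h1.trans hm)

theorem dat_B {s ε : ℝ} {n : ℕ} {w : X3 → Ix → ℝ} (h : DatB s n ε w) (i : Ix) (z : X3) :
    B e 1 n (fun y => w y i) z (ε * Wz s z.1) :=
  B_bd.2 ⟨(h.smooth i).contDiffAt, fun α hα => h.bound i α hα z⟩

theorem ba_cut {φ : ℝ → ℝ} (hφ : ContDiff ℝ ∞ φ) (h1 : ∀ x, |φ x| ≤ 1) {f : X3 → ℝ}
    (hf : ContDiff ℝ ∞ f) {z : X3} {c : ℝ} (hc : 0 ≤ c) (b : Bool)
    (h : φ (sgn b * z.1) = 0 ∨ Ba 4 f z c) :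
    Ba 4 (fun y => φ (sgn b * y.1) * f y) z (16 * c) := by
  have sm : ContDiff ℝ ∞ fun x => φ (sgn b * x) := hφ.comp (contDiff_const.mul contDiff_id)
  rcases h with h | h
  · obtain ⟨d, -, hd⟩ := P354JP.bd_compact 4 (isCompact_singleton (x := z)) hf
    exact B_ab (((B_fst (c := 0) sm (by rw [h, abs_zero])).mul zero_le_one
      (ab_B hf.contDiffAt fun α k _ => hd z rfl α k)).mono zero_le_one le_rfl (by linarith))
  · exact B_ab (((B_fst sm (h1 _)).mul zero_le_one (ab_B hf.contDiffAt h)).mono zero_le_one le_rfl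
      (by linarith))

variable {k s ρ δ1 ε1 ε c1 M R w X ν : ℝ} {C : ℕ → ℝ} {b : Bool} {K1 f1 K2 f2 : R4 → Ix → ℝ}
  {u1 u2 : X3 → Ix → ℝ}

/-- The difference of the values is small with the weight. -/
theorem dif_B (h1 : Si k s ρ δ1 ε1 ε C b K1 f1 u1) (h2 : Si k s ρ δ1 ε1 ε C b K2 f2 u2)
    (hs : 0 ≤ s) (hε : 0 ≤ ε) (c0 : 0 ≤ c1) (hc : ∀ z : X3, ‖z.2‖ ≤ 4 → Bd 9 cy z c1) (hR : 10 ≤ R)
    (hw : w ∈ Ioc 0 1) (hX : 0 ≤ X) (n0 : 0 ≤ ν) (hν : 2 ^ 9 * (c1 * ν) ≤ ε * Wz s (X + R + 3))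
    (lo : ∀ z : X3, sgn b * z.1 ∈ Ioo (-X) (R - 2 * w) → r2 z ≤ 16 → ∀ i,
      B e 1 9 (fun y => u2 y i - u1 y i) z ν)
    (z : X3) (hz : sgn b * z.1 ∈ Ioo (-X) (R + 3 / 2 * w)) (i : Ix) :
    B e 1 9 (fun y => cy y * (u2 y i - u1 y i)) z ((3 + 2 * 4 ^ (s / 2)) * ε * Wz s z.1) := by
  have l1 : ∀ z : X3, sgn b * z.1 ∈ Ioo (-X) (R - 2 * w) →
      B e 1 9 (fun y => cy y * (u2 y i - u1 y i)) z (2 ^ 9 * (c1 * ν)) := fun z hz => by
    rcases le_or_gt (r2 z) 16 with k | k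
    · exact (B_bd.2 ⟨cy_sm.contDiffAt, hc z (norm_le k)⟩).mul zero_le_one (lo z hz k i)
    · exact B_of_zero zero_le_one (by positivity)
        ((r2_cont.continuousAt.eventually_const_lt k).mono fun y hy => by
          simp only [cy_zero hy.le, zero_mul])
  have w0 := hw.1
  have w1 := hw.2
  have a0 : |z.1| = |sgn b * z.1| := (abs_sgn b _).symm
  have l2 : 2 ^ 9 * (c1 * ν) ≤ ε * Wz s z.1 := hν.trans (mul_le_mul_of_nonneg_left
    (Wz_anti hs (a0 ▸ abs_le.2 ⟨by linarith [hz.1], by linarith [hz.2]⟩)) hε)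
  have p1 := mul_nonneg hε (Wz_pos s z.1).le
  have p2 : 0 ≤ 4 ^ (s / 2) * (ε * Wz s z.1) := by positivity
  rcases lt_or_ge (sgn b * z.1) (R - 2 * w) with j | j
  · exact (l1 z ⟨hz.1, j⟩).mono zero_le_one le_rfl (by linarith)
  have ss : sgn b * sgn b = 1 := by cases b <;> simp [sgn]
  obtain ⟨z0, hz0⟩ : ∃ z0 : X3, z0 = (sgn b * (R - 9 / 4 * w), z.2) := ⟨_, rfl⟩
  have e0 : sgn b * z0.1 = R - 9 / 4 * w := by rw [hz0, ← mul_assoc, ss, one_mul]
  have d0 : B e 1 9 (fun y => cy y * (K2 (0, y) i - K1 (0, y) i))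
      (ContinuousLinearMap.id ℝ X3 z + (z0 - z))
      (2 ^ 9 * (c1 * ν) + (ε * Wz s z0.1 + ε * Wz s z0.1)) := by
    rw [ContinuousLinearMap.id_apply, add_sub_cancel]
    refine ((l1 z0 (e0 ▸ ⟨by linarith, by linarith⟩)).sub
      ((dat_B h2.dat i z0).sub (dat_B h1.dat i z0))).congr (Eventually.of_forall fun y => ?_)
    simp only [wd]
    ring
  have d1 : B e 1 9 (fun y => cy y * (K2 (0, y) i - K1 (0, y) i)) z
      (2 ^ 9 * (c1 * ν) + (ε * Wz s z0.1 + ε * Wz s z0.1)) := by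
    refine (P354EN.B.aff (v := e) _ _ (fun _ => rfl) d0).congr ?_
    have ct : Continuous fun y : X3 => sgn b * y.1 := by fun_prop
    filter_upwards [ct.continuousAt.eventually_const_lt (show sgn b * z.1 - 1 < _ by linarith)]
      with y hy
    have e1 : ContinuousLinearMap.id ℝ X3 y + (z0 - z) = (y.1 + (z0.1 - z.1), y.2) :=
      Prod.ext rfl (by simp [hz0])
    have e2 : 1 ≤ sgn b * (y.1 + (z0.1 - z.1)) := by
      rw [mul_add, mul_sub, e0]
      linarith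
    rw [e1, h1.sta _ y.1 y.2 e2 (by linarith), h2.sta _ y.1 y.2 e2 (by linarith)]
    rfl
  have l3 : ε * Wz s z0.1 ≤ ε * (4 ^ (s / 2) * Wz s z.1) := mul_le_mul_of_nonneg_left
    (Wz_le hs (by
      rw [a0, ← abs_sgn b z0.1, e0, abs_of_nonneg (by linarith), abs_of_nonneg (by linarith)]
      linarith [hz.2])) hε
  refine ((((dat_B h2.dat i z).sub (dat_B h1.dat i z)).add d1).congr
    (Eventually.of_forall fun y => ?_)).mono zero_le_one le_rfl (by linarith)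
  simp only [wd]
  ring

/-- The interpolation. -/
def itp (φ : ℝ → ℝ) (b : Bool) (u1 u2 : X3 → Ix → ℝ) (z : X3) (i : Ix) : ℝ :=
  u1 z i + φ (sgn b * z.1) * (u2 z i - u1 z i)

theorem itp_sm {φ : ℝ → ℝ} (hφ : ContDiff ℝ ∞ φ) (s1 : ∀ i, ContDiff ℝ ∞ fun z => u1 z i)
    (s2 : ∀ i, ContDiff ℝ ∞ fun z => u2 z i) (i : Ix) :
    ContDiff ℝ ∞ fun z => itp φ b u1 u2 z i :=
  (s1 i).add ((hφ.comp (contDiff_const.mul contDiff_fst)).mul ((s2 i).sub (s1 i)))

theorem dat_cut {a c : ℝ} (h1 : DatB s 9 ε (wd K1 u1)) (hw : 0 < w) (ha : -X < a) (M0 : 0 ≤ M)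
    (hc : 0 ≤ c)
    (hM : ∀ z, B e 1 9 (fun y => ct w a (R + 11 / 8 * w) (sgn b * y.1)) z M)
    (h : ∀ z : X3, sgn b * z.1 ∈ Ioo (-X) (R + 3 / 2 * w) → ∀ i,
      B e 1 9 (fun y => cy y * (u2 y i - u1 y i)) z (c * Wz s z.1)) :
    DatB s 9 (ε + 2 ^ 9 * (M * c)) (wd K1 (itp (ct w a (R + 11 / 8 * w)) b u1 u2)) := by
  have key : ∀ i z, B e 1 9 (fun y => wd K1 (itp (ct w a (R + 11 / 8 * w)) b u1 u2) y i) z
      ((ε + 2 ^ 9 * (M * c)) * Wz s z.1) := fun i z => by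
    have k : B e 1 9 (fun y => ct w a (R + 11 / 8 * w) (sgn b * y.1) * (cy y * (u2 y i - u1 y i))) z
        (2 ^ 9 * (M * (c * Wz s z.1))) := by
      by_cases hz : sgn b * z.1 ∈ Ioo (-X) (R + 3 / 2 * w)
      · exact (hM z).mul zero_le_one (h z hz i)
      have ct : Continuous fun y : X3 => sgn b * y.1 := by fun_prop
      have w0 := (Wz_pos s z.1).le
      refine B_of_zero zero_le_one (by positivity) ?_
      rcases not_and_or.1 hz with j | j
      · filter_upwards [ct.continuousAt.eventually_lt_const ((not_lt.1 j).trans_lt ha)] with y hy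
        rw [ct_zero hw (Or.inl hy.le), zero_mul]
      · filter_upwards [ct.continuousAt.eventually_const_lt
          (show R + 11 / 8 * w < _ by linarith [not_lt.1 j])] with y hy
        rw [ct_zero hw (Or.inr hy.le), zero_mul]
    refine (((dat_B h1 i z).add k).congr (Eventually.of_forall fun y => ?_)).mono zero_le_one
      le_rfl (le_of_eq (by ring))
    simp only [wd, itp]
    ring
  refine ⟨fun i => contDiff_iff_contDiffAt.2 fun z => (key i z).1, fun z hz => funext fun i => ?_,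
    fun i α hα z => (B_bd.1 (key i z)).2 α hα⟩
  simp only [wd, cy_zero hz, zero_mul, Pi.zero_apply]

end Vale.Agent.P354YV
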