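import Vale.Agent.P354XE.Iface
import Vale.Agent.P354XB.Defs
import Vale.Agent.P354YJ.Defs
import Vale.Agent.P354EN.Cal

/-!
The interior half of the game: admissible data on a late slice in the black hole, countably many
conditions which give a future part without extension, and the step which enforces one of them.
-/

open scoped ContDiff
open Set

noncomputable section

namespace Vale.Agent.P354YV

open Vale.Agent.P354H (X3 e)
open Vale.Agent.P354C (Ix detP)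
open Vale.Agent.P354A (cmp)
open Vale.Agent.P354I (Dat P3 IsKF Con Geo pm mix r2)
open Vale.Agent.P354J (PDy Ud Bd pb)
open Vale.Agent.P354D (sgn)
open Vale.Agent.P354XB (Kick)
open Vale.Agent.P354XE (GGp)
open Vale.Agent.P354YJ (sw ng RT)
open Vale.Agent.P354EN (B)

/-- Admissible data on the slice of the time T: smooth, close to the family at the order 11. -/
def Ad (p0 : P3) (kd : P3 → ℝ → Dat) (s T ε η : ℝ) (d : Dat) : Prop :=
  PDy d ∧ Con d ∧ ∃ p ∈ Metric.ball p0 ε, ∃ q ∈ Metric.ball p0 ε,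
    pm s 11 d (mix (kd p T) (kd q T)) < ENNReal.ofReal η

/-- The values seen from the side b: the left end is reflected. -/
def Sd (b : Bool) (u : X3 → Ix → ℝ) : X3 → Ix → ℝ := bif b then u else fun z => sw (u (ng z))

/-- Closeness of the values at the order 9 for x in I. -/
def Cl (ν : ℝ) (I : Set ℝ) (u c : X3 → Ix → ℝ) : Prop :=
  ∀ z : X3, z.1 ∈ I → r2 z ≤ 16 → ∀ i, B e 1 9 (fun y => u y i - c y i) z ν

/-- Closeness of the data at the order 11 in the chart σ for sgn b * x in I. -/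
def CD (σ b : Bool) (ν : ℝ) (I : Set ℝ) (d c : Dat) : Prop :=
  ∀ z : X3, sgn b * z.1 ∈ I → r2 z ≤ 16 → ∀ i j,
    Bd 11 (fun y => pb σ d.h y i j - pb σ c.h y i j) z ν ∧
      Bd 11 (fun y => pb σ d.K y i j - pb σ c.K y i j) z ν

/-- IG: the conditions NS i win, and one of the values v, v' of a kick enforces NS i. -/
def IG : Prop :=
  ∀ p0 k ε0 δ1 C K kd (s Λ w : ℝ), IsKF p0 k ε0 δ1 C K kd → 1 < s → w ∈ Ioc 0 1 →
    ∃ T0 ≥ 0, ∀ T ≥ T0, ∃ η > 0, ∃ ε ∈ Ioc 0 ε0, ∃ (σ b : ℕ → Bool) (NS : ℕ → Dat → Prop),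
      (∀ d, Ad p0 kd s T ε η d → (∀ i, NS i d) → GGp d) ∧
      ∀ i, ∃ R0, ∀ R ≥ R0, ∀ A ≥ Real.exp (-(k / 64) * R), ∃ ν > 0, ∃ X : ℝ, ∀ v v',
        Cl ν (Ioo (-X) (R - 3 / 2 * w)) v' v → Kick Λ R w A v v' →
        ∃ c, (c = v ∨ c = v') ∧ ∀ d, Ad p0 kd s T ε η d →
          Cl ν (Ioo (-X) (R + 5 / 2 * w)) (Sd (b i) (Ud d (σ i))) c → NS i d

/-- ADB: uniform bounds and Lipschitz dependence of the values of admissible data. -/
def ADB : Prop :=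
  ∀ p0 k ε0 δ1 C K kd (s T : ℝ), IsKF p0 k ε0 δ1 C K kd → 0 ≤ s → 0 ≤ T →
    ∃ η > 0, ∃ c > 0, ∃ M L : ℝ, 0 ≤ L ∧ ∀ d, Ad p0 kd s T ε0 η d → Geo c M 11 d ∧ ∀ σ b,
      (∀ z : X3, ‖z.2‖ ≤ 6 → c ≤ Sd b (Ud d σ) z .O ∧ c ≤ detP (Sd b (Ud d σ) z) ∧
        RT (Sd b (Ud d σ)) z = Sd b (Ud d σ) z ∧ ∀ i, B e 1 9 (cmp (Sd b (Ud d σ)) i) z M) ∧
      ∀ d' ν I, Ad p0 kd s T ε0 η d' → CD σ b ν I d d' →
        Cl (L * ν) I (Sd b (Ud d σ)) (Sd b (Ud d' σ))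

theorem Ad.mono {p0 : P3} {kd : P3 → ℝ → Dat} {s T ε η ε' η' : ℝ} {d : Dat}
    (h : Ad p0 kd s T ε η d) (h1 : ε ≤ ε') (h2 : η ≤ η') : Ad p0 kd s T ε' η' d :=
  let ⟨a, b, p, hp, q, hq, k⟩ := h
  ⟨a, b, p, Metric.ball_subset_ball h1 hp, q, Metric.ball_subset_ball h1 hq,
    k.trans_le (ENNReal.ofReal_le_ofReal h2)⟩

theorem Cl.mono {ν ν' : ℝ} {I I' : Set ℝ} {u c : X3 → Ix → ℝ} (h : Cl ν I u c) (h1 : ν ≤ ν')
    (h2 : I' ⊆ I) : Cl ν' I' u c := fun z hz hr i =>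
  (h z (h2 hz) hr i).mono zero_le_one le_rfl h1

/-- Values which agree near the points are close. -/
theorem cl_of_eq {ν : ℝ} {I : Set ℝ} {u c : X3 → Ix → ℝ} (h0 : 0 ≤ ν) (hI : IsOpen I)
    (h : ∀ z : X3, z.1 ∈ I → r2 z < 17 → u z = c z) : Cl ν I u c := fun z hz hr i => by
  refine P354EN.B_of_zero zero_le_one h0 ?_
  have c2 : Continuous P354I.r2 := by unfold P354I.r2; fun_prop
  filter_upwards [(hI.preimage continuous_fst).mem_nhds hz,
    c2.continuousAt.eventually_lt_const (show r2 z < 17 by linarith)] with y y1 y2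
  rw [h y y1 y2, sub_self]

end Vale.Agent.P354YV
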