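import Vale.Agent.P354YV.IgDefs
import Vale.Agent.P354N2.Near
import Vale.Agent.P354P.Dev
import Vale.Agent.P354L.Main
import Vale.Agent.P354YJ.Sw
import Vale.Agent.P354YJ.Rot
import Vale.Agent.P354.Bdl.B5

/-!
The future part without extension, and the values of admissible data.
-/

open scoped ContDiff
open Set Filter Topology

noncomputable section

namespace Vale.Agent.P354YV

open Vale.Agent.P354n (R4 cu cv form)
open Vale.Agent.P354H (X3 e pd pdl)
open Vale.Agent.P354C (Ix detP)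
open Vale.Agent.P354I (Dat P3 IsKF MIX IsInit DatB Con Geo Th Th0 pm mix wd KI r2)
open Vale.Agent.P354J (PDy Ud Bd pb sl1 sl2)
open Vale.Agent.P354D (sgn)
open Vale.Agent.P354P
open Vale.Agent.P354L (Ana Base)
open Vale.Agent.P354XE (GGp)
open Vale.Agent.P354N2 (wd_bd cy_bd geo_mono isInit wd_eq st st_sm)
open Vale.Agent.P354YJ (sw ng sx sj si sw_eq abs_sj pd_ng RT)
open Vale.Agent.P354EN (B B_Sa)

/-- The blow-up of the curvature excludes extensions of the part τ > 0. -/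
theorem ggp_of {d : Dat} {δ κ0 : ℝ} {V : Bool → R4 → Ix → ℝ} {κ : ℝ → ℝ} {al be : Bool → R4 → R4}
    (G : Glob d δ V) (hκ : P354L.Wt κ0 κ)
    (h : ∀ σ, Ana (2 * δ) κ0 κ Th (coef V σ) (al σ) (be σ)) : GGp d := by
  have D := G.isDN
  have d0 := G.pos
  let v : R4 := (1, 1, 0)
  let C' : Bool → ℕ → R4 → ℝ := fun σ i y => coef V σ i (y + v)
  have r : ∀ y : R4, rr (y + v) = rr y := fun y => by simp [rr, P354n.c1, P354n.c2, v]
  have mem : ∀ y ∈ Dm 1, y + v ∈ Dm δ := fun y hy => ⟨by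
    have : -1 < (y.1 + y.2.1) / 2 := hy.1
    show -δ < (y.1 + 1 + (y.2.1 + 1)) / 2
    linarith, (r y).trans_lt hy.2⟩
  have fl : ∀ y : R4, flip (y + v) = flip y + v := fun y => by
    simp [P354P.flip, r, cu, cv, P354n.c1, P354n.c2, v]
  have D' : IsDN 1 C' := ⟨one_pos, fun σ i => (D.smooth σ i).comp (contDiffOn_id.add contDiffOn_const)
    mem, fun σ y hy => D.om σ _ (mem y hy), fun σ y hy => D.g0 σ _ (mem y hy),
    fun σ y hy => D.det σ _ (mem y hy), fun σ y hy k a => by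
      have := D.compat σ _ (mem y hy) (by rwa [r]) a
      rw [← fderiv_comp_add_right v, fl] at this
      simp only [fl, fderiv_add_const] at this
      exact this⟩
  let c : Bool → Ch 1 := fun σ => ⟨σ,
    (Homeomorph.addRight v).toOpenPartialHomeomorph.restrOpen (Dm 1) (isOpen_Dm 1),
    contDiffOn_id.add contDiffOn_const, contDiffOn_id.add contDiffOn_const, fun _ k => k.2⟩
  have b0 := base_sp (δ := 1) (C := C') fun _ _ => ⟨rfl, rfl⟩
  have b : Base (sp 1 C') (fun p => uu 1 p + 1) (fun p => vv 1 p + 1) c (coef V) 0 Th0 Th := by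
    refine ⟨b0.cpt, isOpen_lt (by fun_prop) continuous_const,
      fun w (k : w.1 ^ 2 + w.2 ^ 2 ≤ 1) => k.trans_lt (by norm_num : (1 : ℝ) < 2), fun p => ?_,
      fun _ _ _ => ⟨rfl, rfl⟩, fun p => by linarith [b0.dom p], fun σ x k k' => ?_⟩
    · obtain ⟨σ, k, k'⟩ := exists_in 1 p
      exact ⟨σ, ⟨k.1, trivial, bs_mem 1 σ p k.2⟩, (r _).trans_le k'⟩
    · have k2 : rr x < 2 := k'
      refine ⟨tgt_eq ▸ ⟨trivial, ?_, ?_⟩, fun a => ?_, ?_, rfl, rfl⟩
      · have : -0 < x.1 + x.2.1 := k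
        show -1 < (x.1 + -1 + (x.2.1 + -1)) / 2
        linarith
      · show rr (x + -v) < 4
        rw [← r, neg_add_cancel_right]
        linarith
      · show bil (C' σ) (x + -v) (fderiv ℝ (fun y => y + -v) x a) (fderiv ℝ (fun y => y + -v) x a) = _
        rw [bil_self, fderiv_add_const, fderiv_fun_id]
        show form (coef V σ) (x + -v + v) a = _
        rw [neg_add_cancel_right]
      · show 0 < cv (fderiv ℝ (fun y => y + v) _ _)
        rw [fderiv_add_const, fderiv_fun_id]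
        exact one_pos
  exact ⟨δ, V, 1, 1, C', G, D', le_rfl, fun _ _ _ _ => rfl,
    ((P354n.inext 2 le_rfl).1 _ (isSpacetime D')).2 (P354L.b7 _ _ _ _ _ _ _ _ _ _ _ R4 al be
      (isSpacetime D') sat b hκ fun σ =>
        ⟨fun u1 v1 k => (h σ).est u1 v1 (by linarith), (h σ).right, (h σ).left⟩)⟩

variable {p0 : P3} {k ε0 δ1 s T : ℝ} {C : ℕ → ℝ} {K : P3 → ℝ → Bool → R4 → Ix → ℝ}
  {kd : P3 → ℝ → Dat}

/-- NEAR2 at a finite order. -/
theorem near3 (hX : MIX) (F : IsKF p0 k ε0 δ1 C K kd) (hs : 0 ≤ s) (t0 : 0 ≤ T) (m : ℕ) {η : ℝ}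
    (hη : 0 < η) : ∃ η' > 0, ∃ ε > 0, ∀ p ∈ Metric.ball p0 ε, ∀ q ∈ Metric.ball p0 ε, ∀ d,
      PDy d → Con d → pm s (m + 2) d (mix (kd p T) (kd q T)) < ENNReal.ofReal η' → ∀ σ,
        IsInit (Ud d σ) ∧ DatB s m η (wd (KI (K p T σ) (K q T σ)) (Ud d σ)) := by
  obtain ⟨c, hc, B, hG⟩ := F.geo T (m + 2)
  obtain ⟨B', hB'⟩ := hX.2.1 (m + 2) B
  obtain ⟨η1, e1, h1⟩ := hX.2.2.1 c B' (m + 2) hc
  obtain ⟨C1, c1, hW⟩ := wd_bd (max B (B' + 1)) m (half_pos hc) hs
  obtain ⟨C2, c2, hY⟩ := cy_bd m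
  obtain ⟨ν, n0, n1, n2⟩ : ∃ ν > 0, ν ≤ η1 ∧ C2 * (C1 * (ν + (ν + ν))) ≤ η :=
    ⟨min η1 (η / (3 * C2 * C1 + 1)), by positivity, min_le_left _ _, by
      have := (le_div_iff₀ (by positivity)).1 (min_le_right η1 (η / (3 * C2 * C1 + 1)))
      have : 0 < min η1 (η / (3 * C2 * C1 + 1)) := by positivity
      linarith⟩
  obtain ⟨ε, e0, hε⟩ := F.kcont T (m + 2) ν n0
  refine ⟨ν, n0, min ε ε0, lt_min e0 F.pos.2.1, fun p hp q hq d hd hd' h σ => ?_⟩
  have ht : T ∈ Icc 0 T := ⟨t0, le_rfl⟩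
  have b0 := Metric.ball_subset_ball (x := p0) (min_le_right ε ε0)
  have b1 := Metric.ball_subset_ball (x := p0) (min_le_left ε ε0)
  have G := hG p (b0 hp) T ht
  have G' := hG q (b0 hq) T ht
  have G0 := hG p0 (Metric.mem_ball_self F.pos.2.1) T ht
  have Gm := hB' c _ _ G G'
  have Gd := h1 s _ d hs Gm hd (h.le.trans (ENNReal.ofReal_le_ofReal n1))
  have hl := half_le_self hc.le
  have w := hW ν (ν + ν) _ _ d n0.le (by positivity) (geo_mono G hl (le_max_left _ _))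
    (geo_mono G' hl (le_max_left _ _)) (geo_mono Gm hl (le_max_of_le_right (by linarith)))
    (geo_mono Gd le_rfl (le_max_right _ _)) h.le (by
      rw [ENNReal.ofReal_add n0.le n0.le]
      exact (P354T.pm_tri 0 _ G.1.1 G0.1.1 G'.1.1).trans (add_le_add (hε p (b1 hp) T ht)
        (P354T.pm_comm 0 _ _ _ ▸ hε q (b1 hq) T ht))) σ
  have e := wd_eq (u := Ud d σ) (F.init p (b0 hp) T t0 σ) (F.init q (b0 hq) T t0 σ)
  have sm : ∀ i, ContDiff ℝ ∞ fun w => Ud d σ w i -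
      (st w * Ud (kd p T) σ w i + (1 - st w) * Ud (kd q T) σ w i) := fun i =>
    ((sl1 _ _ (Gd.1.toPD σ)).1 i).sub ((st_sm.mul ((sl1 _ _ (G.1.toPD σ)).1 i)).add
      ((contDiff_const.sub st_sm).mul ((sl1 _ _ (G'.1.toPD σ)).1 i)))
  refine ⟨isInit (half_pos hc) Gd hd' σ, fun i => e i ▸ P354IN.cy_sm.mul (sm i),
    fun z hz => funext fun i => ?_, fun i α hα z => ?_⟩
  · show P354I.cy z * _ = 0
    rw [P354IN.cy_zero hz, zero_mul]
  · have w0 := fun z => (P354JP.wt_pos s z).le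
    rw [e, ← P354IN.wt_eq]
    refine (hY _ _ (sm i) (fun z => mul_nonneg (by positivity) (w0 z)) (fun z hz => w z hz i)
      z α hα).trans ?_
    rw [← mul_assoc]
    exact mul_le_mul_of_nonneg_right n2 (w0 z)

/-- The interpolated background is stationary at the ends. -/
theorem KI_sta {K K' : R4 → Ix → ℝ} (h : ∀ τ x x' y, K (τ, x, y) = K (τ, x', y))
    (h' : ∀ τ x x' y, K' (τ, x, y) = K' (τ, x', y)) (b : Bool) (x x' : ℝ) (y : ℝ × ℝ)
    (k : 1 ≤ sgn b * x) (k' : 1 ≤ sgn b * x') : KI K K' (0, x, y) = KI K K' (0, x', y) := by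
  funext i
  have e1 : ∀ x, P354I.psi i (0, x, y) = Real.smoothTransition x := fun x => by simp [P354I.psi]
  rw [KI, KI, e1, e1, h 0 x x', h' 0 x x']
  cases b <;> simp only [sgn, cond_true, cond_false] at k k'
  · rw [Real.smoothTransition.zero_of_nonpos (by linarith),
      Real.smoothTransition.zero_of_nonpos (by linarith)]
  · rw [Real.smoothTransition.one_of_one_le (by linarith),
      Real.smoothTransition.one_of_one_le (by linarith)]

/-! ### The reflection -/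

theorem pdl_ng' (α : List (Fin 3)) (c : ℝ) (f : X3 → ℝ) (z : X3) :
    |pdl α (fun y => c * f (ng y)) z| = |c| * |pdl α f (ng z)| := by
  induction α generalizing c f with
  | nil => exact abs_mul _ _
  | cons j α ih =>
    have e1 : pd j (fun y => c * f (ng y)) = fun y => c * sx j * pd j f (ng y) :=
      funext fun y => by rw [pd_ng, mul_assoc]
    have e2 : |sx j| = 1 := by fin_cases j <;> simp [sx]
    show |pdl α (pd j fun y => c * f (ng y)) z| = |c| * |pdl α (pd j f) (ng z)|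
    rw [e1, ih, abs_mul, e2, mul_one]

theorem B_ng {n : ℕ} {f : X3 → ℝ} {z : X3} {c ν : ℝ} (hc : |c| = 1) (h : B e 1 n f (ng z) ν) :
    B e 1 n (fun y => c * f (ng y)) z ν := by
  have sm : ContDiff ℝ ∞ ng := by unfold ng; fun_prop
  exact B_Sa.2 ⟨contDiffAt_const.mul (h.1.comp z sm.contDiffAt), fun α hα => by
    rw [pdl_ng', hc, one_mul]
    exact (B_Sa.1 h).2 α hα⟩

theorem ng_ng (z : X3) : ng (ng z) = z := by simp [ng]

theorem sw_sw (U : Ix → ℝ) : sw (sw U) = U := funext fun i => by cases i <;> simp [sw]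

theorem Sd_Sd (b : Bool) (u : X3 → Ix → ℝ) : Sd b (Sd b u) = u := by
  cases b
  · exact funext fun z => by simp only [Sd, cond_false, ng_ng, sw_sw]
  · rfl

/-- Bounds of differences pass to the reflected values. -/
theorem B_Sd {n : ℕ} {u u' : X3 → Ix → ℝ} {z : X3} {ν : ℝ} (b : Bool)
    (h : ∀ i, B e 1 n (fun y => u y i - u' y i) (sgn b * z.1, z.2) ν) (i : Ix) :
    B e 1 n (fun y => Sd b u y i - Sd b u' y i) z ν := by
  cases b
  · simp only [Sd, cond_false, sw_eq, ← mul_sub]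
    exact B_ng (f := fun y => u y (si i) - u' y (si i)) (abs_sj i)
      (by simpa [sgn, ng] using h (si i))
  · simpa [Sd, sgn] using h i

theorem adb_of (hX : MIX) : ADB := by
  intro p0 k ε0 δ1 C K kd s T F hs t0
  obtain ⟨c, hc, B, hG⟩ := F.geo T 11
  obtain ⟨B', hB'⟩ := hX.2.1 11 B
  obtain ⟨η, e1, h1⟩ := hX.2.2.1 c B' 11 hc
  obtain ⟨C1, c1, d1, d2, hL⟩ := P354M2.lip2 (c / 2) (B' + 1) 6 9 (half_pos hc)
  obtain ⟨L, L0, hL'⟩ := P354N2.lipc (B' + 1) 4 9 (half_pos hc)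
  have geo : ∀ d, Ad p0 kd s T ε0 η d → Geo (c / 2) (B' + 1) 11 d :=
    fun d ⟨a1, _, p, hp, q, hq, a3⟩ => h1 s _ d hs
      (hB' c _ _ (hG p hp T ⟨t0, le_rfl⟩) (hG q hq T ⟨t0, le_rfl⟩)) a1 a3.le
  refine ⟨η, e1, min (c / 2) c1, lt_min (half_pos hc) d2, max (B' + 1) C1, L, L0, fun d hd =>
    ⟨geo_mono (geo d hd) (min_le_left _ _) (le_max_left _ _), fun σ b =>
      ⟨fun z hz => ?_, fun d' ν I hd' h z hz hr => B_Sd b fun i => ?_⟩⟩⟩
  · have G := geo d hd
    obtain ⟨k1, k2, k3⟩ := hL 0 0 d d le_rfl le_rfl G G (by rw [P354T.pm_self]; exact zero_le) σ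
      (sgn b * z.1, z.2) hz
    have rt : ∀ d σ z, PDy d → Con d → RT (Ud d σ) z = Ud d σ z := fun d σ z D c => by
      obtain ⟨s1, s2⟩ := sl1 _ _ (D.toPD σ)
      exact (P354YJ.rotThm _ _ _ univ (D.toPD σ) isOpen_univ (fun i => (s1 i).contDiffOn)
        (fun y _ => ⟨(s2 y).1, (s2 y).2.2.1, (s2 y).2.2.2.2.1,
          (s2 y).2.2.2.2.2.1 (((sl2 d σ D).2 _).2 (c _ (P354JP.phi_ne σ _)))⟩) z trivial).symm
    refine ⟨(min_le_right _ _).trans ?_, (min_le_right _ _).trans ?_, ?_, fun i => ?_⟩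
    · cases b <;> simpa [Sd, sgn, sw, ng] using k1
    · cases b <;> simpa [Sd, sgn, sw, ng, detP] using k2
    · cases b
      · obtain ⟨B, hB⟩ := P354YJ.iv_cyl
        obtain ⟨a1, a2, -⟩ := P354PU.pull.1 B _ _ d hB hd.1
        rw [show Sd false (Ud d σ) = Ud (d.pull P354YJ.iv) σ from
          funext fun y => (P354YJ.ud_iv d σ y hd.1 hd.2.1).symm]
        exact rt _ σ z a1 (a2 hd.2.1)
      · exact rt d σ z hd.1 hd.2.1
    · have := B_Sd (n := 9) (u := Ud d σ) (u' := 0) (z := z) (ν := max (B' + 1) C1) b (fun i => by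
        simp only [Pi.zero_apply, sub_zero]
        exact B_Sa.2 ⟨(k3 i).sf.contDiffAt, fun α hα => by
          simpa using ((k3 i).bf α hα).trans (le_max_right _ _)⟩) i
      have z0 : ∀ y, Sd b 0 y i = 0 := fun y => by cases b <;> simp [Sd, sw_eq]
      simp only [z0, sub_zero] at this
      exact this
  · have ss : sgn b * sgn b = 1 := by cases b <;> simp [sgn]
    have t := hL' ν d d' (geo d hd) (geo d' hd') σ (sgn b * z.1, z.2) (P354IN.norm_le hr)
      (h _ (by simpa only [← mul_assoc, ss, one_mul] using hz) hr) i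
    exact B_Sa.2 ⟨(t.sf.sub t.sg).contDiffAt, fun α hα => by simpa using t.bd α hα⟩

end Vale.Agent.P354YV
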