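import Vale.Agent.P354YV.IgTwo
import Vale.Agent.P354YV.IgWin
import Vale.Agent.P354SR.Exist
import Vale.Agent.P354SR.Main
import Vale.Agent.P354M.Main
import Vale.Agent.P354P.Main
import Vale.Agent.P354AY.Wt
import Vale.Agent.P354M2.Mix

/-!
The interior half of the game.
-/

open scoped ContDiff ENNReal
open MeasureTheory Set Filter Topology

noncomputable section

namespace Vale.Agent.P354YV

open Vale.Agent.P354n (R4)
open Vale.Agent.P354H (X3 e)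
open Vale.Agent.P354C (Ix)
open Vale.Agent.P354I (Dat P3 IsKF IsCh Fam2 BlowR BlowL KI FI wd glue r2)
open Vale.Agent.P354J (Ud)
open Vale.Agent.P354D (sgn cpt)
open Vale.Agent.P354DG (Adm Ba ph small pt_true pt_false)
open Vale.Agent.P354XE (GGp)
open Vale.Agent.P354YJ (sw ng si sj sw_eq abs_sj pdl_ng)
open Vale.Agent.P354EN (B)
open Vale.Agent.P354YX (B_ab ab_B)
open Metric (ball ball_subset_ball)

theorem core {p0 : P3} {k ε0 δ1 s Λ w : ℝ} {C : ℕ → ℝ} {K : P3 → ℝ → Bool → R4 → Ix → ℝ}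
    {kd : P3 → ℝ → Dat} (h : IsKF p0 k ε0 δ1 C K kd) (hs : 1 < s) (hΛ : 0 ≤ Λ)
    (hw : w ∈ Ioc 0 1) : ∃ T0 ≥ 0, ∀ T ≥ T0, ∃ η > 0, ∃ ε ∈ Ioc 0 ε0,
      ∃ (σ b : ℕ → Bool) (NS : ℕ → Dat → Prop),
        (∀ d, Ad p0 kd s T ε η d → (∀ i, NS i d) → GGp d) ∧
        ∀ i, ∃ R0 X, ∀ R ≥ R0, ∀ A ≥ Real.exp (-(k / 64) * R), ∃ ν > 0, ∀ d1 d2,
          Kk (b i) Λ R w A ν X (Ud d1 (σ i)) (Ud d2 (σ i)) → NS i d1 ∨ NS i d2 := by
  obtain ⟨hk, e0, d1, _⟩ := h.pos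
  have s0 : 0 ≤ s := by linarith
  obtain ⟨a, A, A0, c, ha, has, hac⟩ := P354AY.wt k s hk hs
  obtain ⟨C', hR⟩ := P354SR.src _ _ _ _ _ _ _ h
  obtain ⟨μ2, h2, cb, hS⟩ := P354SR.solve2' k s a A A0 C' hk hs ha has fun y => (hac y).1
  obtain ⟨μ3, h3, cb', hF⟩ := P354QF.full2 k a A A0 cb C' hk ha
  obtain ⟨μ7, h7, hC⟩ := P354P.compat P354Q.vac P354Q.conv P354CU.uni P354J.sl1 P354J.sl2
    P354J.dslThm P354J.uq P354J.fu P354J.ind k a A A0 cb' hk ha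
  obtain ⟨κ, hκ, hA⟩ := P354M.ana k a A A0 hk ha
  obtain ⟨μ5, h5, hG⟩ := two_ch C' cb hk s0 ha has hw hΛ
  obtain ⟨μ6, h6, hq⟩ := small (B := |C' 5|) h7
  obtain ⟨μ, h0, l1, l2, l3, l5, l6, l7⟩ :
      ∃ μ > 0, μ ≤ δ1 ∧ μ ≤ μ2 ∧ μ ≤ μ3 ∧ μ ≤ μ5 ∧ μ ≤ μ6 ^ 2 ∧ μ ≤ μ7 :=
    ⟨min δ1 (min μ2 (min μ3 (min μ5 (min (μ6 ^ 2) μ7)))), by positivity, by simp, by simp,
      by simp, by simp, by simp, by simp⟩
  have a1 : Tendsto (fun T : ℝ => Real.exp (-k * T)) atTop (𝓝 0) :=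
    Real.tendsto_exp_atBot.comp (tendsto_id.const_mul_atTop_of_neg (by linarith))
  obtain ⟨T0, hT0⟩ := eventually_atTop.1 (a1.eventually (gt_mem_nhds h0))
  refine ⟨max T0 0, le_max_right _ _, fun T hT => ?_⟩
  have t0 : 0 ≤ T := (le_max_right _ _).trans hT
  have hρ' := (hT0 T ((le_max_left _ _).trans hT)).le
  have hρ := Real.exp_pos (-k * T)
  obtain ⟨ε1, e1, hS⟩ := hS μ h0
  obtain ⟨ε, ⟨e2, e3⟩, hG⟩ := hG μ ⟨h0, l5⟩ ε1 e1
  obtain ⟨εa, ea, hR⟩ := hR 12 ε1 e1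
  obtain ⟨η, hη, εb, eb, hN⟩ := near3 P354M2.mixThm h s0 t0 9 e2
  have hS := hS μ ⟨h0, l2⟩ _ ⟨hρ, hρ'.trans l2⟩ δ1
  have hG := hG δ1 l1 _ ⟨hρ, hρ'.trans l5⟩ hS
  obtain ⟨ι, hι⟩ := exists_surjective_nat (Bool × Bool × (ℚ × ℚ × ℚ × ℚ) × ℕ)
  let Q : Bool × Bool × (ℚ × ℚ × ℚ × ℚ) × ℕ → Dat → Prop := fun ⟨σ, b, q⟩ d =>
    Adm q.1.1 (q.1.2.1, q.1.2.2.1) q.1.2.2.2 q.2 → ∀ K f W,
      Si k s (Real.exp (-k * T)) δ1 ε1 ε C' b K f (Ud d σ) → Fam2 k a μ μ cb K f (wd K (Ud d σ)) W →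
        ¬ Sw w (k / 32) (ph K b W) q.1.1 (q.1.2.1, q.1.2.2.1) q.1.2.2.2 q.2
  refine ⟨η, hη, min ε0 (min εa εb), ⟨by positivity, min_le_left _ _⟩, fun i => (ι i).1,
    fun i => (ι i).2.1, fun i => Q (ι i), fun d ⟨hd, hd', p, hp, q, hq', hm⟩ H => ?_, fun i => ?_⟩
  · have m0 : ball p0 (min ε0 (min εa εb)) ⊆ ball p0 ε0 := ball_subset_ball (by simp)
    have ma : ball p0 (min ε0 (min εa εb)) ⊆ ball p0 εa := ball_subset_ball (by simp)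
    have mb : ball p0 (min ε0 (min εa εb)) ⊆ ball p0 εb := ball_subset_ball (by simp)
    have hB := hR p (ma hp) q (ma hq') T t0
    have hN := hN p (mb hp) q (mb hq') d hd hd' hm
    choose W hW using fun σ => hS _ _ (hB σ) _ (dat_mono (hN σ).2 e3)
    have hH : ∀ σ, IsCh k a μ (C' 5 * √(Real.exp (-k * T))) μ cb' (Ud d σ)
        (KI (K p T σ) (K q T σ) + glue (W σ)) := fun σ =>
      hF _ ⟨hρ, hρ'.trans l3⟩ μ ⟨h0, l3⟩ μ ⟨h0, l3⟩ _ _ _ _ _ _ _ l1 (hB σ) (hN σ).1 (hW σ)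
    have H' : ∀ σ b (x : (ℚ × ℚ × ℚ × ℚ) × ℕ), Adm x.1.1 (x.1.2.1, x.1.2.2.1) x.1.2.2.2 x.2 →
        ¬ Sw w (k / 32) (ph (KI (K p T σ) (K q T σ)) b (W σ)) x.1.1 (x.1.2.1, x.1.2.2.1) x.1.2.2.2
          x.2 := fun σ b x hx => by
      obtain ⟨i, hi⟩ := hι (σ, b, x)
      exact (hi ▸ H i : Q (σ, b, x) d) hx _ _ _ ⟨hB σ, KI_sta (h.smooth p (m0 hp) T t0 σ).2.1
        (h.smooth q (m0 hq') T t0 σ).2.1 b, (hN σ).1, (hN σ).2⟩ (hW σ)
    have b1 : ∀ σ, BlowR k (KI (K p T σ) (K q T σ) + glue (W σ)) := fun σ => by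
      by_contra hd
      obtain ⟨x, h4, h5⟩ := of_not_bu_w (F := ph (KI (K p T σ) (K q T σ)) true (W σ)) hw.1
        (fun x => by
          rw [pt_true]
          exact le_add_of_nonneg_right (abs_nonneg _)) hd
      exact H' σ true x h4 h5
    have b2 : ∀ σ, BlowL k (KI (K p T σ) (K q T σ) + glue (W σ)) := fun σ => by
      by_contra hd
      obtain ⟨x, h4, h5⟩ := of_not_bu_w (F := ph (KI (K p T σ) (K q T σ)) false (W σ)) hw.1
        (fun x => by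
          rw [pt_false]
          exact le_add_of_nonneg_right (abs_nonneg _)) hd
      exact H' σ false x h4 h5
    have q1 := (hq _ (Real.sqrt_nonneg _) (Real.sqrt_le_iff.2 ⟨h6.le, hρ'.trans l6⟩)).2
    choose al be hab using fun σ => hA _ _ _ _ _ _ h0 (hN σ).1 (hH σ) (b1 σ) (b2 σ)
    exact ggp_of (hC μ ⟨h0.le, l7⟩ _ ⟨bs_nonneg (hB true) 5, (mul_le_mul_of_nonneg_right
      (le_abs_self _) (Real.sqrt_nonneg _)).trans q1⟩ μ ⟨h0, l7⟩ d _ hd hH) hκ hab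
  · beta_reduce
    generalize ι i = x
    obtain ⟨σ, b, q⟩ := x
    by_cases h4 : Adm q.1.1 (q.1.2.1, q.1.2.2.1) q.1.2.2.2 q.2
    · obtain ⟨R0, X, hG⟩ := hG b _ _ _ _ h4
      refine ⟨R0, X, fun R hR A' hA' => ?_⟩
      obtain ⟨ν, n0, hG⟩ := hG R hR A' hA'
      refine ⟨ν, n0, fun d1 d2 H => or_iff_not_imp_left.2 fun k1 _ K2 f2 W2 S2 F2 => ?_⟩
      simp only [Q, not_forall, not_not] at k1
      obtain ⟨-, K1, f1, W1, S1, F1, k1⟩ := k1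
      exact hG _ _ _ _ _ _ _ _ S1 S2 F1 F2 H k1
    · exact ⟨0, 0, fun _ _ _ _ => ⟨1, one_pos, fun _ _ _ => Or.inl fun k => absurd k h4⟩⟩

/-- The kick between values which are close to the values of a kick. -/
theorem kk_of {b : Bool} {Λ R w A ν X : ℝ} {I : Set ℝ} {u1 u2 v v' : X3 → Ix → ℝ} (hA : 8 * ν ≤ A)
    (hI : Ioo (-X) (R + 3 / 2 * w) ⊆ I) (hw : 0 < w) (hX : -X ≤ R - 5 / 2 * w)
    (h1 : ∀ z : X3, sgn b * z.1 ∈ I → r2 z ≤ 16 → ∀ i, B e 1 9 (fun y => u1 y i - v y i) z ν)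
    (h2 : ∀ z : X3, sgn b * z.1 ∈ I → r2 z ≤ 16 → ∀ i, B e 1 9 (fun y => u2 y i - v' y i) z ν)
    (s1 : ∀ i, ContDiff ℝ ∞ fun y => u1 y i) (s2 : ∀ i, ContDiff ℝ ∞ fun y => u2 y i)
    (lo : ∀ z : X3, sgn b * z.1 ∈ Ioo (-X) (R - 2 * w) → r2 z ≤ 16 → ∀ i,
      B e 1 9 (fun y => v' y i - v y i) z ν)
    (wi : ∀ z : X3, sgn b * z.1 ∈ Ioo (R - 5 / 2 * w) (R + 3 / 2 * w) → r2 z ≤ 16 → ∀ i,
      Ba 4 (fun y => v' y i - v y i) z (Λ * A))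
    (lw : ENNReal.ofReal (w / 3) ≤ volume {x ∈ Ioo R (R + w) | ∀ y : ℝ × ℝ,
      y.1 ^ 2 + y.2 ^ 2 ≤ 2 → A ≤ |v' (sgn b * x, y) (cpt b) - v (sgn b * x, y) (cpt b)|}) :
    Kk b (Λ + 1) R w A (3 * ν) X u1 u2 := by
  have ss : sgn b * sgn b = 1 := by cases b <;> simp [sgn]
  refine ⟨fun z hz hr i => ?_, fun z hz hr i => ?_, lw.trans (measure_mono fun x hx =>
    ⟨hx.1, fun y hy => ?_⟩)⟩
  · have m := hI ⟨hz.1, by linarith [hz.2]⟩
    exact ((((h2 z m hr i).add (lo z hz hr i)).sub (h1 z m hr i)).congr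
      (Eventually.of_forall fun y => by ring)).mono zero_le_one le_rfl (by linarith)
  · have m := hI ⟨by linarith [hz.1], hz.2⟩
    have k1 := h1 z m hr i
    have k2 := h2 z m hr i
    have sm : ContDiffAt ℝ ∞ (fun y => v' y i - v y i) z :=
      ((((s2 i).sub (s1 i)).contDiffAt.sub k2.1).add k1.1).congr_of_eventuallyEq
        (Eventually.of_forall fun y => by ring)
    exact B_ab (((((ab_B k2.1 (B_ba k2 (by norm_num))).add (ab_B sm (wi z hz hr i))).sub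
      (ab_B k1.1 (B_ba k1 (by norm_num)))).congr (Eventually.of_forall fun y => by ring)).mono
      zero_le_one le_rfl (by linarith [k1.nn]))
  · have m : sgn b * ((sgn b * x, y) : X3).1 ∈ I := by
      simp only [← mul_assoc, ss, one_mul]
      exact hI ⟨by linarith [hx.1.1], by linarith [hx.1.2]⟩
    have r : r2 (sgn b * x, y) ≤ 16 := le_trans hy (by norm_num)
    have k1 := abs_le.1 (h1 _ m r (cpt b)).zero
    have k2 := abs_le.1 (h2 _ m r (cpt b)).zero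
    rcases le_abs.1 (hx.2 y hy) with j | j
    · exact le_abs.2 (Or.inl (by linarith [k1.2, k2.1]))
    · exact le_abs.2 (Or.inr (by linarith [k1.1, k2.2]))

theorem adb : ADB := adb_of P354M2.mixThm

theorem cl_Sd {b : Bool} {ν : ℝ} {I : Set ℝ} {u c : X3 → Ix → ℝ} (h : Cl ν I u c) (z : X3)
    (hz : sgn b * z.1 ∈ I) (hr : r2 z ≤ 16) (i : Ix) :
    B e 1 9 (fun y => Sd b u y i - Sd b c y i) z ν := B_Sd b (h _ hz hr) i

theorem ig : IG := by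
  intro p0 k ε0 δ1 C K kd s Λ w h hs hw
  have w0 := hw.1
  obtain ⟨T0, t0, H⟩ := core (Λ := |Λ| + 1 + 1) h hs (by positivity) hw
  refine ⟨T0, t0, fun T hT => ?_⟩
  obtain ⟨η, e1, ε, e2, σ, b, NS, H1, H2⟩ := H T hT
  refine ⟨η, e1, ε, e2, σ, b, NS, H1, fun i => ?_⟩
  obtain ⟨R0, X, H2⟩ := H2 i
  refine ⟨max R0 (5 / 2 * w - X), fun R hR A hA => ?_⟩
  obtain ⟨ν, n0, H2⟩ := H2 R ((le_max_left _ _).trans hR) A hA
  have A0 : 0 < A := (Real.exp_pos _).trans_le hA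
  have l1 := min_le_left (ν / 3) (A / 8)
  have l2 := min_le_right (ν / 3) (A / 8)
  refine ⟨min (ν / 3) (A / 8), by positivity, X, fun v v' lo hK => ?_⟩
  by_cases c1 : ∀ d, Ad p0 kd s T ε η d →
    Cl (min (ν / 3) (A / 8)) (Ioo (-X) (R + 5 / 2 * w)) (Sd (b i) (Ud d (σ i))) v → NS i d
  · exact ⟨v, Or.inl rfl, c1⟩
  simp only [not_forall] at c1
  obtain ⟨d1, a1, k1, n1⟩ := c1
  refine ⟨v', Or.inr rfl, fun d2 a2 k2 => (H2 d1 d2 ?_).resolve_left n1⟩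
  have X1 := (le_max_right _ _).trans hR
  have K := kk_of (b := b i) (Λ := |Λ| + 1) (R := R) (w := w) (A := A) (X := X)
    (I := Ioo (-X) (R + 5 / 2 * w)) (u1 := Ud d1 (σ i)) (u2 := Ud d2 (σ i)) (v := Sd (b i) v)
    (v' := Sd (b i) v') (ν := min (ν / 3) (A / 8)) (by linarith)
    (Ioo_subset_Ioo_right (by linarith)) w0 (by linarith)
    (fun z hz hr j => by simpa only [Sd_Sd] using cl_Sd k1 z hz hr j)
    (fun z hz hr j => by simpa only [Sd_Sd] using cl_Sd k2 z hz hr j)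
    (P354J.sl1 _ _ (a1.1.toPD _)).1 (P354J.sl1 _ _ (a2.1.toPD _)).1
    (fun z hz hr j => cl_Sd lo z ⟨hz.1, by linarith [hz.2]⟩ hr j) (fun z hz hr j => ?_) ?_
  · exact ⟨fun z hz hr j => (K.lo z hz hr j).mono zero_le_one le_rfl (by linarith), K.wi, K.lw⟩
  · have p1 := mul_nonneg (abs_nonneg Λ) A0.le
    rcases lt_or_ge (sgn (b i) * z.1) (R - 3 / 2 * w) with j1 | j1
    · exact B_ba ((cl_Sd lo z ⟨by linarith [hz.1], j1⟩ hr j).mono zero_le_one le_rfl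
        (by linarith)) (by norm_num)
    have p2 := mul_le_mul_of_nonneg_right (le_abs_self Λ) A0.le
    have m : sgn (b i) * z.1 ∈ Ioo (R - 2 * w) (R + 5 / 2 * w) := ⟨by linarith, by linarith [hz.2]⟩
    intro α h1 h2
    generalize b i = b at m
    cases b
    · simp only [Sd, cond_false, sw_eq, ← mul_sub]
      rw [pdl_ng (sj j) α h2 fun y => v' y (si j) - v y (si j), abs_mul, abs_sj, one_mul]
      exact (hK.bound _ α h1 h2 (ng z) (by simpa [sgn, ng] using m) hr).trans (by linarith)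
    · exact (hK.bound _ α h1 h2 z (by simpa [sgn] using m) hr).trans (by linarith)
  · have := hK.low
    cases b i <;> simpa [Sd, sgn, cpt, ng, sw] using this

end Vale.Agent.P354YV
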