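import Vale.Agent.P354YV.IgCut
import Vale.Agent.P354E2.Diff

/-!
Two solutions whose initial values differ by a kick are not both small.
-/

open scoped ContDiff ENNReal
open MeasureTheory Set Filter Topology

noncomputable section

namespace Vale.Agent.P354YV

open Vale.Agent.P354n (R4 cu cv)
open Vale.Agent.P354H (X3 e)
open Vale.Agent.P354C (Ix)
open Vale.Agent.P354A (Wt)
open Vale.Agent.P354I (IsBS Fam2 DatB r2 wd glue)
open Vale.Agent.P354D (sgn cpt)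
open Vale.Agent.P354DG (Adm Ba DI2 ph pt near2 small)
open Vale.Agent.P354EN (B)

theorem bs_nonneg {k ρ δ1 ε : ℝ} {n : ℕ} {C : ℕ → ℝ} {K f : R4 → Ix → ℝ}
    (h : IsBS k ρ δ1 ε n C K f) (m : ℕ) : 0 ≤ C m * √ρ := by
  have := (norm_nonneg _).trans (h.bound m 0 (by norm_num) Ix.O [] (Nat.zero_le _) 0)
  simpa using this

theorem dat_mono {s ε ε' : ℝ} {n : ℕ} {w : X3 → Ix → ℝ} (h : DatB s n ε w) (k : ε ≤ ε') :
    DatB s n ε' w := ⟨h.smooth, h.supp, fun i α hα z =>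
  (h.bound i α hα z).trans (mul_le_mul_of_nonneg_right k (by positivity))⟩

/-- The values u2 are a kick of u1 up to an error ν. -/
structure Kk (b : Bool) (Λ R w A ν X : ℝ) (u1 u2 : X3 → Ix → ℝ) : Prop where
  lo : ∀ z : X3, sgn b * z.1 ∈ Ioo (-X) (R - 2 * w) → r2 z ≤ 16 → ∀ i,
    B e 1 9 (fun y => u2 y i - u1 y i) z ν
  wi : ∀ z : X3, sgn b * z.1 ∈ Ioo (R - 5 / 2 * w) (R + 3 / 2 * w) → r2 z ≤ 16 → ∀ i,
    Ba 4 (fun y => u2 y i - u1 y i) z (Λ * A)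
  lw : ENNReal.ofReal (w / 3) ≤ volume {x ∈ Ioo R (R + w) | ∀ y : ℝ × ℝ, y.1 ^ 2 + y.2 ^ 2 ≤ 2 →
    3 / 4 * A ≤ |u2 (sgn b * x, y) (cpt b) - u1 (sgn b * x, y) (cpt b)|}

theorem two_ch {k s A0 w Λ : ℝ} {a A : ℝ → ℝ} (C : ℕ → ℝ) (cb : ℝ) (hk : 0 < k) (hs : 0 ≤ s)
    (hW : Wt k a A A0) (ha : ContDiff ℝ ∞ a) (hw : w ∈ Ioc 0 1) (hΛ : 0 ≤ Λ) :
    ∃ μ > 0, ∀ δ ∈ Ioc 0 μ, ∀ ε1 > 0, ∃ ε ∈ Ioc 0 ε1, ∀ δ1 ≥ δ, ∀ ρ ∈ Ioc 0 μ,
      (∀ K f, IsBS k ρ δ1 ε1 12 C K f → ∀ w0, DatB s 9 ε1 w0 → ∃ W, Fam2 k a δ δ cb K f w0 W) →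
      ∀ b p θ r N, Adm p θ r N → ∃ R0 X, ∀ R ≥ R0, ∀ A' ≥ Real.exp (-(k / 64) * R), ∃ ν > 0,
        ∀ K1 f1 u1 W1 K2 f2 u2 W2, Si k s ρ δ1 ε1 ε C b K1 f1 u1 → Si k s ρ δ1 ε1 ε C b K2 f2 u2 →
          Fam2 k a δ δ cb K1 f1 (wd K1 u1) W1 → Fam2 k a δ δ cb K2 f2 (wd K2 u2) W2 →
          Kk b Λ R w A' ν X u1 u2 → Sw w (k / 32) (ph K1 b W1) p θ r N →
          ¬ Sw w (k / 32) (ph K2 b W2) p θ r N := by
  have w0 := hw.1
  have w1 := hw.2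
  obtain ⟨μ0, m0, C0, c0, hD⟩ := P354E2.diff2 _ a A A0 hk hW (ha.of_le (by exact_mod_cast le_top))
  obtain ⟨c1, d1, hc⟩ := P354IN.bd_cy 9
  obtain ⟨E, hE⟩ : ∃ E, E = Real.exp (k / 8) := ⟨_, rfl⟩
  have E0 : 0 < E := hE ▸ Real.exp_pos _
  obtain ⟨μ2, m2, h2⟩ := small (B := 320 * E ^ 2 * C0 * (256 * c1 * (16 * Λ)) ^ 2) (ζ := w / 24)
    (by positivity)
  obtain ⟨μ3, m3, cb', hF⟩ := P354QF.full2 k a A A0 cb C hk hW
  obtain ⟨μ4, m4, h4, -⟩ := P354P.exists_small (cb := 0) hk ((hW.nn 0).trans (hW.bd 0))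
    (by norm_num : (0 : ℝ) < 1 / 20)
  obtain ⟨μ, μ0', l0, l2, l4⟩ : ∃ μ > 0, μ ≤ μ0 ∧ μ ≤ μ2 ∧ μ ≤ μ4 :=
    ⟨min μ0 (min μ2 μ4), by positivity, by simp, by simp, by simp⟩
  obtain ⟨μ5, m5, h5⟩ := small (B := |C 5|) (half_pos μ0')
  obtain ⟨M, M0, hM⟩ := ct_B w
  obtain ⟨c, hc'⟩ : ∃ c : ℝ, c = 3 + 2 * 4 ^ (s / 2) := ⟨_, rfl⟩
  have c0' : 0 ≤ c := by rw [hc']; positivity
  refine ⟨min (μ / 2) (min μ3 (μ5 ^ 2)), by positivity, fun δ hδ ε1 e1 =>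
    ⟨ε1 / (1 + 2 ^ 9 * (M * c)), ⟨by positivity, div_le_self e1.le
      (le_add_of_nonneg_right (by positivity))⟩, fun δ1 hδ1 ρ hρ hS b p θ r N h0 => ?_⟩⟩
  obtain ⟨ε, hε⟩ : ∃ ε, ε = ε1 / (1 + 2 ^ 9 * (M * c)) := ⟨_, rfl⟩
  have e0 : 0 < ε := by rw [hε]; positivity
  have e2 : ε + 2 ^ 9 * (M * (c * ε)) ≤ ε1 := by
    rw [show ε + 2 ^ 9 * (M * (c * ε)) = ε * (1 + 2 ^ 9 * (M * c)) by ring, hε,
      div_mul_cancel₀ _ (by positivity)]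
  rw [← hε]
  obtain ⟨q1, q2, -⟩ : δ ≤ μ / 2 ∧ δ ≤ μ3 ∧ δ ≤ μ5 ^ 2 := by simpa using hδ.2
  obtain ⟨-, q3, q4⟩ : ρ ≤ μ / 2 ∧ ρ ≤ μ3 ∧ ρ ≤ μ5 ^ 2 := by simpa using hρ.2
  have q5 := (h5 _ (Real.sqrt_nonneg ρ) (Real.sqrt_le_iff.2 ⟨m5.le, q4⟩)).2
  obtain ⟨X, hX⟩ : ∃ X, X = |p| + r + 2 := ⟨_, rfl⟩
  refine ⟨max (max N 10) (64 * Real.log 4 / k), X, fun R hR A' hA => ?_⟩
  obtain ⟨⟨hN, h10⟩, hR⟩ : (N ≤ R ∧ 10 ≤ R) ∧ 64 * Real.log 4 / k ≤ R := by simpa using hR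
  have A0' : 0 < A' := (Real.exp_pos _).trans_le hA
  have wR := hW.pos R
  have r0 := h0.1
  have p0 := abs_nonneg p
  have p1 := le_abs_self p
  obtain ⟨n, hn⟩ := exists_nat_ge (|p| + r + |R| + 1)
  obtain ⟨Z, hZ⟩ := (isCompact_Icc (a := -X) (b := R + 2)).bddAbove_image (f := fun y => 1 / a y)
    (continuous_const.div ha.continuous fun y => (hW.pos y).ne').continuousOn
  obtain ⟨ν1, n1, j1⟩ := small (B := 1 / (A' / 8) ^ 2 *
    (C0 * μ ^ 2 * ((256 * c1 * 16) ^ 2 * Z * (R + 2 - -X)))) (ζ := w / 24) (by positivity)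
  obtain ⟨ν2, n2, j2⟩ := small (B := 2 ^ 9 * c1) (mul_pos e0 (Wz_pos s (X + R + 3)))
  have n0 : 0 < min ν1 ν2 := lt_min n1 n2
  refine ⟨min ν1 ν2, n0, fun K1 f1 u1 W1 K2 f2 u2 W2 S1 S2 F1 F2 H k0 k0' => ?_⟩
  have hI : DI2 k a δ δ cb K1 f1 (C0 * μ ^ 2) := fun w0 w0' W W' g g' =>
    hD ρ δ1 ε1 12 C _ _ δ δ cb w0 w0' W W' μ S1.bg hδ.1.le g g' (by linarith) l0
  have dB := dif_B S1 S2 hs e0.le d1 hc h10 hw (by linarith) n0.le
    ((le_of_eq (by ring)).trans (j2 _ n0.le (min_le_right _ _)).2) H.lo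
  rw [← hc'] at dB
  have sol := fun (x : ℝ) (hx : -X < x) => hS _ _ S1.bg _
    (dat_mono (dat_cut S1.dat w0 hx M0 (mul_nonneg c0' e0.le) (hM b x _) dB) e2)
  obtain ⟨V1, G1⟩ := sol (R - 19 / 8 * w) (by linarith)
  obtain ⟨V2, G2⟩ := sol (1 - X) (by linarith)
  have su := S1.ini.smooth
  have su' := S2.ini.smooth
  have hc4 : ∀ z : X3, ‖z.2‖ ≤ 4 → P354J.Bd 4 P354I.cy z c1 := fun z hz =>
    (hc z hz).mono (by norm_num) le_rfl
  have cmpw : ∀ x y, |y - x| ≤ 8 → a y ≤ a x * E := fun x y h =>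
    (P354X.wt_le hW x y).trans (mul_le_mul_of_nonneg_left
      (hE ▸ Real.exp_le_exp.2 (by nlinarith)) (hW.pos x).le)
  have ab : ∀ x y z : ℝ, |ct w x y z| ≤ 1 := fun x y z => by
    rw [abs_of_nonneg ct_mem.1]
    exact ct_mem.2
  obtain ⟨T1, k6, k7⟩ := near2 P354E2.glue2 (x1 := R - 3) (a1 := a R * E) (Z := E / a R)
    (M := 16 * (Λ * A')) (l := A' / 8) hI S1.bg.smooth.1 hδ.1 d1 hc4 F1 G1 su (itp_sm ct_sm su su')
    b n hn (h0.2.1.trans hN) h0.2.2 (by linarith) (by positivity)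
    (fun z hz => Or.inr (funext fun i => by
      rw [itp, ct_zero w0 (Or.inl (by linarith)), zero_mul, add_zero]))
    (fun i z _ h2 => by
      simp only [itp, add_sub_cancel_left]
      refine ba_cut ct_sm (ab _ _) ((su' i).sub (su i)) (by positivity) b ?_
      by_cases hz : sgn b * z.1 ∈ Ioo (R - 5 / 2 * w) (R + 3 / 2 * w)
      · exact Or.inr (H.wi z hz h2 i)
      · exact Or.inl (ct_zero w0 ((not_and_or.1 hz).imp (fun j => by linarith [not_lt.1 j])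
          fun j => by linarith [not_lt.1 j])))
    (fun y hy => by
      rw [div_le_div_iff₀ (hW.pos y) wR, one_mul, mul_comm]
      exact cmpw y R (abs_le.2 ⟨by linarith [hy.2], by linarith [hy.1]⟩))
    (fun y hy => cmpw R y (abs_le.2 ⟨by linarith [hy.1], by linarith [hy.2]⟩)) (by positivity)
    (by positivity)
  obtain ⟨T2, k8, k9⟩ := near2 P354E2.glue2 (x1 := -X) (a1 := 1) (M := 16 * min ν1 ν2)
    (l := A' / 8) hI S1.bg.smooth.1 hδ.1 d1 hc4 G1 G2 (itp_sm ct_sm su su') (itp_sm ct_sm su su')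
    b n hn (h0.2.1.trans hN) h0.2.2 (by linarith) (by positivity)
    (fun z hz => Or.inr (funext fun i => by
      rw [itp, itp, ct_zero w0 (Or.inl (by linarith)), ct_zero w0 (Or.inl (by linarith))]))
    (fun i z _ h2 => by
      simp only [itp, add_sub_add_left_eq_sub, ← sub_mul]
      refine ba_cut (φ := fun x => ct w (1 - X) (R + 11 / 8 * w) x -
        ct w (R - 19 / 8 * w) (R + 11 / 8 * w) x) (ct_sm.sub ct_sm) (fun x => abs_le.2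
          ⟨by linarith [ct_mem (w := w) (a := 1 - X) (a' := R + 11 / 8 * w) (x := x),
            ct_mem (w := w) (a := R - 19 / 8 * w) (a' := R + 11 / 8 * w) (x := x)],
          by linarith [ct_mem (w := w) (a := 1 - X) (a' := R + 11 / 8 * w) (x := x),
            ct_mem (w := w) (a := R - 19 / 8 * w) (a' := R + 11 / 8 * w) (x := x)]⟩)
        ((su' i).sub (su i)) n0.le b ?_
      by_cases hz : sgn b * z.1 ∈ Ioo (-X) (R - 2 * w)
      · exact Or.inr (B_ba (H.lo z hz h2 i) (by norm_num))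
      · refine Or.inl (sub_eq_zero.2 ?_)
        rcases not_and_or.1 hz with j | j
        · rw [ct_zero w0 (Or.inl (by linarith [not_lt.1 j])),
            ct_zero w0 (Or.inl (by linarith [not_lt.1 j]))]
        · exact ct_eq w0 (by linarith [not_lt.1 j]) (by linarith [not_lt.1 j]))
    (fun y hy => hZ ⟨y, hy, rfl⟩) (fun y _ => hW.le y) zero_le_one (by positivity)
  obtain ⟨a1, a2, a3⟩ := fam_sol S2.bg F2 hδ.1 hδ1
  obtain ⟨b1, b2, b3⟩ := fam_sol S1.bg G2 hδ.1 hδ1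
  have ch := hF ρ ⟨hρ.1, q3⟩ δ ⟨hδ.1, q2⟩ δ ⟨hδ.1, q2⟩ _ _ _ _ _ _ _ hδ1 S2.bg S2.ini F2
  have η0 := bs_nonneg S2.bg 5
  have tr := fun T => (P354P.trav_fwd hk hW hδ.1.le η0 (U := K2 + glue W2) (fun p hp i hi => by
    have := ch.Y p hp i [] (Nat.zero_le _)
    simp only [List.mem_cons, List.not_mem_nil, or_false] at hi
    rcases hi with rfl | rfl | rfl | rfl | rfl | rfl <;>
      exact (congrArg _ (sub_zero _)).symm.trans_le this) T).mono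
    (h4 δ ⟨hδ.1.le, by linarith⟩ _ ⟨η0, by
      linarith [mul_le_mul_of_nonneg_right (le_abs_self (C 5)) (Real.sqrt_nonneg ρ)]⟩)
  have ss : sgn b * sgn b = 1 := by cases b <;> simp [sgn]
  refine two_w (S := T1 ∪ T2) (A := A' / 2) w0 r0 (by positivity) H.lw
    (fun _ h => ⟨h.1.1, by linarith [h.1.2]⟩) ((measure_union_le _ _).trans ((add_le_add
      (k6.trans (ENNReal.ofReal_le_ofReal ((le_of_eq ?_).trans (h2 μ μ0'.le l2).1)))
      (k8.trans (ENNReal.ofReal_le_ofReal ((le_of_eq (by ring)).trans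
        (j1 _ n0.le (min_le_left _ _)).1)))).trans_eq ?_)) ?_ (fun x hx => ?_) (k0 R hN) (k0' R hN)
  · field_simp
    ring
  · rw [← ENNReal.ofReal_add (by positivity) (by positivity)]
    congr 1
    ring
  · have j2 : Real.log 4 ≤ k / 64 * R := by
      have := (div_le_iff₀ hk).1 hR
      linarith
    have k3 : Real.exp (-(k / 32 * R) + Real.log 4) ≤ Real.exp (-(k / 64) * R) :=
      Real.exp_le_exp.2 (by linarith)
    rw [Real.exp_add, Real.exp_log (by norm_num)] at k3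
    linarith
  · obtain ⟨x1, ⟨⟨⟨x2, x3⟩, x4⟩, x5⟩, x6⟩ := hx
    have y1 := abs_lt.1 x1
    have y2 := h0.2.1
    have g1 := abs_lt.1 (k7 x ⟨x1, ⟨⟨x2, by linarith⟩, fun j => x5 (Or.inl j)⟩, x6⟩)
    have g2 := abs_lt.1 (k9 x ⟨x1, ⟨⟨x2, by linarith⟩, fun j => x5 (Or.inr j)⟩, x6⟩)
    have g3 := x4 _ (h0.2.2 _ x6)
    have g4 : ph K2 b W2 x = ph K1 b V2 x := congrFun (loc_uni (N1 := R + 9 / 8 * w) (N2 := X - 2) b
      a1 b1 (fun q j1 j2 => ⟨a2 q j1 j2, b2 q j1 j2⟩) (fun z j1 j2 j3 => by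
        rw [a3 z j1, b3 z j1]
        funext i
        rw [itp, ct_one w0 (by linarith) (by linarith), one_mul, add_sub_cancel])
      hδ.1 (q := pt b x) (by simp only [pt]; linarith) (tr _) (h0.2.2 _ x6)
      (by simp only [pt, ← mul_assoc, ss]; linarith)
      (by simp only [pt, ← mul_assoc, ss]; linarith)) _
    simp only [itp, ← mul_assoc, ss, one_mul] at g1 g2
    rw [ct_one w0 (by linarith) (by linarith)] at g1 g2
    rw [ct_one w0 (by linarith) (by linarith)] at g2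
    rw [g4]
    rcases le_abs.1 g3 with j | j
    · exact lt_abs.2 (Or.inl (by linarith [g1.1, g2.1]))
    · exact lt_abs.2 (Or.inr (by linarith [g1.2, g2.2]))

end Vale.Agent.P354YV
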