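import Vale.Agent.P354YV.IgMain
import Vale.Agent.P354YM.Props

/-!
INT: the interior half of the game for data.
-/

open scoped ContDiff
open Set Filter Topology

noncomputable section

namespace Vale.Agent.P354YV

open Vale.Agent.P354H (X3 e pd pd_sm)
open Vale.Agent.P354I (X Dat Geo Con r2)
open Vale.Agent.P354J (Ud PDy Bd M3 Phi pb sl1)
open Vale.Agent.P354JK (phi_smooth norm_phi pb_apply)
open Vale.Agent.P354JP (bd_comp bd_phi bd_clm bd_sum bd_mul phi_ne)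
open Vale.Agent.P354D (sgn)
open Vale.Agent.P354DG (abs_sgn)
open Vale.Agent.P354XU (Jt)
open Vale.Agent.P354YM (INT Nr Rg DJ sd lg)
open Vale.Agent.P354EN (B B_of_zero)

/-- The pull back at a point is bounded by the jets. -/
theorem pb_jt (m : ℕ) (R Y : ℝ) : ∃ C, 0 ≤ C ∧ ∀ (F : X → M3) (ζ : ℝ) σ (z : X3),
    (∀ i j, ContDiffOn ℝ ∞ (fun y => F y i j) {0}ᶜ) → ‖z.2‖ ≤ R → |z.1| ≤ Y →
    (∀ i j, Jt m (fun y => F y i j) (Phi σ z) ζ) → ∀ a b, Bd m (fun w => pb σ F w a b) z (C * ζ) := by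
  obtain ⟨C, h0, hC⟩ := bd_comp R m
  obtain ⟨D, hD0, hD⟩ := bd_phi (m + 1) R
  obtain ⟨E, hE⟩ : ∃ E, E = Real.exp |Y| := ⟨_, rfl⟩
  have E1 : 1 ≤ E := hE ▸ Real.one_le_exp (abs_nonneg _)
  refine ⟨9 * (2 ^ m * (2 ^ m * (D * E) * (C * E ^ m)) * (D * E)), by positivity,
    fun F ζ σ z hF hz hY h a b => ?_⟩
  have he := Real.exp_pos z.1
  have he' : Real.exp z.1 ≤ E :=
    hE ▸ Real.exp_le_exp.2 ((le_abs_self _).trans (hY.trans (le_abs_self _)))
  have sJ : ∀ a k, ContDiff ℝ ∞ fun w => pd a (Phi σ) w k := fun a k =>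
    (EuclideanSpace.proj k : X →L[ℝ] ℝ).contDiff.comp (pd_sm a (phi_smooth σ))
  have bJ : ∀ a k, Bd m (fun w => pd a (Phi σ) w k) z (D * E) := fun a k =>
    (bd_clm (EuclideanSpace.proj k : X →L[ℝ] ℝ) (fun v => PiLp.norm_apply_le v k)
      (pd_sm a (phi_smooth σ)) ((hD σ z hz).pd a)).mono le_rfl (mul_le_mul_of_nonneg_left he' hD0)
  have sF : ∀ k l, ContDiff ℝ ∞ fun w => F (Phi σ w) k l := fun k l =>
    (hF k l).comp_contDiff (phi_smooth σ) (phi_ne σ)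
  have bF : ∀ k l, Bd m (fun w => F (Phi σ w) k l) z (C * (E ^ m * ζ)) :=
    fun k l => hC ℝ _ (hF k l) σ z _ hz fun j hj => mul_le_mul ((pow_le_pow_left₀ he.le he' j).trans
      (pow_le_pow_right₀ E1 hj)) (h k l j hj) (norm_nonneg _) (by positivity)
  have e1 : (fun w => pb σ F w a b) = fun w => ∑ p : Fin 3 × Fin 3,
      pd a (Phi σ) w p.2 * F (Phi σ w) p.2 p.1 * pd b (Phi σ) w p.1 := by
    funext w
    rw [pb_apply, Fintype.sum_prod_type]
    simp only [Finset.sum_mul]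
    rfl
  rw [e1]
  refine (bd_sum (Finset.univ : Finset (Fin 3 × Fin 3))
    (fun p => ((sJ a p.2).mul (sF p.2 p.1)).mul (sJ b p.1)) fun p =>
    bd_mul ((sJ _ _).mul (sF _ _)) (sJ _ _) (bd_mul (sJ _ _) (sF _ _) (bJ _ _) (bF _ _))
      (bJ _ _)).mono le_rfl (le_of_eq ?_)
  simp only [Finset.card_univ, Fintype.card_prod, Fintype.card_fin]
  push_cast
  ring

theorem int : INT := by
  intro j s Λ hj hs w hw
  have h := hj.hK
  have w0 := hw.1
  have hX := P354M2.mixThm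
  obtain ⟨T, t0, H⟩ := core (Λ := |Λ| + 1) h hs (by positivity) ⟨w0, by linarith [hw.2]⟩
  obtain ⟨η1, e1, ε, e2, σ, b, NS, H1, H2⟩ := H T le_rfl
  obtain ⟨c, hc, B0, hG⟩ := h.geo T 11
  obtain ⟨B', hB'⟩ := hX.2.1 11 B0
  obtain ⟨η2, e3, h1⟩ := hX.2.2.1 c B' 11 hc
  obtain ⟨L, L0, hL⟩ := P354N2.lipc (B' + 1) 4 9 (half_pos hc)
  have geo : ∀ p ∈ Metric.ball j.p0 ε, ∀ q ∈ Metric.ball j.p0 ε, ∀ d,
      Nr (j.t T) s (min η1 η2) p q d → Geo (c / 2) (B' + 1) 11 d := fun p hp q hq d hd =>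
    h1 s _ d (by linarith) (hB' c _ _ (hG p (Metric.ball_subset_ball e2.2 hp) T ⟨t0, le_rfl⟩)
      (hG q (Metric.ball_subset_ball e2.2 hq) T ⟨t0, le_rfl⟩)) hd.1
      (hd.2.le.trans (ENNReal.ofReal_le_ofReal (min_le_right _ _)))
  refine ⟨T, t0, min η1 η2, lt_min e1 e3, ε, e2.1, NS, fun i => (σ i, b i),
    fun p hp q hq d hd hd' => H1 d ⟨hd.1, hd', p, hp, q, hq,
      hd.2.trans_le (ENNReal.ofReal_le_ofReal (min_le_left _ _))⟩, fun i => ?_⟩
  obtain ⟨R0, X, H2⟩ := H2 i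
  refine ⟨max R0 (5 / 2 * w - X), fun R hR => ⟨X, fun A hA p hp q hq d1 d2 n1 n2 hK => ?_⟩⟩
  obtain ⟨ν, n0, H2⟩ := H2 R ((le_max_left _ _).trans hR) A hA
  have A0 : 0 < A := (Real.exp_pos _).trans_le hA
  have X1 := (le_max_right _ _).trans hR
  have l1 := min_le_left (ν / 3) (A / 8)
  have l2 := min_le_right (ν / 3) (A / 8)
  have l0 : 0 < min (ν / 3) (A / 8) := by positivity
  obtain ⟨C1, c1, hC⟩ := pb_jt 11 4 (|X| + |R + 2 * w|)
  obtain ⟨ζ, z0, hζ⟩ := P354DG.small (B := L * C1) l0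
  have cl : ∀ d d0, Geo (c / 2) (B' + 1) 11 d → Geo (c / 2) (B' + 1) 11 d0 →
      (∀ y ∈ Rg (sd (b i) (R + 2 * w) X), DJ 11 d d0 y ζ) → ∀ z : X3,
      sgn (b i) * z.1 ∈ Ioo (-X) (R + 2 * w) → r2 z ≤ 16 → ∀ n,
      B e 1 9 (fun y => Ud d (σ i) y n - Ud d0 (σ i) y n) z (min (ν / 3) (A / 8)) :=
    fun d d0 G G0 k z hz hr n => by
      have m : Phi (σ i) z ∈ Rg (sd (b i) (R + 2 * w) X) := ⟨phi_ne _ _, fun τ => by
        rw [lg, norm_phi, Real.log_exp, sd]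
        split_ifs with c
        · exact c ▸ hz.2
        · have := hz.1
          generalize b i = b at c this
          cases b <;> cases τ <;> simp [sgn] at c this ⊢ <;> linarith⟩
      have y1 : |z.1| ≤ |X| + |R + 2 * w| := by
        rw [← abs_sgn (b i)]
        exact abs_le.2 ⟨by linarith [hz.1, le_abs_self X, abs_nonneg (R + 2 * w)],
          by linarith [hz.2, le_abs_self (R + 2 * w), abs_nonneg X]⟩
      have y2 := P354IN.norm_le hr
      have t := hL (C1 * ζ) d d0 G G0 (σ i) z y2 (fun a c => by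
        have k1 := hC (fun y => d.h y - d0.h y) ζ (σ i) z
          (fun a c => (G.1.1 a c).1.sub (G0.1.1 a c).1) y2 y1 (fun a c => (k _ m a c).1) a c
        have k2 := hC (fun y => d.K y - d0.K y) ζ (σ i) z
          (fun a c => (G.1.1 a c).2.sub (G0.1.1 a c).2) y2 y1 (fun a c => (k _ m a c).2) a c
        simp only [P354J.pb_sub] at k1 k2
        exact ⟨k1, k2⟩) n
      exact B_bd.2 ⟨(t.sf.sub t.sg).contDiffAt, t.bd.mono le_rfl
        ((le_of_eq (by ring)).trans (hζ ζ z0.le le_rfl).2)⟩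
  refine ⟨ζ, z0, ?_⟩
  by_cases c1 : ∀ p' ∈ Metric.ball j.p0 ε, ∀ q' ∈ Metric.ball j.p0 ε, ∀ d,
    Nr (j.t T) s (min η1 η2) p' q' d → (∀ y ∈ Rg (sd (b i) (R + 2 * w) X), DJ 11 d d1 y ζ) → NS i d
  · exact ⟨d1, Or.inl rfl, c1⟩
  simp only [not_forall] at c1
  obtain ⟨p1, a1, q1, a2, x1, a3, a4, a5⟩ := c1
  refine ⟨d2, Or.inr rfl, fun p2 b1 q2 b2 x2 b3 b4 => (H2 x1 x2 ?_).resolve_left a5⟩
  have ct : Continuous fun y : X3 => sgn (b i) * y.1 := by fun_prop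
  have K := kk_of (b := b i) (Λ := |Λ|) (R := R) (w := w) (A := A) (X := X)
    (I := Ioo (-X) (R + 2 * w)) (ν := min (ν / 3) (A / 8)) (by linarith)
    (Ioo_subset_Ioo_right (by linarith)) w0 (by linarith)
    (cl x1 d1 (geo _ a1 _ a2 _ a3) (geo _ hp _ hq _ n1) a4)
    (cl x2 d2 (geo _ b1 _ b2 _ b3) (geo _ hp _ hq _ n2) b4)
    (sl1 _ _ (a3.1.toPD _)).1 (sl1 _ _ (b3.1.toPD _)).1
    (fun z hz _ n => B_of_zero zero_le_one l0.le ((ct.continuousAt.eventually_lt_const hz.2).mono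
      fun y hy => by simp only [hK.zero y hy.le, sub_self]))
    (fun z hz hr n α h1 h2 => (hK.bound n α h1 h2 z (by linarith [hz.2]) hr).trans
      (mul_le_mul_of_nonneg_right (le_abs_self Λ) A0.le)) hK.low
  exact ⟨fun z hz hr n => (K.lo z hz hr n).mono zero_le_one le_rfl (by linarith), K.wi, K.lw⟩

end Vale.Agent.P354YV
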