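import Vale.Agent.P354YV.KcD
import Vale.Agent.P354YR.Vac
import Vale.Agent.P354M2.Mix

/-!
The kick: the choice of the constants.
-/

open scoped ContDiff
open Set Filter Topology

noncomputable section

namespace Vale.Agent.P354YV

open Vale.Agent.P354n (R4)
open Vale.Agent.P354H (X3)
open Vale.Agent.P354C (Ix met detP)
open Vale.Agent.P354I (X Dat rm)
open Vale.Agent.P354GT (Fu)
open Vale.Agent.P354PU (JG pg)
open Vale.Agent.P354XE (pt Lor ch En D0 kr rd)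
open Vale.Agent.P354XU (IndAt)
open Vale.Agent.P354XB (Win)
open Vale.Agent.P354XP (Cht)
open Vale.Agent.P354YX (pT)
open Vale.Agent.P354EN (Dm)
open Vale.Agent.P354YM
open Vale.Agent.P354KX

/-- A small exponential beats all powers of a slowly growing one. -/
theorem kc_small {κ η : ℝ} (hκ : 0 < κ) (hη : 0 < η) (N : ℕ) : ∃ κ' > 0, ∃ R1, ∀ R ≥ R1, ∀ G,
    1 ≤ G → G ≤ Real.exp (κ' * R) → ∀ n ≤ N, Real.exp (-κ * R) * G ^ n ≤ η := by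
  refine ⟨κ / (2 * (N + 1)), by positivity, max 0 (-2 * Real.log η / κ),
    fun R hR G h1 h2 n hn => ?_⟩
  have R1 : -2 * Real.log η ≤ R * κ := (div_le_iff₀ hκ).1 ((le_max_right _ _).trans hR)
  have e : ((N + 1 : ℕ) : ℝ) * (κ / (2 * (N + 1)) * R) = κ * R / 2 := by
    push_cast
    field_simp
  have a : G ^ n ≤ Real.exp (κ * R / 2) :=
    ((pow_le_pow_right₀ h1 (hn.trans N.le_succ)).trans
      (pow_le_pow_left₀ (zero_le_one.trans h1) h2 _)).trans_eq (by rw [← Real.exp_nat_mul, e])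
  refine (mul_le_mul_of_nonneg_left a (Real.exp_pos _).le).trans ?_
  rw [← Real.exp_add, ← Real.exp_log hη]
  exact Real.exp_le_exp.2 (by linarith)

section
variable {g : P354XE.Tw} {D : Set R4} {Xf Ψ Ps : R4 → R4} {J : X → R4} {b σ : Bool}
  {T δ δ' R w G ρ c M a r1 r2 θ : ℝ} {U : R4 → Ix → ℝ} {j : X3 → X} {z : X3} {d : Dat} {n m : ℕ}

theorem kc_sub (hw : 0 < w) (h : δ' ≤ δ) : P354KX.Bk T δ' R w ⊆ Dm T δ R w := fun _ k =>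
  ⟨⟨by linarith [k.1.1], by linarith [k.1.2]⟩, ⟨by linarith [k.2.1.1], by linarith [k.2.1.2]⟩,
    by linarith [k.2.2]⟩

theorem kc_sub' (h : δ' ≤ δ) : P354KX.Bk T δ' R w ⊆ P354KX.Bk T δ R w := fun _ k =>
  ⟨⟨by linarith [k.1.1], by linarith [k.1.2]⟩, k.2⟩

theorem kc_top (hT : 0 < T) (hδ : 0 < δ) (hz : z ∈ P354YX.Tw R w) :
    pT T z ∈ P354KX.Bk T δ R w :=
  ⟨⟨show -δ < T by linarith, show T < T + δ by linarith⟩,
    ⟨show _ < T + (z.1 - T) by linarith [hz.1.1], show T + (z.1 - T) < _ by linarith [hz.1.2]⟩,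
    hz.2⟩

theorem kc_win (hw : 0 < w) (hz : z ∈ P354YX.Tw R w) : z ∈ Win R w 6 :=
  ⟨⟨by linarith [hz.1.1], by linarith [hz.1.2]⟩, by linarith [hz.2]⟩

theorem kc_bot (hz : (0, z) ∈ P354KX.Bk T δ R w) : z ∈ P354YX.Tw R w :=
  ⟨⟨by simpa using hz.2.1.1, by simpa using hz.2.1.2⟩, hz.2.2⟩

/-- The data on the bottom and on the top of a slab. -/
theorem kc_ind0 (iy : INDY) (l : Lor g D Xf) (s : Sb g D Xf J b σ T δ R w U Ψ j)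
    (hz : z ∈ Win R w 6) (h1 : ContDiffAt ℝ ∞ j z) (h2 : (JG j z).det ≠ 0)
    (h : IndAt g Xf (pt 0) d (j z)) : P354J.Ind (U (0, z)) (pg j d.h z) (pg j d.K z) := by
  have k : ((0, z.1 - 0, z.2) : R4) ∈ Dm T δ R w :=
    ⟨⟨by simpa using s.pos.2.1, by simpa using add_pos s.pos.1 s.pos.2.1⟩, by simpa using hz.1,
      hz.2⟩
  simpa only [sub_zero] using (iy Ψ U _ D g Xf (pt 0) d j z 0 0 l s.pull s.fu k (s.fut _ k) h1 h2
    ((win_open R w 6).eventually_mem hz |>.mono fun x hx => by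
      simpa only [sub_zero] using s.bot x hx)).1 h

theorem kc_indT (iy : INDY) (l : Lor g D Xf) (s : Sb g D Xf J b σ T δ R w U Ψ j)
    (hz : z ∈ P354YX.Tw R w) (h : P354XE.Ind g Xf J d) :
    P354J.Ind (U (pT T z)) (pg (lb b σ) d.h z) (pg (lb b σ) d.K z) :=
  have k := kc_sub s.pos.2.2 le_rfl (kc_top s.pos.1 s.pos.2.1 hz)
  (iy Ψ U _ D g Xf J d (lb b σ) z T T l s.pull s.fu k (s.fut _ k) (lb_sm b σ).contDiffAt
    (lb_det b σ z) ((win_open R w 6).eventually_mem (kc_win s.pos.2.2 hz) |>.mono s.top)).1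
    (h _ (lb_ne b σ z))

theorem kc_j (hx : MX) (h : |a| < M) (k : Cht n R w G ρ c σ j) (hG : 0 < G) (hρ : 0 < ρ)
    (hz : z ∈ Win R w 6) : ContDiffAt ℝ ∞ (mx M a b ∘ j) z ∧ (JG (mx M a b ∘ j) z).det ≠ 0 ∧
      (mx M a b ∘ j) z ≠ 0 := by
  obtain ⟨h1, h2, h3⟩ := hx M a b h
  have e : j z ≠ 0 := norm_pos_iff.1 (hρ.trans_le (k.loc z hz).1)
  have s := k.sm.contDiffAt ((win_open R w 6).mem_nhds hz)
  exact ⟨(h1.contDiffAt (isOpen_compl_singleton.mem_nhds e)).comp z s,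
    h3 j z (s.differentiableAt (by simp)) e (abs_pos.1 ((inv_pos.2 hG).trans_le (k.bd z hz).1)),
    (h2 _ e).1⟩

theorem kc_sq (h : Sq M a r1 r2 θ b n T δ R w G Ψ Ps) (hm : m ≤ n) :
    Sq M a r1 r2 θ b m T δ R w G Ψ Ps :=
  ⟨h.eq, fun p hp h0 => let ⟨h1, h2, h3, h4⟩ := h.pt p hp h0
    ⟨h1, h2, h3, fun k => ⟨fun i hi => (h4 k).1 i (hi.trans hm), (h4 k).2⟩⟩⟩

theorem kc_loc (hM : |a| < M) (h : Sq M a r1 r2 θ b n T δ R w G Ψ Ps) {p : R4}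
    (hp : p ∈ Dm T δ R w) (h0 : 0 ≤ p.1) : Ψ p ∈ D0 M a r1 ∧ r2 ≤ kr M a (Ψ p) := by
  obtain ⟨e, r, -⟩ := h.eq p hp
  obtain ⟨h1, h2, -⟩ := h.pt p hp h0
  have i := P354YR.isCh hM b
  have k := i.rad _ r
  rw [e]
  exact ⟨⟨(i.maps r).1.1, by cases b <;> exact h1.2.2, k.symm ▸ h1.1⟩, k.symm ▸ h2.le⟩

theorem kc_pow (A G : ℝ) (a b n : ℕ) : A * G ^ a * (G ^ b * G) ^ n = A * G ^ (a + (b + 1) * n) := by
  rw [← pow_succ, ← pow_mul, mul_assoc, ← pow_add]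

end

/-- The kick from its pieces. -/
theorem kck_of (s1 : S1) (tr : TRKB) (hx : MX) (sj : SJ) (clf : CLF) (kd : KD2) (iy : INDY)
    (slc : SLC) (ln : LENS) (hs : HS) (kb : KB) : KCK := by
  obtain ⟨Λ, tr⟩ := tr
  refine ⟨Λ, fun j0 s δ k0 h0 a0 aM hs1 hδ => ?_⟩
  obtain ⟨β, c, c1, w1, w2, s1⟩ := s1 j0 s δ h0 a0 aM hs1 hδ
  obtain ⟨kS, NS, sj⟩ := sj k0
  obtain ⟨kD, ND, kd⟩ := kd s
  obtain ⟨nC, clf⟩ := clf k0
  obtain ⟨w0, w3, tr⟩ := tr β (kS + kD)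
  refine ⟨min w0 w1, lt_min w3 w2, fun w hw t t0 j hj r1 r0 r2 B rad κ κ0 η η0 => ?_⟩
  obtain ⟨nT, tr⟩ := tr w ⟨hw.1, hw.2.trans (min_le_left _ _)⟩
  obtain ⟨RD, kd⟩ := kd w hw.1
  obtain ⟨bb, cP, c2, s1⟩ := s1 w ⟨hw.1, hw.2.trans (min_le_right _ _)⟩ (nT + nC + kS + kD) t t0 j
    hj r1 r0 r2 B rad
  obtain ⟨c0, c3, tr⟩ := tr bb cP c2 c c1
  have hJ : j.Is := hj ▸ ⟨h0.hG, h0.hH, h0.hK, t0⟩
  obtain ⟨NC, clf⟩ := clf j.M j.a r1 r0 r2 s δ B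
  obtain ⟨x1, slc⟩ := slc j r1 r0 r2 s δ hJ B rad
  refine ⟨x1, fun x0 hx0 => ?_⟩
  obtain ⟨e, e0, slc⟩ := slc x0 hx0
  refine ⟨e, e0, (((((s1 (c0 / 4) (by positivity)).and clf).and slc).and
    (ln _ _ r1 r0 r2 s δ B)).and (evt_basic one_pos hJ.hK.pos.2.1 0 0)).mono ?_⟩
  rintro θ R' ε N ⟨⟨⟨⟨s1, RC, clf⟩, slc⟩, ln⟩, hθ, -, -, hε⟩ d T J d1 Z hT ad ex k1 i1 nr A cA mA
    vA m η1 η2 σ b
  obtain ⟨NT, ρ0, tr⟩ := tr j.M j.a B.lt d m b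
  obtain ⟨κ', κ1, R2, sm⟩ := kc_small κ0 (η := min 1 (min (η1 / 2) (η / 2))) (by positivity)
    (NT + (NT + 1) * (NT + NS + ND) + NC)
  choose R1 s1 using fun s => s1 d.1 T J Z d.2.1 hT ex b s κ' κ1 (max ρ0 1)
  refine ⟨max (max (max (R1 true) (R1 false)) (max R2 RC)) (max RD (Z b + 3 * w)),
    fun R hR x2 => ?_⟩
  simp only [ge_iff_le, max_le_iff] at hR
  obtain ⟨⟨⟨u1, u2⟩, u3, u4⟩, u5, u6⟩ := hR
  choose T' δ' G ν ρ γ π U jj Ps gro slab hρ ρG RG Gκ cht mn tp sb sq using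
    fun s => s1 s R (by cases s; exacts [u2, u1])
  have G1 : ∀ s, 1 ≤ G s := fun s => one_le_two.trans (gro s).hG
  have G0 : ∀ s, 0 < G s := fun s => one_pos.trans_le (G1 s)
  have ρ1 : ∀ s, 0 < ρ s := fun s => one_pos.trans_le ((le_max_right _ _).trans (hρ s))
  have hr : r1 < P354I.rp j.M j.a := B.r1.2.1.trans (B.r1.2.2.1.trans B.r1.2.2.2)
  obtain ⟨f, f1, f2, f3, h1, h2⟩ := hs _ d.1 T J b _ R w c c0 T' δ' G ρ U _ jj B.lt hr hθ.1 hT c3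
    fun s => ⟨sb s, G0 s, ρ1 s, cht s, mn s⟩
  have jz := fun z hz => kc_j (b := b) (z := z) hx B.lt (cht σ) (G0 σ) (ρ1 σ) hz
  have sm := sm R u3 (G σ) (G1 σ) (Gκ σ)
  simp only [le_min_iff] at sm
  obtain ⟨T0, δ0, -⟩ := (sb σ).pos
  have l1 : 1 ≤ G σ ^ NT := one_le_pow₀ (G1 σ)
  have b1 := sm (0 + (NT + 1) * NT) (by nlinarith)
  have b2 := sm (NT + (NT + 1) * NS) (by nlinarith)
  have b3 := sm (NT + (NT + 1) * NS + NC) (by nlinarith)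
  have b4 := sm (NT + (NT + 1) * ND) (by nlinarith)
  rw [pow_add, ← mul_assoc] at b3
  rw [← kc_pow] at b1 b2 b3 b4
  rw [pow_zero, mul_one] at b1
  obtain ⟨d', q1, out, δ1, d1', U', fu, hU, kick⟩ := tr σ (T' σ) (δ' σ) R (G σ) (ν σ) (ρ σ)
    (Real.exp (-κ * R)) (G σ ^ NT) (γ σ) (π σ) (U σ) (jj σ) T0 δ0 (gro σ)
    (slab_mono (slab σ) (by omega) (G0 σ) le_rfl) ((le_max_left _ _).trans (hρ σ)) (ρG σ)
    (cht_mono (cht σ) (by omega) (G0 σ) le_rfl) (fun z hz => ⟨kc_ind0 iy hT.lor (sb σ) hz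
      (jz z hz).1 (jz z hz).2.1 (hT.ind _ (jz z hz).2.2), h1 σ z hz⟩) (tp σ) le_rfl
    (Real.exp_pos _) b1.1
  have sub := kc_sub (T := T' σ) (R := R) hw.1 d1'.2
  have fU := (sb σ).fu.mono sub
  have bd : ∀ p ∈ P354KX.Bk (T' σ) δ1 R w, 0 ≤ p.1 → ∀ k, k ≤ kS + kD →
      (G σ)⁻¹ ≤ U σ p .O ∧ (G σ)⁻¹ ≤ detP (U σ p) ∧ ∀ i, P354A.Pb k (P354A.cmp (U σ) i) p (G σ) ∧
        P354XB.Pa (G σ ^ NT) k (P354A.cmp (U' - U σ) i) p (Real.exp (-κ * R) * G σ ^ NT) :=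
    fun p hp p0 k hk => let ⟨v1, v2, _, _, _, v3⟩ := (slab σ).bd p (sub hp)
      ⟨v1, v2, fun i => ⟨pb_mono (v3 i).1 (by omega) le_rfl,
        pa_mono ((hU p hp).2.2.2 p0 i) (zero_le_one.trans l1) hk le_rfl⟩⟩
  obtain ⟨d2, p2, q2, kk, top, o2⟩ := kd b σ Λ (T' σ) δ1 R (G σ) _ _ _ (U σ) U' d1 u5 (RG σ) l1 T0
    d1'.1 nr.1 k1 fU fu (fun p hp => ⟨(hU p hp).1, (hU p hp).2.1⟩) (fun z hz =>
      ⟨kc_indT iy hT.lor (sb σ) hz i1, (tp σ z hz).2.1,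
        bd _ (kc_top T0 d1'.1 hz) T0.le kD (by omega)⟩) b4.1 kick
  obtain ⟨r3, ρ', sl⟩ := slc d.1 T J hT ad
  obtain ⟨W, g, Xf, τ, V, o1, o3, o4, o5, o6⟩ := kb _ r0 r2 r3 k0 T J d.1 d'.1 d1 d2 b σ R w T' δ' U
    _ (fun s => mx j.M j.a b ∘ jj s) δ1 U' f ρ' Z A x2 B.ne B.lt hr hθ.1 hT sl i1
    (ln d.1 T d.2.1 hT) cA mA vA (by linarith)
    { sb := sb
      loc := fun s p hp p0 => kc_loc B.lt (sq s) hp p0
      f1 := f1
      f2 := f2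
      f3 := f3
      dl := d1'
      fu := fu
      eq := fun p hp => (hU p hp).2.1
      pd := d'.2.1
      bot := fun z hz => ⟨(jz z (kc_win hw.1 (kc_bot hz))).1, (jz z (kc_win hw.1 (kc_bot hz))).2.1,
        (hU _ hz).2.2.1 rfl⟩
      i2 := fun y hy hf hn => out y hy fun k => hn (h2 σ y hy hf k)
      top := top
      o2 := o2
      cls := fun δ3 h3 W g' X' K l pl fut hK => clf d.1 T J b σ (T' σ) (δ' σ) δ3 R w (G σ) _ (U σ)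
        U' _ (Ps σ) _ W g' X' K hT u4 (RG σ) (h3.trans d1'.2) (sb σ) (kc_sq (sq σ) (by omega)) l
        (fu.mono (kc_sub' h3)) pl (fun p hp => ⟨fut p hp, fun p0 =>
          let ⟨v1, v2, v3⟩ := bd p (kc_sub' h3 hp) p0 kS (by omega)
          sj (G σ) _ _ (U σ) U' _ p (box_open _ _ _ _ _) (kc_sub' h3 hp) fU fu (gro σ).hG l1 v1 v2
            v3 b2.1⟩) b3.1 hK }
  have mP : ∀ s, P354J.PDy (j.kd (pp j.M (T.q s))) := fun s =>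
    (hJ.hK.sta _ (pp_mem (Par.near_mono (hT.ends s).par.1 hε.2)) _ hJ.hT).1.1
  refine ⟨_, le_rfl, d', q1.trans_lt ((ENNReal.ofReal_lt_ofReal_iff η2).2 (by linarith [b1.2.1])),
    W, g, Xf, τ, V, d2, o1, o3, o4, o5, ⟨p2, ?_⟩, kk, o6⟩
  refine (P354T.pm_tri s 11 p2.1 nr.1.1 (P354M2.mix_pdy (mP true) (mP false)).1).trans_lt ?_
  rw [← add_halves η, ENNReal.ofReal_add (half_pos η0).le (half_pos η0).le]
  exact ENNReal.add_lt_add_of_le_of_lt (ne_top_of_le_ne_top ENNReal.ofReal_ne_top q2)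
    (q2.trans (ENNReal.ofReal_le_ofReal b4.2.2)) nr.2

end Vale.Agent.P354YV
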