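import Vale.Agent.P354YV.Kd2
import Vale.Agent.P354YX.Main

/-!
The kick on the top slice of the slab.
-/

open scoped ContDiff
open MeasureTheory Set Filter Topology Matrix

noncomputable section

namespace Vale.Agent.P354YV

open Vale.Agent.P354n (R4)
open Vale.Agent.P354H (X3 e pdl pd sl tr)
open Vale.Agent.P354A (cmp Pb)
open Vale.Agent.P354GT (Fu)
open Vale.Agent.P354C Vale.Agent.P354C.Ix
open Vale.Agent.P354J (M3 PD MS PDy pb Phi Ud U0 Ind CC sl1 sl2 cv dsl)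
open Vale.Agent.P354I (X Dat Con pm)
open Vale.Agent.P354D (sgn cpt)
open Vale.Agent.P354PU (pg)
open Vale.Agent.P354XB (Pa Sa Cn Kick top)
open Vale.Agent.P354YX (Tw pT)
open Vale.Agent.P354YJ (RT iv ng sw Sn sx pdl_ev Sn_conj pg_iv)
open Vale.Agent.P354KX (lb)
open Vale.Agent.P354YM (Kk)

/-! ### The top slice -/

theorem top_eq (U : R4 → Ix → ℝ) (T : ℝ) : top U T = fun x => U (T, x + (-T, 0)) :=
  funext fun x => by simp [top, sub_eq_add_neg, Prod.add_def]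

theorem pT_eq (T : ℝ) (z : X3) : pT T z = (T, z + (-T, 0)) := by
  simp [pT, sub_eq_add_neg, Prod.add_def]

theorem top_cn {U : R4 → Ix → ℝ} {D : Set R4} {T : ℝ} {z : X3} (h : Fu U D) (hD : IsOpen D)
    (hz : pT T z ∈ D) : Cn (top U T) z := by
  rw [pT_eq] at hz
  have e1 : top U T = tr (-T, 0) (sl U T) := top_eq U T
  have e2 : ∀ i j, pd j (fun x => tr (-T, 0) (sl U T) x i) z =
      pd j (fun x => sl U T x i) (z + (-T, 0)) :=
    fun i j => congrFun (P354H.pd_tr j (-T, 0) fun x => sl U T x i) z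
  have e3 : dsl (tr (-T, 0) (sl U T)) z = dsl (sl U T) (z + (-T, 0)) := by
    funext k i
    simp only [dsl, P354J.fd, e2]
    rfl
  rw [Cn, e1, e3]
  exact (P354J.dslThm U T _ (h.dif hD hz)).1 (full_constr (h.2 _ hz).2.2)

theorem lb_eq (b σ : Bool) (z : X3) : lb b σ z = Phi σ (sgn b * z.1, z.2) := by
  cases b
  · simp [lb, P354YJ.iv_phi, sgn, ng]
  · simp [lb, sgn]

/-- The kick on the level of the initial values. -/
theorem kk_top {b σ : Bool} {Λ R w A : ℝ} {d1 d2 : Dat} {u u' : X3 → Ix → ℝ} (hw : 0 < w)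
    (p1 : PDy d1) (p2 : PDy d2) (t : Tp R w (pg (lb b σ) d1.h) (pg (lb b σ) d1.K) u u')
    (sm : ∀ i, ContDiffOn ℝ ∞ (fun x => u x i) (Tw R w) ∧ ContDiffOn ℝ ∞ (fun x => u' x i) (Tw R w))
    (i2 : ∀ z ∈ Tw R w, z.1 ≤ R + 9 / 4 * w →
      Ind (u' z) (pg (lb b σ) d2.h z) (pg (lb b σ) d2.K z))
    (eq : ∀ y, (∀ z ∈ Sc R w, y ≠ lb b σ z) → d2.h y = d1.h y ∧ d2.K y = d1.K y)
    (k : Kick Λ R w A u (RT u')) : Kk b Λ R w A (Ud d1 σ) (Ud d2 σ) := by
  have ss : sgn b * sgn b = 1 := by cases b <;> simp [sgn]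
  have ct : Continuous fun z : X3 => sgn b * z.1 := by fun_prop
  have lo : ∀ z : X3, sgn b * z.1 < R - 3 / 2 * w → Ud d2 σ =ᶠ[𝓝 z] Ud d1 σ := fun z hz => by
    have : ∀ᶠ y in 𝓝 z, d2.h (Phi σ y) = d1.h (Phi σ y) ∧ d2.K (Phi σ y) = d1.K (Phi σ y) := by
      filter_upwards [ct.continuousAt.eventually_lt_const hz] with y hy
      refine eq _ fun x hx c => ?_
      have := congrArg norm c
      rw [lb_eq, P354JK.norm_phi, P354JK.norm_phi, Real.exp_eq_exp] at this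
      rw [this, ← mul_assoc, ss, one_mul] at hy
      exact hy.not_ge hx.1.1
    exact P354XP.U0_ev (this.mono fun y hy => by rw [pb, pb, hy.1])
      (this.mono fun y hy => by rw [pb, pb, hy.2])
  let D := {z ∈ Tw R w | z.1 < R + 9 / 4 * w}
  have hD : IsOpen D := (tw_open R w).inter (isOpen_lt continuous_fst continuous_const)
  have v : ∀ z : X3, (sgn b * z.1, z.2) ∈ D → Ud d1 σ z = Sd b u z ∧ Ud d2 σ z = Sd b (RT u') z :=
    fun z hz => ⟨(ud_lb p1 hD (fun i => (sm i).1.mono fun _ h => h.1)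
      (fun y hy => (t.pt y hy.1).1) z hz).trans (by
        have := (t.pt _ hz.1).2.2.1
        cases b
        · simpa [Sd, sgn, ng] using congrArg sw this
        · simpa [Sd, sgn] using this),
      ud_lb p2 hD (fun i => (sm i).2.mono fun _ h => h.1) (fun y hy =>
        ⟨(t.pt y hy.1).2.1.1, (t.pt y hy.1).2.1.2.1, i2 y hy.1 hy.2.le, (t.pt y hy.1).2.1.2.2⟩) z hz⟩
  refine ⟨fun z hz => (lo z (by linarith)).self_of_nhds, fun i α h1 h2 z h3 h4 => ?_,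
    k.low.trans (measure_mono fun x hx => ⟨hx.1, fun y hy => ?_⟩)⟩
  · by_cases c : sgn b * z.1 < R - 3 / 2 * w
    · rw [pdl_ev (g := fun _ => 0) ((lo z c).mono fun y hy => by simp [hy])]
      have := (abs_nonneg _).trans (k.bound O [] (Nat.zero_le _) List.not_mem_nil (R, 0, 0)
        ⟨by simpa using hw, by simpa using hw⟩ (by simp [P354I.r2]))
      simpa using sa_mono (sa_const (n := 4) (z := z) zero_le_one 0) zero_le_one le_rfl le_rfl
        (abs_zero.trans_le this) α h1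
    have m : (sgn b * z.1, z.2) ∈ D := ⟨⟨⟨by linarith [not_lt.1 c], by linarith⟩,
      (P354IN.norm_le h4).trans_lt (by norm_num)⟩, by linarith⟩
    rw [pdl_ev (g := fun y => Sd b (RT u') y i - Sd b u y i)
      (((hD.preimage (ct.prodMk continuous_snd)).eventually_mem m).mono fun y hy => by
        simp only [(v y hy).1, (v y hy).2])]
    have kb := fun j => k.bound j α h1 h2 _ m.1.1 h4
    cases b
    · simp only [Sd, cond_false, P354YJ.sw_eq, ← mul_sub]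
      rw [pdl_ng' α _ fun y => RT u' y (P354YJ.si i) - u y (P354YJ.si i), P354YJ.abs_sj, one_mul]
      simpa [sgn, ng] using kb _
    · simpa [Sd, sgn] using kb i
  · have m : (sgn b * ((sgn b * x, y) : X3).1, y) ∈ D := by
      simp only [← mul_assoc, ss, one_mul]
      exact ⟨⟨⟨by linarith [hx.1.1], by linarith [hx.1.2]⟩, (P354IN.norm_le (z := (x, y))
        (hy.trans (by norm_num))).trans_lt (by norm_num)⟩, by linarith [hx.1.2]⟩
    rw [(v _ m).1, (v _ m).2]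
    cases b <;> simpa [Sd, sgn, cpt, ng, sw] using hx.2 y hy

open Vale.Agent.P354KX (vv) in
/-- KD2 with the order 11. -/
def KD2' : Prop :=
  ∀ s : ℝ, ∃ N : ℕ, ∀ w > 0, ∃ R1 : ℝ,
    ∀ b σ Λ T δ R G l E A U U' d1, R1 ≤ R → R ≤ G →
    1 ≤ l → 0 < T → 0 < δ → PDy d1 → Con d1 → Fu U (P354KX.Bk T δ R w) →
    Fu U' (P354KX.Bk T δ R w) →
    (∀ p ∈ P354KX.Bk T δ R w,
      0 < detP (U' p) ∧ (vv p ≤ R - 3 / 2 * w ∨ 3 ≤ ‖p.2.2‖ → U' p = U p)) →
    (∀ z ∈ Tw R w, Ind (U (pT T z)) (pg (lb b σ) d1.h z) (pg (lb b σ) d1.K z) ∧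
      RT (top U T) z = top U T z ∧ G⁻¹ ≤ U (pT T z) .O ∧ G⁻¹ ≤ detP (U (pT T z)) ∧
      ∀ i, Pb 11 (cmp U i) (pT T z) G ∧ Pa l 11 (cmp (U' - U) i) (pT T z) E) →
    E * (l * G) ^ N ≤ 1 → Kick Λ R w A (top U T) (RT (top U' T)) →
    ∃ d2, PDy d2 ∧ pm s 11 d2 d1 ≤ ENNReal.ofReal (E * (l * G) ^ N) ∧
      Kk b Λ R w A (Ud d1 σ) (Ud d2 σ) ∧
      (∀ z ∈ Tw R w, z.1 ≤ R + 9 / 4 * w →
        Ind (U' (pT T z)) (pg (lb b σ) d2.h z) (pg (lb b σ) d2.K z)) ∧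
      ∀ y, (∀ z : X3, z.1 ∈ Icc (R - 3 / 2 * w) (R + 5 / 2 * w) → ‖z.2‖ ≤ 3 → y ≠ lb b σ z) →
        d2.h y = d1.h y ∧ d2.K y = d1.K y

theorem kd2' : KD2' := by
  intro s
  obtain ⟨N, H⟩ := kd_ex
  refine ⟨12 + 2 * N + 2 * ⌈|s|⌉₊, fun w hw => ?_⟩
  obtain ⟨C, C0, H⟩ := H s w hw
  obtain ⟨C1, hc⟩ := cu9_bd w
  refine ⟨max (max C C1) 2, fun b σ Λ T δ R G l E A U U' d1 r1 rG l1 T0 δ0 p1 _
    f f' e t hE k => ?_⟩
  have R2 : 2 ≤ R := (le_max_right _ _).trans r1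
  have CG := ((le_max_left _ _).trans r1).trans rG
  have G2 := R2.trans rG
  have G1 : 1 ≤ G := one_le_two.trans G2
  have G0 : 0 < G := one_pos.trans_le G1
  have l0 : 0 ≤ l := zero_le_one.trans l1
  have oB := box_open (-δ) (T + δ) (R - 2 * w) (R + 5 / 2 * w) (9 / 2)
  have m : ∀ z ∈ Tw R w, pT T z ∈ P354KX.Bk T δ R w := fun z hz =>
    ⟨⟨show -δ < T by linarith, show T < T + δ by linarith⟩, by simpa [pT] using hz.1, hz.2⟩
  have E0 : 0 ≤ E := by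
    simpa [P354K.n0] using (abs_nonneg _).trans (((t (R, 0, 0) ⟨⟨by simpa using hw,
      by simpa using hw⟩, by simp⟩).2.2.2.2 O).2 [] (Nat.zero_le _))
  have pw : ∀ n ≤ 12 + 2 * N + 2 * ⌈|s|⌉₊,
      E * (l ^ 11 * G ^ n) ≤ E * (l * G) ^ (12 + 2 * N + 2 * ⌈|s|⌉₊) := fun n hn => by
      rw [mul_pow]
      exact mul_le_mul_of_nonneg_left (mul_le_mul (pow_le_pow_right₀ l1 (by omega))
        (pow_le_pow_right₀ G1 hn) (by positivity) (by positivity)) E0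
  have El : E ≤ E * l ^ 11 := le_mul_of_one_le_right E0 (one_le_pow₀ l1)
  have E1 : E * l ^ 11 ≤ 1 := by simpa using (pw 0 (Nat.zero_le _)).trans hE
  have sm : ∀ {V : R4 → Ix → ℝ}, Fu V (P354KX.Bk T δ R w) → ∀ i,
      ContDiffOn ℝ ∞ (fun x => top V T x i) (Tw R w) := fun h i =>
    (h.1 i).comp (P354YX.pT_sm T).contDiffOn m
  have sl : ∀ {F : R4 → ℝ}, ContDiffOn ℝ ∞ F (P354KX.Bk T δ R w) → ∀ z ∈ Tw R w, ∀ α,
      pdl α (fun x => F (pT T x)) z = P354A.dxl α F (pT T z) := fun hF z hz α => by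
    simp only [pT_eq]
    exact pdl_slice oB T _ α hF (pT_eq T z ▸ m z hz)
  have s1 : ∀ z ∈ Tw R w, ∀ i, Sa 1 11 (fun x => top U T x i) z G := fun z hz i α hα => by
    rw [one_pow, mul_one]
    exact (sl (f.1 i) z hz α).symm ▸ ((t z hz).2.2.2.2 i).1 α hα
  have s2 : ∀ z ∈ Tw R w, ∀ i, Sa 1 11 (fun x => top U' T x i - top U T x i) z (E * l ^ 11) :=
    fun z hz i α hα => by
      rw [one_pow, mul_one]
      exact ((sl ((f'.1 i).sub (f.1 i)) z hz α).symm ▸ ((t z hz).2.2.2.2 i).2 α hα).trans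
        (mul_le_mul_of_nonneg_left (pow_le_pow_right₀ l1 (List.count_le_length.trans hα)) E0)
  have i2 : (2 * G)⁻¹ ≤ G⁻¹ := inv_anti₀ G0 (by linarith)
  let a : Dh := ⟨w, R, 2 * G, E * l ^ 11, top U T, top U' T, by linarith, E0.trans El,
    fun i => ⟨sm f i, sm f' i⟩, fun z hz => ⟨⟨i2.trans (t z hz).2.2.2.1, by
      have k1 := P354YX.det_near (U := top U T z) (V := top U' T z) (fun i => sa_zero (s1 z hz i))
        E1 fun i _ => sa_zero (s2 z hz i)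
      have k2 : G⁻¹ ≤ detP (top U T z) := (t z hz).2.2.2.1
      have k3 := (pw 6 (by omega)).trans hE
      have k4 : (4 * G + 2) * (E * l ^ 11) ≤ (2 * G)⁻¹ := by
        rw [inv_eq_one_div, le_div_iff₀ (by positivity)]
        have : (4 * G + 2) * (2 * G) ≤ G ^ 6 := by
          nlinarith [pow_le_pow_left₀ zero_le_two G2 4, sq_nonneg G]
        nlinarith [mul_le_mul_of_nonneg_left this (E0.trans El)]
      have : G⁻¹ = 2 * (2 * G)⁻¹ := by field_simp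
      linarith⟩, fun i => ⟨sa_mono (s1 z hz i) zero_le_one le_rfl le_rfl (by linarith),
      sa_mono (sa_congr (tw_open R w) (fun x _ => by simp) hz (sa_add (tw_open R w) (sm f i)
        ((sm f' i).sub (sm f i)) hz (s1 z hz i) (s2 z hz i))) zero_le_one le_rfl le_rfl
        (by linarith), s2 z hz i⟩⟩, fun z hz => sa_mono (hc R z hz) zero_le_one le_rfl le_rfl
      (by linarith [(le_max_right _ _).trans CG])⟩
  have tp : Tp R w (pg (lb b σ) d1.h) (pg (lb b σ) d1.K) (top U T) (top U' T) := ⟨fun z hz =>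
    ⟨⟨(f.2 _ (m z hz)).1, (inv_pos.2 G0).trans_le (t z hz).2.2.2.1, (t z hz).1,
      top_cn f oB (m z hz)⟩, ⟨(f'.2 _ (m z hz)).1, (e _ (m z hz)).1, top_cn f' oB (m z hz)⟩,
      (t z hz).2.1, fun c => (e _ (m z hz)).2 (by simpa [P354KX.vv, pT] using c)⟩⟩
  obtain ⟨d2, p2, b2, i2, e2⟩ := H a b σ d1 rfl p1 tp
  refine ⟨d2, p2, b2.trans (ENNReal.ofReal_le_ofReal (le_trans ?_ (pw (1 + 2 * N + 2 * ⌈|s|⌉₊)
    (by omega)))), kk_top hw p1 p2 tp a.sm i2 e2 k, i2,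
    fun y hy => e2 y fun z hz => hy z ⟨hz.1.1, hz.1.2.trans (by linarith [hw])⟩ hz.2⟩
  have GG : 2 * G ≤ G ^ 2 := by nlinarith
  have q1 : (1 + |R|) ^ |s| ≤ (G ^ 2) ^ ⌈|s|⌉₊ := by
    rw [abs_of_nonneg (show 0 ≤ R by linarith), ← Real.rpow_natCast]
    exact (Real.rpow_le_rpow (by linarith) (by linarith) (abs_nonneg s)).trans
      (Real.rpow_le_rpow_of_exponent_le (by nlinarith) (Nat.le_ceil _))
  calc C * (E * l ^ 11 * (2 * G) ^ N) * (1 + |R|) ^ |s|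
      ≤ G * (E * l ^ 11 * (G ^ 2) ^ N) * (G ^ 2) ^ ⌈|s|⌉₊ := by
        gcongr
        exact (le_max_left _ _).trans CG
    _ = E * (l ^ 11 * G ^ (1 + 2 * N + 2 * ⌈|s|⌉₊)) := by ring

/-- **KD2.** -/
theorem kd2 : P354KX.KD2 := fun s => let ⟨N, h⟩ := kd2' s; ⟨11, N, h⟩

end Vale.Agent.P354YV
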