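import Vale.Agent.P354YV.Kc
import Vale.Agent.P354YV.Kd3
import Vale.Agent.P354KX.Hs
import Vale.Agent.P354XM.Mirt
import Vale.Agent.P354SM.Same
import Vale.Agent.P354XY.Hul
import Vale.Agent.P354DT.Sj
import Vale.Agent.P354SL.Indy
import Vale.Agent.P354SL.Slc
import Vale.Agent.P354DA.Main
import Vale.Agent.P354XB.Slab
import Vale.Agent.P354XP.Loc
import Vale.Agent.P354XP.Ksg
import Vale.Agent.P354YX.Main

/-!
The kick from the slab, the closeness to Kerr and the lens of the kicked metric.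
-/

namespace Vale.Agent.P354YV

open Vale.Agent

theorem kck (s1 : P354KX.S1) (clf : P354KX.CLF) (kl : P354YM.KL) : P354YM.KCK :=
  kck_of s1 (P354XM.mirt (trk P354XB.slab P354XP.ksg P354XP.loc P354YX.topk)) P354XM.mxx
    P354DT.sj clf kd2 P354SL.indy (P354SL.slc P354DA.dat) P354LN.lens
    (P354KX.hs P354SM.same_ok P354XM.mxx P354XY.hul)
    (P354KX.kb P354SM.same_ok P354GL.glue P354SL.indy kl)

end Vale.Agent.P354YV
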