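import Vale.Agent.P354YV.Cal
import Vale.Agent.P354YX.Defs
import Vale.Agent.P354KU.Push
import Vale.Agent.P354J.Pull
import Vale.Agent.P354YJ.Sw
import Vale.Agent.P354YJ.Rot

/-!
The data on the top slice: calculus of differences, and the push forward to the cylinder.
-/

open scoped ContDiff
open Set Filter Topology Matrix Metric

noncomputable section

namespace Vale.Agent.P354YV

open Vale.Agent.P354H (X3 e pdl tr)
open Vale.Agent.P354C Vale.Agent.P354C.Ix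
open Vale.Agent.P354J (M3 PD MS PDy pb Phi Psi sl2 Cu kap)
open Vale.Agent.P354I (X Dat wn pm)
open Vale.Agent.P354KU
open Vale.Agent.P354XB (Sa Cn)
open Vale.Agent.P354YX (Tw)

/-- Two families of size 1 whose difference has the size ε. -/
def Pr {ι : Type} (S : Sit ι) (n : ℕ) (ε : ι → ℝ) (f f' : ι → X3 → ℝ) : Prop :=
  Fm S n 1 f ∧ Fm S n 1 f' ∧ Fm S n ε fun a x => f' a x - f a x

section
variable {ι : Type} {S : Sit ι} {n : ℕ} {ε : ι → ℝ} {f f' g g' : ι → X3 → ℝ}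

theorem Pr.const (h0 : ∀ a, 0 ≤ ε a) (c : ℝ) : Pr S n ε (fun _ _ => c) fun _ _ => c :=
  ⟨Fm.const c, Fm.const c, 0, fun a => ⟨by simpa using contDiffOn_const, fun z _ => by
    simpa using sa_mono (sa_const (S.l0 a) 0) (S.l0 a) le_rfl le_rfl (by simpa using h0 a)⟩⟩

theorem Pr.add (h : Pr S n ε f f') (k : Pr S n ε g g') :
    Pr S n ε (fun a x => f a x + g a x) fun a x => f' a x + g' a x :=
  ⟨h.1.add k.1, h.2.1.add k.2.1, (h.2.2.add k.2.2).congr fun _ _ _ => by ring⟩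

theorem Pr.sub (h : Pr S n ε f f') (k : Pr S n ε g g') :
    Pr S n ε (fun a x => f a x - g a x) fun a x => f' a x - g' a x :=
  ⟨h.1.sub k.1, h.2.1.sub k.2.1, (h.2.2.sub k.2.2).congr fun _ _ _ => by ring⟩

theorem Pr.mul (h : Pr S n ε f f') (k : Pr S n ε g g') :
    Pr S n ε (fun a x => f a x * g a x) fun a x => f' a x * g' a x :=
  ⟨h.1.mul1 k.1, h.2.1.mul1 k.2.1,
    ((h.2.2.mul2 k.2.1).add (h.1.mul1 k.2.2)).congr fun _ _ _ => by ring⟩

theorem Fm.inv1 (h1 : ∀ a, S.l a = 1) (h : Fm S n 1 f)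
    (lb : ∀ a, ∀ z ∈ S.D a, (S.G a)⁻¹ ≤ f a z) : Fm S n 1 fun a x => (f a x)⁻¹ :=
  ((h.isq h1 lb).mul1 (h.isq h1 lb)).congr fun a z hz => by
    beta_reduce
    rw [← mul_inv, Real.mul_self_sqrt
      ((inv_pos.2 (one_pos.trans_le (S.G1 a))).le.trans (lb a z hz))]

theorem Pr.inv (h1 : ∀ a, S.l a = 1) (h : Pr S n ε f f')
    (lb : ∀ a, ∀ z ∈ S.D a, (S.G a)⁻¹ ≤ f a z ∧ (S.G a)⁻¹ ≤ f' a z) :
    Pr S n ε (fun a x => (f a x)⁻¹) fun a x => (f' a x)⁻¹ := by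
  have i1 := h.1.inv1 h1 fun a z hz => (lb a z hz).1
  have i2 := h.2.1.inv1 h1 fun a z hz => (lb a z hz).2
  refine ⟨i1, i2, ((h.2.2.neg.mul2 i1).mul2 i2).congr fun a z hz => ?_⟩
  have p := inv_pos.2 (one_pos.trans_le (S.G1 a))
  have p1 := (p.trans_le (lb a z hz).1).ne'
  have p2 := (p.trans_le (lb a z hz).2).ne'
  field_simp
  ring

theorem Pr.sum3 {F F' : Fin 3 → ι → X3 → ℝ} (h : ∀ k, Pr S n ε (F k) (F' k)) :
    Pr S n ε (fun a x => ∑ k, F k a x) fun a x => ∑ k, F' k a x := by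
  simp only [Fin.sum_univ_three]
  exact ((h 0).add (h 1)).add (h 2)

end

/-- The induced forms as matrices. -/
def hM (U : Ix → ℝ) : M3 := U O ^ 2 • (Cu U * (Cu U)ᵀ)
def kM (U : Ix → ℝ) : M3 := U O • (Cu U * kap U * (Cu U)ᵀ)

theorem ind_iff {U : Ix → ℝ} {h K : M3} : P354J.Ind U h K ↔ h = hM U ∧ K = kM U := by
  simp only [P354J.Ind, P354J.hf_eq, P354J.Kf_eq, hM, kM, ← Matrix.ext_iff, Matrix.smul_apply,
    smul_eq_mul, forall_and]
  exact and_congr (forall₂_congr fun _ _ => eq_comm) (forall₂_congr fun _ _ => eq_comm)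

theorem hM_pos {U : Ix → ℝ} (h0 : 0 < U O) (h1 : detP U ≠ 0) : (hM U).PosDef := by
  have k := (PosDef.one (n := Fin 3) (R := ℝ)).mul_mul_conjTranspose_same (B := Cu U)
    (vecMul_injective_iff_isUnit.2 (IsUnit.of_mul_eq_one _ (P354J.Cu_Eu h1)))
  rw [Matrix.mul_one, conjTranspose_eq_transpose_of_trivial] at k
  exact k.smul (pow_pos h0 2)

theorem kM_sym {u : X3 → Ix → ℝ} {z : X3} (h : Cn u z) : (kM (u z)).IsSymm := by
  have t := P354YJ.TT_01 ((P354J.constr_iff _ _).1 h).1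
  obtain ⟨t1, t2, t3⟩ := P354YJ.tt (u z)
  have a0 := (t1 0).symm.trans (t 0 1).1
  have a1 := (t1 1).symm.trans (t 0 1).2
  have b0 := (t2 0).symm.trans (t 0 2).1
  have b1 := (t2 1).symm.trans (t 0 2).2
  have c0 := (t3 0).symm.trans (t 1 2).1
  have c1 := (t3 1).symm.trans (t 1 2).2
  simp only [cons_val_zero, cons_val_one] at a0 a1 b0 b1 c0 c1
  have k : (kap (u z))ᵀ = kap (u z) := by
    ext i j
    fin_cases i <;> fin_cases j <;> simp [kap] <;> linarith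
  rw [kM, IsSymm, transpose_smul, transpose_mul, transpose_mul, transpose_transpose, k,
    Matrix.mul_assoc]

section
variable {ι : Type} {S : Sit ι} {n : ℕ} {ε : ι → ℝ} {u u' : ι → X3 → Ix → ℝ}

theorem pr_hk (h1 : ∀ a, S.l a = 1) (h0 : ∀ a, 0 ≤ ε a)
    (h : ∀ i, Pr S n ε (fun a x => u a x i) fun a x => u' a x i)
    (lb : ∀ a, ∀ z ∈ S.D a, (S.G a)⁻¹ ≤ detP (u a z) ∧ (S.G a)⁻¹ ≤ detP (u' a z)) (i j : Fin 3) :
    Pr S n ε (fun a x => hM (u a x) i j) (fun a x => hM (u' a x) i j) ∧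
      Pr S n ε (fun a x => kM (u a x) i j) fun a x => kM (u' a x) i j := by
  have c := Pr.const (S := S) (n := n) h0
  have d := (((h P11).mul (h P22)).sub ((h P12).mul (h P21))).inv h1 lb
  have cu : ∀ i k, Pr S n ε (fun a x => Cu (u a x) i k) fun a x => Cu (u' a x) i k := fun i k => by
    have p := (c (e i).2.1).sub ((h b1).mul (c ((0 + (e i).1) / 2)))
    have q := (c (e i).2.2).sub ((h b2).mul (c ((0 + (e i).1) / 2)))
    fin_cases k
    · exact c (e i).1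
    · exact (((h P22).mul p).sub ((h P21).mul q)).mul d
    · exact (((h P11).mul q).sub ((h P12).mul p)).mul d
  have ka : ∀ i k, Pr S n ε (fun a x => kap (u a x) i k) fun a x => kap (u' a x) i k :=
    fun i k => by
      fin_cases i <;> fin_cases k <;>
        first
          | exact ((h _).add (h _)).mul (c 2⁻¹)
          | exact ((h _).sub (h _)).mul (c 2⁻¹)
          | exact (h _).sub (h _)
          | exact (h _).add (h _)
  simp only [hM, kM, Matrix.smul_apply, smul_eq_mul, Matrix.mul_apply, transpose_apply, sq]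
  exact ⟨((h O).mul (h O)).mul (Pr.sum3 fun k => (cu i k).mul (cu j k)),
    (h O).mul (Pr.sum3 fun k => (Pr.sum3 fun l => (cu i l).mul (ka l k)).mul (cu j k))⟩

end

/-- The cut-off which is 1 for x ≤ R + 9 w / 4 and 0 for R + 19 w / 8 ≤ x. -/
def cu9 (w R : ℝ) (z : X3) : ℝ := Real.smoothTransition (8 / w * (19 / 8 * w - (z.1 - R)))

theorem cu9_sm (w R : ℝ) : ContDiff ℝ ∞ (cu9 w R) :=
  Real.smoothTransition.contDiff.comp (by fun_prop)

theorem cu9_one {w R : ℝ} {z : X3} (hw : 0 < w) (h : z.1 ≤ R + 9 / 4 * w) : cu9 w R z = 1 :=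
  Real.smoothTransition.one_of_one_le (by
    rw [div_mul_eq_mul_div, le_div_iff₀ hw]
    linarith)

theorem cu9_zero {w R : ℝ} {z : X3} (hw : 0 < w) (h : R + 19 / 8 * w ≤ z.1) : cu9 w R z = 0 :=
  Real.smoothTransition.zero_of_nonpos (mul_nonpos_of_nonneg_of_nonpos (by positivity)
    (by linarith))

theorem tw_open (R w : ℝ) : IsOpen (Tw R w) :=
  (isOpen_Ioo.preimage continuous_fst).inter (isOpen_lt continuous_snd.norm continuous_const)

theorem cu9_bd (w : ℝ) : ∃ C, ∀ R, ∀ z ∈ Tw R w, Sa 1 11 (cu9 w R) z C := by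
  obtain ⟨C, -, hC⟩ := P354JP.bd_compact 11 (isCompact_closedBall (0 : X3) (3 * |w| + 5))
    (cu9_sm w 0)
  refine ⟨C, fun R z hz α hα => ?_⟩
  have e1 : cu9 w R = tr (-R, 0) (cu9 w 0) := funext fun x => by simp [cu9, tr, sub_eq_add_neg]
  have m : z + (-R, 0) ∈ Metric.closedBall (0 : X3) (3 * |w| + 5) := by
    rw [mem_closedBall_zero_iff, Prod.norm_def]
    refine max_le (abs_le.2 ⟨?_, ?_⟩) ?_
    · simp only [Prod.fst_add]
      linarith [hz.1.1, le_abs_self w, abs_nonneg w]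
    · simp only [Prod.fst_add]
      linarith [hz.1.2, le_abs_self w, abs_nonneg w]
    · simp only [Prod.snd_add, add_zero]
      linarith [hz.2, abs_nonneg w]
  rw [e1, P354H.pdl_tr]
  simpa [tr] using hC _ m α hα

/-- The hypotheses of the estimate of the difference. -/
structure Dh where
  (w R G E : ℝ)
  (u u' : X3 → Ix → ℝ)
  hG : 2 ≤ G
  hE : 0 ≤ E
  sm : ∀ i, ContDiffOn ℝ ∞ (fun x => u x i) (Tw R w) ∧ ContDiffOn ℝ ∞ (fun x => u' x i) (Tw R w)
  bd : ∀ z ∈ Tw R w, (G⁻¹ ≤ detP (u z) ∧ G⁻¹ ≤ detP (u' z)) ∧ ∀ i, Sa 1 11 (fun x => u x i) z G ∧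
    Sa 1 11 (fun x => u' x i) z G ∧ Sa 1 11 (fun x => u' x i - u x i) z E
  cut : ∀ z ∈ Tw R w, Sa 1 11 (cu9 w R) z G

theorem dif_bd : ∃ N : ℕ, ∀ a : Dh, ∀ i j,
    (ContDiffOn ℝ ∞ (fun x => cu9 a.w a.R x * (hM (a.u' x) i j - hM (a.u x) i j)) (Tw a.R a.w) ∧
      ∀ z ∈ Tw a.R a.w, Sa 1 11 (fun x => cu9 a.w a.R x * (hM (a.u' x) i j - hM (a.u x) i j)) z
        (a.E * a.G ^ N)) ∧
    ContDiffOn ℝ ∞ (fun x => cu9 a.w a.R x * (kM (a.u' x) i j - kM (a.u x) i j)) (Tw a.R a.w) ∧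
      ∀ z ∈ Tw a.R a.w, Sa 1 11 (fun x => cu9 a.w a.R x * (kM (a.u' x) i j - kM (a.u x) i j)) z
        (a.E * a.G ^ N) := by
  let S : Sit Dh := ⟨fun a => Tw a.R a.w, fun _ => 1, fun a => a.G, fun _ => tw_open _ _,
    fun _ => le_rfl, fun a => a.hG⟩
  have c : Fm S 11 1 fun a => cu9 a.w a.R :=
    ⟨1, fun a => ⟨(cu9_sm _ _).contDiffOn, fun z hz => by simpa [S] using a.cut z hz⟩⟩
  have p := pr_hk (S := S) (n := 11) (ε := fun a => a.E) (u := fun a => a.u) (u' := fun a => a.u')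
    (fun _ => rfl) (fun a => a.hE) (fun i => ⟨
      ⟨1, fun a => ⟨(a.sm i).1, fun z hz => by simpa [S] using ((a.bd z hz).2 i).1⟩⟩,
      ⟨1, fun a => ⟨(a.sm i).2, fun z hz => by simpa [S] using ((a.bd z hz).2 i).2.1⟩⟩,
      ⟨0, fun a => ⟨(a.sm i).2.sub (a.sm i).1, fun z hz => by
        simpa [S] using ((a.bd z hz).2 i).2.2⟩⟩⟩) fun a z hz => (a.bd z hz).1
  obtain ⟨N, hN⟩ := Fm.all (S := S) (n := 11) (e := fun a => a.E)
    (F := fun (q : Bool × Fin 3 × Fin 3) a x => cu9 a.w a.R x * bif q.1 then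
      hM (a.u' x) q.2.1 q.2.2 - hM (a.u x) q.2.1 q.2.2 else
      kM (a.u' x) q.2.1 q.2.2 - kM (a.u x) q.2.1 q.2.2) (by
    rintro ⟨_ | _, i, j⟩
    exacts [c.mul1 (p i j).2.2.2, c.mul1 (p i j).1.2.2])
  exact ⟨N, fun a i j => ⟨hN a (true, i, j), hN a (false, i, j)⟩⟩

/-! ### The push forward -/

/-- The support of the push forward. -/
def Kr (σ : Bool) (R r : ℝ) : Set X := Phi σ '' closedBall (R, 0, 0) r

section
variable {σ : Bool} {y : X} {H : X3 → M3} {R r : ℝ}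

theorem kr_cpt (σ : Bool) (R r : ℝ) : IsCompact (Kr σ R r) :=
  (isCompact_closedBall _ _).image (P354JK.phi_smooth σ).continuous

theorem kr_sub (σ : Bool) (R r : ℝ) : Kr σ R r ⊆ {y | den σ y ≠ 0} := by
  rintro _ ⟨z, -, rfl⟩
  exact den_ne σ z

theorem pf_zero' (h : ∀ z ∉ closedBall (R, 0, 0) r, H z = 0) (hy : y ∉ Kr σ R r) (i k : Fin 3) :
    (fun y => pf σ H y i k) =ᶠ[𝓝 y] fun _ => 0 := by
  filter_upwards [(kr_cpt σ R r).isClosed.isOpen_compl.mem_nhds hy] with y hy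
  by_cases h0 : den σ y = 0
  · simp [pf, Nm, h0]
  · rw [pf, h _ fun hc => hy ⟨_, hc, P354JK.phi_psi σ (ne_of_den h0) h0⟩]
    simp

theorem pf_sm' (hH : MS H) (h : ∀ z ∉ closedBall (R, 0, 0) r, H z = 0) (i k : Fin 3) :
    ContDiff ℝ ∞ fun y => pf σ H y i k := by
  refine contDiff_iff_contDiffAt.2 fun y => ?_
  by_cases hy : y ∈ Kr σ R r
  · rw [pf_eq]
    exact (ContDiffOn.sum fun p _ => ((hH _ _).comp_contDiffOn (psi_on σ)).smul
      ((nm_on σ _ _).mul (nm_on σ _ _))).contDiffAt ((open_den σ).mem_nhds (kr_sub σ R r hy))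
  · exact (contDiffAt_const (c := 0)).congr_of_eventuallyEq (pf_zero' h hy i k)

end

theorem pf_bd' (s : ℝ) (m : ℕ) {r : ℝ} (hr : 0 ≤ r) : ∃ C : ℝ, 0 ≤ C ∧ ∀ σ (H : X3 → M3) (R c : ℝ),
    MS H → (∀ z ∉ closedBall (R, 0, 0) r, H z = 0) → (∀ α : List (Fin 3), α.length ≤ m →
      ∀ y i j, |pdl α (fun z => H z i j) y| ≤ c) → ∀ i k,
      wn s m (fun y => pf σ H y i k) ≤ ENNReal.ofReal (C * c * (1 + |R|) ^ |s|) := by
  choose C h0 hC using fun (p : Bool × Fin 3 × Fin 3 × Fin (m + 1)) => cb (open_den p.1)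
    (kr_cpt p.1 0 r) (kr_sub p.1 0 r) (psi_on p.1) p.2.2.2 ℝ (Fin 3 × Fin 3)
    (fun q y => Nm p.1 y p.2.1 q.2 * Nm p.1 y p.2.2.1 q.1) fun q => (nm_on _ _ _).mul (nm_on _ _ _)
  have h1 : 0 ≤ ∑ p, C p := Finset.sum_nonneg fun p _ => h0 p
  refine ⟨(m + 1) * ((1 + r) ^ |s| * Real.exp r ^ (2 + m) * ∑ p, C p), by positivity,
    fun σ H R c hH h2 h3 i k => ?_⟩
  have hc : 0 ≤ c := (abs_nonneg _).trans (h3 [] (Nat.zero_le _) 0 0 0)
  rw [mul_assoc, mul_assoc]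
  refine P354T.wn_le_of fun j hj y _ => ?_
  by_cases hy : y ∈ Kr σ R r
  swap
  · rw [((pf_zero' h2 hy i k).iteratedFDeriv ℝ j).eq_of_nhds]
    simp only [iteratedFDeriv_fun_zero, Pi.zero_apply, norm_zero, mul_zero]
    positivity
  obtain ⟨z, hz, rfl⟩ := hy
  rw [mem_closedBall_iff_norm] at hz
  have z1 : |z.1 - R| ≤ r := (norm_fst_le (z - (R, 0, 0))).trans hz
  have e0 : Phi σ z = Real.exp R • Phi σ (z - (R, 0, 0)) := by
    simp [Phi, smul_smul, ← Real.exp_add, show ((0 : ℝ), (0 : ℝ)) = 0 from rfl]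
  have e1 := hC (σ, i, k, ⟨j, Nat.lt_succ_of_le hj⟩) (fun q => tr (R, 0, 0) fun z => H z q.2 q.1) c
    hc (fun q => P354H.tr_sm _ (hH _ _)) _ ⟨z - (R, 0, 0), mem_closedBall_zero_iff.2 hz, rfl⟩
    fun q α hα => by rw [P354H.pdl_tr]; exact h3 α (hα.trans hj) _ _ _
  have e2 := pf_sm' (σ := σ) hH h2 i k
  erw [← pf_eq σ (tr (R, 0, 0) H) i k] at e1
  simp only [pf_smul, Matrix.smul_apply] at e1
  rw [iteratedFDeriv_const_smul_apply' (f := fun y => pf σ H (Real.exp R • y) i k)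
    (((e2.comp (contDiff_const_smul _)).of_le (by exact_mod_cast le_top)).contDiffAt),
    iteratedFDeriv_comp_const_smul _
      (e2.of_le (by exact_mod_cast le_top)), smul_smul, ← pow_add, norm_smul, ← e0,
    Real.norm_of_nonneg (by positivity)] at e1
  have e3 : √(1 + z.1 ^ 2) ^ s ≤ (1 + r) ^ |s| * (1 + |R|) ^ |s| := by
    rw [← Real.mul_rpow (by positivity) (by positivity)]
    refine (Real.rpow_le_rpow_of_exponent_le (Real.one_le_sqrt.2 (by nlinarith [sq_nonneg z.1]))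
      (le_abs_self s)).trans (Real.rpow_le_rpow (Real.sqrt_nonneg _)
        (Real.sqrt_le_iff.2 ⟨by positivity, ?_⟩) (abs_nonneg s))
    have := abs_sub_abs_le_abs_sub z.1 R
    have k : 1 + |z.1| ≤ (1 + r) * (1 + |R|) := by nlinarith [abs_nonneg R]
    rw [← sq_abs z.1]
    nlinarith [abs_nonneg z.1]
  have e4 : Real.exp z.1 ^ (2 + j) ≤ Real.exp r ^ (2 + m) * Real.exp R ^ (2 + j) := by
    refine le_trans ?_ (mul_le_mul_of_nonneg_right (pow_le_pow_right₀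
      (Real.one_le_exp hr) (Nat.add_le_add_left hj 2)) (by positivity))
    rw [← mul_pow, ← Real.exp_add]
    exact pow_le_pow_left₀ (Real.exp_pos _).le (Real.exp_le_exp.2 (by linarith [(abs_le.1 z1).2])) _
  rw [P354T.wt, P354JK.norm_phi, Real.log_exp]
  refine (mul_le_mul_of_nonneg_right (mul_le_mul e3 e4 (by positivity) (by positivity))
    (norm_nonneg _)).trans ?_
  have e5 := mul_le_mul_of_nonneg_left (e1.trans (mul_le_mul_of_nonneg_right
    (Finset.single_le_sum (fun p _ => h0 p) (Finset.mem_univ _)) hc))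
    (show 0 ≤ (1 + r) ^ |s| * (1 + |R|) ^ |s| * Real.exp r ^ (2 + m) by positivity)
  linarith

/-- The push forward of a deformation with compact support. -/
theorem psh (s : ℝ) (m : ℕ) {r : ℝ} (hr : 0 ≤ r) : ∃ C : ℝ, 0 ≤ C ∧ ∀ (σ : Bool) (d : Dat)
    (h' K' : X3 → M3) (R c : ℝ), PDy d → PD (pb σ d.h + h') (pb σ d.K + K') →
    (∀ y ∉ closedBall (R, 0, 0) r, h' y = 0 ∧ K' y = 0) →
    (∀ α : List (Fin 3), α.length ≤ m → ∀ y i j,
      |pdl α (fun z => h' z i j) y| ≤ c ∧ |pdl α (fun z => K' z i j) y| ≤ c) →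
    ∃ d', PDy d' ∧ pb σ d'.h = pb σ d.h + h' ∧ pb σ d'.K = pb σ d.K + K' ∧
      pm s m d' d ≤ ENNReal.ofReal (C * c * (1 + |R|) ^ |s|) ∧
      ∀ y, (∀ z, y = Phi σ z → h' z = 0 ∧ K' z = 0) → d'.h y = d.h y ∧ d'.K y = d.K y := by
  obtain ⟨C, h0, hC⟩ := pf_bd' s m hr
  refine ⟨18 * C, by positivity, fun σ d h' K' R c hd hP h1 h2 => ?_⟩
  have hd0 := (sl2 d σ hd).1
  have sh : MS h' := fun i j => by simpa using (hP.sh i j).sub (hd0.sh i j)
  have sK : MS K' := fun i j => by simpa using (hP.sK i j).sub (hd0.sK i j)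
  have z1 := fun z hz => (h1 z hz).1
  have z2 := fun z hz => (h1 z hz).2
  let d' : Dat := ⟨d.h + pf σ h', d.K + pf σ K'⟩
  have e1 : pb σ d'.h = pb σ d.h + h' := by rw [pb_add, pb_pf]
  have e2 : pb σ d'.K = pb σ d.K + K' := by rw [pb_add, pb_pf]
  have lo : ∀ y, den σ y = 0 → d'.h y = d.h y ∧ d'.K y = d.K y := fun y hy => by
    simp [d', pf, Nm, hy]
  have hc0 : 0 ≤ c := (abs_nonneg _).trans (h2 [] (Nat.zero_le _) 0 0 0).1
  refine ⟨d', ⟨fun i j => ⟨(hd.1 i j).1.add (pf_sm' sh z1 i j).contDiffOn,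
    (hd.1 i j).2.add (pf_sm' sK z2 i j).contDiffOn⟩, fun y hy => ?_⟩, e1, e2, ?_, fun y k => ?_⟩
  · by_cases h : den σ y = 0
    · rw [(lo y h).1, (lo y h).2]
      exact hd.2 y hy
    rw [← pf_pb h d'.h, ← pf_pb h d'.K, e1, e2]
    refine ⟨(hP.pos _).1.mul_mul_conjTranspose_same (vecMul_injective_iff_isUnit.2
      (IsUnit.of_mul_eq_one _ (nm_jm h))), ?_⟩
    rw [pf, IsSymm, transpose_mul, transpose_mul, transpose_transpose, (hP.pos _).2,
      Matrix.mul_assoc]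
  · rw [mul_assoc, mul_assoc, ← mul_assoc C]
    exact P354T.pm_le_of (by positivity) fun i j => by
      simpa [d'] using And.intro (hC σ h' R c sh z1 (fun α hα y i j => (h2 α hα y i j).1) i j)
        (hC σ K' R c sK z2 (fun α hα y i j => (h2 α hα y i j).2) i j)
  · by_cases h : den σ y = 0
    · exact lo y h
    have := k _ (P354JK.phi_psi σ (ne_of_den h) h).symm
    simp [d', pf, this.1, this.2]

end Vale.Agent.P354YV
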