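import Vale.Agent.P354YV.Kd1
import Vale.Agent.P354XP.Loc
import Vale.Agent.P354YJ.Rl
import Vale.Agent.P354KX.Defs
import Vale.Agent.P354YV.IgWin

/-!
The data on the top slice of the slab.
-/

open scoped ContDiff
open MeasureTheory Set Filter Topology Matrix Metric

noncomputable section

namespace Vale.Agent.P354YV

open Vale.Agent.P354n (R4)
open Vale.Agent.P354H (X3 e pdl pd sl tr)
open Vale.Agent.P354A (cmp Pb)
open Vale.Agent.P354GT (Fu)
open Vale.Agent.P354C Vale.Agent.P354C.Ix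
open Vale.Agent.P354J (M3 PD MS PDy pb Phi Ud U0 Ind CC sl1 sl2 cv dsl)
open Vale.Agent.P354I (X Dat Con pm r2)
open Vale.Agent.P354D (sgn cpt)
open Vale.Agent.P354PU (pg)
open Vale.Agent.P354XB (Pa Sa Cn Kick top)
open Vale.Agent.P354YX (Tw pT)
open Vale.Agent.P354YJ (RT iv ng sw Sn sx pdl_ev Sn_conj pg_iv)
open Vale.Agent.P354KX (lb)
open Vale.Agent.P354YM (Kk)

/-- The closed set which contains the support of the change. -/
def Sc (R w : ℝ) : Set X3 := {z | z.1 ∈ Icc (R - 3 / 2 * w) (R + 19 / 8 * w) ∧ ‖z.2‖ ≤ 3}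

theorem Sc_closed (R w : ℝ) : IsClosed (Sc R w) :=
  (isClosed_Icc.preimage continuous_fst).inter (isClosed_le continuous_snd.norm continuous_const)

theorem Sc_sub {R w : ℝ} (hw : 0 < w) : Sc R w ⊆ Tw R w := fun _ hz =>
  ⟨⟨by linarith [hz.1.1], by linarith [hz.1.2]⟩, hz.2.trans_lt (by norm_num)⟩

/-- The values u and u' on the window, for the data d in the chart σ. -/
structure Tp (R w : ℝ) (h K : X3 → M3) (u u' : X3 → Ix → ℝ) : Prop where
  pt : ∀ z ∈ Tw R w, (0 < u z O ∧ 0 < detP (u z) ∧ Ind (u z) (h z) (K z) ∧ Cn u z) ∧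
    (0 < u' z O ∧ 0 < detP (u' z) ∧ Cn u' z) ∧ RT u z = u z ∧
    (z.1 ≤ R - 3 / 2 * w ∨ 3 ≤ ‖z.2‖ → u' z = u z)

open Classical in
/-- The change of the induced form F. -/
def chg (F : (Ix → ℝ) → M3) (w R : ℝ) (u u' : X3 → Ix → ℝ) (z : X3) : M3 :=
  if z ∈ Tw R w then cu9 w R z • (F (u' z) - F (u z)) else 0

section
variable {F : (Ix → ℝ) → M3} {w R : ℝ} {h K : X3 → M3} {u u' : X3 → Ix → ℝ} {z : X3}

theorem chg_zero (hw : 0 < w) (t : Tp R w h K u u') (hz : z ∉ Sc R w) : chg F w R u u' z = 0 := by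
  rw [chg]
  split_ifs with k
  · by_cases k1 : R + 19 / 8 * w ≤ z.1
    · rw [cu9_zero hw k1, zero_smul]
    · rw [(t.pt z k).2.2.2 (by
        by_contra c
        push Not at c
        exact hz ⟨⟨c.1.le, (not_le.1 k1).le⟩, c.2.le⟩), sub_self, smul_zero]
  · rfl

theorem chg_ev (hz : z ∈ Tw R w) (i j : Fin 3) : (fun x => chg F w R u u' x i j) =ᶠ[𝓝 z]
    fun x => cu9 w R x * (F (u' x) i j - F (u x) i j) := by
  filter_upwards [(tw_open R w).mem_nhds hz] with x hx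
  simp [chg, hx]

theorem chg_ev0 (hw : 0 < w) (t : Tp R w h K u u') (hz : z ∉ Tw R w) (i j : Fin 3) :
    (fun x => chg F w R u u' x i j) =ᶠ[𝓝 z] fun _ => 0 := by
  filter_upwards [(Sc_closed R w).isOpen_compl.mem_nhds fun k => hz (Sc_sub hw k)] with x hx
  simp [chg_zero hw t hx]

theorem chg_ok {c : ℝ} (hw : 0 < w) (t : Tp R w h K u u') (hc : 0 ≤ c) (i j : Fin 3)
    (k : ContDiffOn ℝ ∞ (fun x => cu9 w R x * (F (u' x) i j - F (u x) i j)) (Tw R w) ∧
      ∀ z ∈ Tw R w, Sa 1 11 (fun x => cu9 w R x * (F (u' x) i j - F (u x) i j)) z c) :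
    (ContDiff ℝ ∞ fun x => chg F w R u u' x i j) ∧ ∀ α : List (Fin 3), α.length ≤ 11 → ∀ y,
      |pdl α (fun x => chg F w R u u' x i j) y| ≤ c := by
  refine ⟨contDiff_iff_contDiffAt.2 fun y => ?_, fun α hα y => ?_⟩ <;> by_cases hy : y ∈ Tw R w
  · exact (k.1.contDiffAt ((tw_open R w).mem_nhds hy)).congr_of_eventuallyEq (chg_ev hy i j)
  · exact contDiffAt_const.congr_of_eventuallyEq (chg_ev0 hw t hy i j)
  · rw [pdl_ev (chg_ev hy i j)]
    simpa using k.2 y hy α hα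
  · rw [pdl_ev (chg_ev0 hw t hy i j)]
    simpa using sa_mono (sa_const (n := 11) (z := y) zero_le_one 0) zero_le_one le_rfl le_rfl
      (abs_zero.trans_le hc) α hα

end

/-! ### The reflection -/

theorem sn_sn (M : M3) : Sn * (Sn * M * Sn) * Sn = M := by
  ext i j
  rw [Sn_conj, Sn_conj]
  fin_cases i <;> fin_cases j <;> simp [sx]

theorem ng_sm : ContDiff ℝ ∞ ng := by unfold ng; fun_prop

theorem pd_ng {h K : X3 → M3} (D : PD h K) :
    PD (fun z => Sn * h (ng z) * Sn) fun z => Sn * K (ng z) * Sn := by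
  have t : Snᵀ = Sn := by
    ext i j
    fin_cases i <;> fin_cases j <;> simp [Sn]
  have u : Sn * Sn = 1 := by
    ext i j
    fin_cases i <;> fin_cases j <;> simp [Sn, mul_apply, Fin.sum_univ_three]
  refine ⟨fun a b => ?_, fun a b => ?_, fun z => ⟨?_, ?_⟩⟩
  · simp only [Sn_conj]
    exact contDiff_const.mul ((D.sh a b).comp ng_sm)
  · simp only [Sn_conj]
    exact contDiff_const.mul ((D.sK a b).comp ng_sm)
  · have := (D.pos (ng z)).1.mul_mul_conjTranspose_same (B := Sn)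
      (vecMul_injective_iff_isUnit.2 (IsUnit.of_mul_eq_one _ u))
    rwa [conjTranspose_eq_transpose_of_trivial, t] at this
  · rw [IsSymm, transpose_mul, transpose_mul, t, (D.pos _).2, Matrix.mul_assoc]

theorem pg_f (σ : Bool) (F : X → M3) : pg (lb false σ) F = fun z => Sn * pb σ F (ng z) * Sn :=
  funext (pg_iv σ F)

theorem pd_lb {d : Dat} (hd : PDy d) (b σ : Bool) : PD (pg (lb b σ) d.h) (pg (lb b σ) d.K) := by
  cases b
  · rw [pg_f, pg_f]
    exact pd_ng (sl2 d σ hd).1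
  · exact (sl2 d σ hd).1

/-- The push forward for both ends. -/
theorem pshb (s : ℝ) (m : ℕ) {r : ℝ} (hr : 0 ≤ r) : ∃ C : ℝ, 0 ≤ C ∧ ∀ (b σ : Bool) (d : Dat)
    (h' K' : X3 → M3) (R c : ℝ), PDy d → PD (pg (lb b σ) d.h + h') (pg (lb b σ) d.K + K') →
    (∀ y : X3, |y.1 - R| ≤ r ∧ ‖y.2‖ ≤ r ∨ h' y = 0 ∧ K' y = 0) →
    (∀ α : List (Fin 3), α.length ≤ m → ∀ y i j,
      |pdl α (fun z => h' z i j) y| ≤ c ∧ |pdl α (fun z => K' z i j) y| ≤ c) →
    ∃ d', PDy d' ∧ pg (lb b σ) d'.h = pg (lb b σ) d.h + h' ∧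
      pg (lb b σ) d'.K = pg (lb b σ) d.K + K' ∧
      pm s m d' d ≤ ENNReal.ofReal (C * c * (1 + |R|) ^ |s|) ∧
      ∀ y, (∀ z, y = lb b σ z → h' z = 0 ∧ K' z = 0) → d'.h y = d.h y ∧ d'.K y = d.K y := by
  obtain ⟨C, C0, hC⟩ := psh s m hr
  have cu : ∀ (y : X3) (R : ℝ), |y.1 - R| ≤ r → ‖y.2‖ ≤ r → y ∈ closedBall (R, 0, 0) r :=
    fun y R k1 k2 => mem_closedBall_iff_norm.2 (max_le k1 (by
      simpa [show ((0 : ℝ), (0 : ℝ)) = 0 from rfl] using k2))
  refine ⟨C, C0, fun b σ d h' K' R c hd hP h1 h2 => ?_⟩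
  cases b
  swap
  · exact hC σ d h' K' R c hd hP (fun y hy => (h1 y).resolve_left fun k => hy (cu y R k.1 k.2)) h2
  have e1 : ∀ (F : X → M3) (H : X3 → M3), (pb σ F + fun z => Sn * H (ng z) * Sn) =
      fun z => Sn * (pg (lb false σ) F + H) (ng z) * Sn := fun F H => funext fun z => by
    simp only [pg_f, Pi.add_apply, Matrix.mul_add, Matrix.add_mul, ng_ng, sn_sn]
  have e2 : ∀ (F F' : X → M3) (H : X3 → M3), (pb σ F' = pb σ F + fun z => Sn * H (ng z) * Sn) →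
      pg (lb false σ) F' = pg (lb false σ) F + H := fun F F' H k => funext fun z => by
    rw [pg_f σ F', k, e1]
    simp only [ng_ng, sn_sn]
  have bd : ∀ (H : X3 → M3) α y i j, |pdl α (fun z => (Sn * H (ng z) * Sn) i j) y| =
      |pdl α (fun z => H z i j) (ng y)| := fun H α y i j => by
    have : |sx i * sx j| = 1 := by fin_cases i <;> fin_cases j <;> simp [sx]
    simp only [Sn_conj]
    rw [pdl_ng' α _ fun z => H z i j, this, one_mul]
  obtain ⟨d', p, k1, k2, k3, k4⟩ := hC σ d (fun z => Sn * h' (ng z) * Sn)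
    (fun z => Sn * K' (ng z) * Sn) (-R) c hd (by rw [e1, e1]; exact pd_ng hP)
    (fun y hy => by
      rcases h1 (ng y) with k | k
      · exact absurd (cu y (-R) (by
          rw [← abs_neg]
          exact le_of_eq_of_le (by simp only [ng]; ring_nf) k.1) k.2) hy
      · simp [k.1, k.2])
    fun α hα y i j => by rw [bd, bd]; exact h2 α hα _ i j
  refine ⟨d', p, e2 _ _ _ k1, e2 _ _ _ k2, by rwa [abs_neg] at k3, fun y k => k4 y fun z hz => ?_⟩
  have := k (ng z) (by rw [hz, lb, cond_false, P354YJ.iv_phi, ng_ng])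
  simp [this.1, this.2]

/-- The construction of the data. -/
theorem kd_ex : ∃ N : ℕ, ∀ s : ℝ, ∀ w > 0, ∃ C : ℝ, 0 ≤ C ∧
    ∀ (a : Dh) b σ (d : Dat), a.w = w → PDy d →
      Tp a.R w (pg (lb b σ) d.h) (pg (lb b σ) d.K) a.u a.u' → ∃ d', PDy d' ∧
      pm s 11 d' d ≤ ENNReal.ofReal (C * (a.E * a.G ^ N) * (1 + |a.R|) ^ |s|) ∧
      (∀ z ∈ Tw a.R w, z.1 ≤ a.R + 9 / 4 * w →
        Ind (a.u' z) (pg (lb b σ) d'.h z) (pg (lb b σ) d'.K z)) ∧
      ∀ y, (∀ z ∈ Sc a.R w, y ≠ lb b σ z) → d'.h y = d.h y ∧ d'.K y = d.K y := by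
  obtain ⟨N, hN⟩ := dif_bd
  refine ⟨N, fun s w hw => ?_⟩
  obtain ⟨C, C0, hC⟩ := pshb s 11 (r := 3 * w + 3) (by positivity)
  refine ⟨C, C0, fun a b σ d aw hd t => ?_⟩
  replace hN := hN a
  rw [aw] at hN
  have c0 : 0 ≤ a.E * a.G ^ N := mul_nonneg a.hE (pow_nonneg (zero_le_two.trans a.hG) _)
  have k1 := fun i j => chg_ok (F := hM) hw t c0 i j (hN i j).1
  have k2 := fun i j => chg_ok (F := kM) hw t c0 i j (hN i j).2
  have D := pd_lb hd b σ
  generalize pg (lb b σ) d.h = h, pg (lb b σ) d.K = K, hC b σ d = hC at *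
  have val : ∀ z ∈ Tw a.R w, (h + chg hM w a.R a.u a.u') z =
      (1 - cu9 w a.R z) • h z + cu9 w a.R z • hM (a.u' z) ∧ (K + chg kM w a.R a.u a.u') z =
      (1 - cu9 w a.R z) • K z + cu9 w a.R z • kM (a.u' z) := fun z hz => by
    obtain ⟨e1, e2⟩ := ind_iff.1 (t.pt z hz).1.2.2.1
    simp only [Pi.add_apply, chg, if_pos hz, ← e1, ← e2]
    exact ⟨by module, by module⟩
  obtain ⟨d', p, e1, e2, b, o⟩ := hC (chg hM w a.R a.u a.u') (chg kM w a.R a.u a.u') a.R _ hd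
    ⟨fun i j => (D.sh i j).add (k1 i j).1, fun i j => (D.sK i j).add (k2 i j).1, fun z => by
      by_cases hz : z ∈ Tw a.R w
      · obtain ⟨-, ⟨q1, q2, q3⟩, -⟩ := t.pt z hz
        rw [(val z hz).1, (val z hz).2]
        refine ⟨?_, ((D.pos z).2.smul _).add ((kM_sym q3).smul _)⟩
        rcases (show 0 ≤ cu9 w a.R z from Real.smoothTransition.nonneg _).eq_or_lt with k | k
        · rw [← k]
          simpa using (D.pos z).1
        · exact ((hM_pos q1 q2.ne').smul k).posSemidef_add ((D.pos z).1.posSemidef.smul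
            (sub_nonneg.2 (Real.smoothTransition.le_one _)))
      · simpa [chg, hz] using D.pos z⟩
    (fun y => (em (y ∈ Sc a.R w)).imp (fun k => ⟨abs_le.2 ⟨by linarith [k.1.1],
      by linarith [k.1.2]⟩, by linarith [k.2]⟩) fun k => ⟨chg_zero hw t k, chg_zero hw t k⟩)
    fun α hα y i j => ⟨(k1 i j).2 α hα y, (k2 i j).2 α hα y⟩
  refine ⟨d', p, b, fun z hz k => ind_iff.2 ?_, fun y k => o y fun z hz => ?_⟩
  · rw [e1, e2, (val z hz).1, (val z hz).2, cu9_one hw k]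
    simp
  · exact ⟨chg_zero hw t fun c => k z c hz, chg_zero hw t fun c => k z c hz⟩

/-! ### The initial values -/

/-- ROT together with the constraints. -/
theorem rot_cc {h K : X3 → M3} {u : X3 → Ix → ℝ} {D : Set X3} (hP : PD h K) (hD : IsOpen D)
    (hu : ∀ i, ContDiffOn ℝ ∞ (fun y => u y i) D)
    (H : ∀ y ∈ D, 0 < u y O ∧ 0 < detP (u y) ∧ Ind (u y) (h y) (K y) ∧ Cn u y) :
    ∀ y ∈ D, CC h K y := by
  intro y hy
  have sm : ∀ y ∈ D, ∀ i, ContDiffAt ℝ ∞ (fun z => u z i) y := fun y hy i =>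
    (hu i).contDiffAt (hD.mem_nhds hy)
  refine (cv h K hP (P354YJ.rotF u (fun z => P354YJ.cs (u z)) fun z => P354YJ.sn (u z)) D hD
    (fun y hy => ?_) y hy).2
  obtain ⟨h1, h2, h3, h4⟩ := H y hy
  have k := P354YJ.cs_sn (P354YJ.nn_pos h2)
  obtain ⟨-, c1, s1⟩ := P354YJ.cs_smooth (sm y hy) (P354YJ.nn_pos h2)
  refine ⟨h1, (P354YJ.rot_sym h2 _).2, (P354YJ.detP_rot k _ _).symm ▸ h2,
    (P354YJ.rot_sym h2 _).1, fun a b => ?_, P354YJ.constr_ang (sm y hy) c1 s1 ?_ h4⟩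
  · obtain ⟨e1, e2⟩ := P354YJ.ind_rot k (P354YJ.ang u (fun z => P354YJ.cs (u z))
      (fun z => P354YJ.sn (u z)) y) (u y) (e a) (e b)
    exact ⟨e1.trans (h3 a b).1, e2.trans (h3 a b).2⟩
  · exact (hD.eventually_mem hy).mono fun z hz => P354YJ.cs_sn (P354YJ.nn_pos (H z hz).2.1)

/-- The values of data whose pull back to the labels is induced by u on the open set D. -/
theorem ud_lb {b σ : Bool} {d : Dat} {u : X3 → Ix → ℝ} {D : Set X3} (hd : PDy d) (hD : IsOpen D)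
    (sm : ∀ i, ContDiffOn ℝ ∞ (fun y => u y i) D)
    (h : ∀ y ∈ D, 0 < u y O ∧ 0 < detP (u y) ∧
      Ind (u y) (pg (lb b σ) d.h y) (pg (lb b σ) d.K y) ∧ Cn u y) (z : X3)
    (hz : (sgn b * z.1, z.2) ∈ D) : Ud d σ z = Sd b (RT u) z := by
  have P := pd_lb hd b σ
  have r := P354YJ.rotThm _ _ u D P hD sm h
  have cc := rot_cc P hD sm h
  cases b
  swap
  · exact r z (by simpa [sgn] using hz)
  have m : ng z ∈ D := by simpa [sgn, ng] using hz
  rw [Sd, cond_false, ← r _ m]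
  refine (cv _ _ (sl2 d σ hd).1 (fun y => sw (U0 (pg (lb false σ) d.h) (pg (lb false σ) d.K)
    (ng y))) (ng ⁻¹' D) (hD.preimage ng_sm.continuous) (fun y hy => ?_) z m).1.symm
  obtain ⟨s1, s2, s3, s4, s5, s6⟩ := (sl1 _ _ P).2 (ng y)
  refine ⟨s1, s2, s3, s4, ?_, P354YJ.constr_sw (s6.1 (cc _ hy)) (P354YJ.DT_sw _ y)⟩
  have := P354YJ.ind_sw s5
  rw [show pg (lb false σ) d.h (ng y) = _ from pg_iv σ _ _,
    show pg (lb false σ) d.K (ng y) = _ from pg_iv σ _ _, sn_sn, sn_sn, ng_ng] at this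
  exact this

end Vale.Agent.P354YV
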