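import Vale.Agent.P354YV.Bot
import Vale.Agent.P354YJ.Rot

/-!
The slab from the data.
-/

open scoped ContDiff
open Set

noncomputable section

namespace Vale.Agent.P354YV

open Vale.Agent.P354n (R4)
open Vale.Agent.P354H (X3)
open Vale.Agent.P354C
open Vale.Agent.P354A (Pb)
open Vale.Agent.P354XB (Gro Slab Prf SLAB)

variable {T δ R w G G' ν β : ℝ} {c π : ℝ → ℝ} {n m : ℕ}

theorem gro_mono (h : Gro T G ν c) (k : G ≤ G') : Gro T G' ν c :=
  ⟨h.cont, h.nn, ⟨h.hT.1, h.hT.2.trans k⟩, h.hG.trans k, ⟨h.hν.1, h.hν.2.1,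
    h.hν.2.2.trans (mul_le_mul_of_nonneg_left k h.hν.1.le)⟩,
    h.int.trans (Real.log_le_log (two_pos.trans_le h.hG) k)⟩

theorem pb_mono {f : R4 → ℝ} {p : R4} {a b : ℝ} (h : Pb n f p a) (hm : m ≤ n) (k : a ≤ b) :
    Pb m f p b := fun α hα => (h α (hα.trans hm)).trans k

theorem pz_mono {l l' th x y : ℝ} {f : R4 → ℝ} {p : R4} (h : P354XB.Pz l th n f p x) (hl : 0 ≤ l)
    (ht : 0 ≤ th) (k : l ≤ l') (hm : m ≤ n) (hx : x ≤ y) : P354XB.Pz l' th m f p y := fun a ha => by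
  have x0 : 0 ≤ x := by simpa [P354K.n0] using (abs_nonneg _).trans (h [] (Nat.zero_le _))
  exact (h a (ha.trans hm)).trans (mul_le_mul hx (by gcongr) (by positivity) (x0.trans hx))

theorem slab_mono {U : R4 → Ix → ℝ} (h : Slab n T δ R w G β c π U) (hm : m ≤ n) (h0 : 0 < G)
    (k : G ≤ G') : Slab m T δ R w G' β c π U :=
  ⟨h.fu, fun p hp => by
    obtain ⟨h1, h2, h3, h4, h5, h6⟩ := h.bd p hp
    exact ⟨(inv_anti₀ h0 k).trans h1, (inv_anti₀ h0 k).trans h2, h3, h4, h5, fun i =>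
      ⟨pb_mono (h6 i).1 hm k, pb_mono (h6 i).2 hm k⟩⟩, h.rate.imp fun _ t =>
    have t0 := zero_le_one.trans t.1.1
    ⟨⟨t.1.1, t.1.2.trans k⟩, fun p hp i => ⟨fun i1 i2 =>
      pz_mono ((t.2 p hp i).1 i1 i2) h0.le t0 k hm le_rfl, fun hi =>
      pz_mono ((t.2 p hp i).2 hi) h0.le t0 k hm (mul_le_mul_of_nonneg_right (Real.log_le_log h0 k)
        (by unfold P354XB.kp; split_ifs <;> positivity))⟩⟩, h.cπ, h.int⟩

theorem prf_mono {α : X3 → Ix → ℝ} (h : Prf n R w G α) (hm : m ≤ n) (k : G ≤ G') :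
    Prf m R w G' α :=
  ⟨h.sm, h.pol, h.supp, fun i z => sa_mono (h.bd i z) zero_le_one le_rfl hm k⟩

theorem RA_eq (c s : X3 → ℝ) (u : X3 → Ix → ℝ) : RA c s u = P354YJ.rotF u c s := by
  funext z
  rw [RA, P354YJ.rotF]
  congr 1
  funext r
  fin_cases r <;>
    simp [fA, ang, P354YJ.ang, P354YJ.omg, P354YJ.wv, P354YJ.lin3, P354H.pd] <;> ring

theorem exp : EXP := fun c s u _ hD hc hs h hu z hz _ => by
  have m := hD.mem_nhds hz
  refine ⟨fun k => ?_, fun _ _ k a b => ?_⟩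
  · rw [RA_eq]
    exact P354YJ.constr_ang (fun i => (hu i).contDiffAt m) (hc.contDiffAt m) (hs.contDiffAt m)
      (Filter.eventually_of_mem m h) k
  · have := P354YJ.ind_rot (h z hz) (fA c s z (u z)) (u z) (P354H.e a) (P354H.e b)
    exact ⟨this.1.trans (k a b).1, this.2.trans (k a b).2⟩

theorem botThm : BOT := bot exp

theorem slabd (hS : SLAB) : SLABD := by
  intro β n
  obtain ⟨w0, hw0, H⟩ := hS β n
  refine ⟨w0, hw0, fun w hw => ?_⟩
  obtain ⟨n', N1, H⟩ := H w hw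
  refine ⟨n', fun m hm => ?_⟩
  obtain ⟨N0, B⟩ := botThm n' m hm
  refine ⟨N0, fun q => ⟨(q + N0 + 1) * N1, fun T δ R G ν c π U α hT hδ hG hU hα => ?_⟩⟩
  obtain ⟨a, ha, za, B⟩ := B T δ R w G β c π U α hT hδ hw.1 hG.hG hU hα
  refine ⟨a, ha, za, fun A l h K h' K' v v' hl hA hAl hv hv' k => ?_⟩
  have G1 : 1 ≤ G := one_le_two.trans hG.hG
  have l1 : 1 ≤ l := (one_le_pow₀ G1).trans hl
  have GG : G ≤ G ^ (q + N0 + 1) := le_self_pow₀ G1 (Nat.succ_ne_zero _)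
  obtain ⟨u, su, hu⟩ := B A l _ h K h' K' v v' l1 hv hv' fun z hz => ⟨(k z hz).1, (k z hz).2.2⟩
  rw [pow_mul] at hl hAl ⊢
  obtain ⟨δ', hδ', U', f, H⟩ := H T δ R _ ν A l c π U α u hT hδ (gro_mono hG GG)
    (slab_mono hU (hm.trans m.le_succ) (one_pos.trans_le G1) GG) (prf_mono hα hm GG) hl hA hAl su
    fun z hz => ⟨(hu z hz).1, fun e => (hu z hz).2.2.1 ((k z hz).2.1 e), fun i =>
      sa_mono ((hu z hz).2.2.2 i) (zero_le_one.trans l1) le_rfl le_rfl (by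
        rw [div_mul_eq_mul_div, mul_assoc, ← pow_add]
        exact div_le_div_of_nonneg_right (mul_le_mul_of_nonneg_left
          (pow_le_pow_right₀ G1 (Nat.le_succ _)) hA.le) (zero_le_one.trans l1))⟩
  refine ⟨δ', hδ', U', f, fun p hp => ⟨(H p hp).1, (H p hp).2.1, fun e => ?_, (H p hp).2.2.2⟩⟩
  rw [(H p hp).2.2.1 e]
  obtain ⟨-, ⟨h1, h2⟩, h3⟩ := hp
  exact (hu p.2 ⟨⟨by linarith [hw.1], by linarith [hw.1]⟩, by linarith⟩).2.1

end Vale.Agent.P354YV
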